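import Crest.Agent.R316.Defs
/-!
# The height `l1` and the degree under the basic operations (task R316-L1)

`l1 f = ∑ β ∈ s, |coeff β f|` for every finset `s ⊇ support`.  `l1_add`, then `l1_sum`; `l1 (monomial β c) = |c|`;
`l1_mul` from `f * g = ∑ ∑ monomial (β + γ) (c_β d_γ)` (`MvPolynomial.mul_def` / `as_sum`); `bind₁ g f =
∑ β, C c_β * ∏ i ∈ β.support, g i ^ β i` (`aeval_def`, `eval₂_eq`).
-/
set_option autoImplicit false
namespace Crest.Agent.R316
open MvPolynomial Finset

theorem L1A.l1_eq {f : MP} {s : Finset (ℕ →₀ ℕ)} (h : f.support ⊆ s) :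
    l1 f = ∑ β ∈ s, (coeff β f).natAbs :=
  sum_subset h fun β _ hβ => by rw [notMem_support_iff.1 hβ]; rfl

theorem l1_monomial (β : ℕ →₀ ℕ) (c : ℤ) : l1 (monomial β c) = c.natAbs := by
  unfold l1
  by_cases h : c = 0
  · simp [h]
  · classical
    rw [support_monomial, if_neg h]; simp

theorem l1_C (c : ℤ) : l1 (C c) = c.natAbs := l1_monomial 0 c

theorem l1_X (i : ℕ) : l1 (X i) = 1 := l1_monomial _ 1

theorem l1_zero : l1 0 = 0 := by simp [l1]

theorem l1_one : l1 1 = 1 := l1_C 1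

theorem l1_neg (f : MP) : l1 (-f) = l1 f := by
  simp [l1]

theorem l1_add (f g : MP) : l1 (f + g) ≤ l1 f + l1 g := by
  classical
  rw [L1A.l1_eq (s := f.support ∪ g.support) support_add,
    L1A.l1_eq (f := f) (s := f.support ∪ g.support) subset_union_left,
    L1A.l1_eq (f := g) (s := f.support ∪ g.support) subset_union_right, ← sum_add_distrib]
  exact sum_le_sum fun β _ => by rw [coeff_add]; exact Int.natAbs_add_le _ _

theorem l1_sum {ι : Type*} (s : Finset ι) (f : ι → MP) : l1 (∑ i ∈ s, f i) ≤ ∑ i ∈ s, l1 (f i) := by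
  classical
  induction s using Finset.induction_on with
  | empty => simp [l1_zero]
  | insert a s ha ih =>
    rw [sum_insert ha, sum_insert ha]
    exact (l1_add _ _).trans (by omega)

theorem l1_mul (f g : MP) : l1 (f * g) ≤ l1 f * l1 g := by
  conv_lhs => rw [f.as_sum, g.as_sum, sum_mul_sum]
  refine (l1_sum _ _).trans ?_
  unfold l1
  rw [sum_mul_sum]
  refine sum_le_sum fun β _ => (l1_sum _ _).trans (sum_le_sum fun γ _ => ?_)
  rw [monomial_mul, l1_monomial, Int.natAbs_mul]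

theorem l1_pow (f : MP) (n : ℕ) : l1 (f ^ n) ≤ l1 f ^ n := by
  induction n with
  | zero => simp [l1_one]
  | succ n ih =>
    rw [pow_succ, pow_succ]
    exact (l1_mul _ _).trans (Nat.mul_le_mul_right _ ih)

theorem l1_prod {ι : Type*} (s : Finset ι) (f : ι → MP) : l1 (∏ i ∈ s, f i) ≤ ∏ i ∈ s, l1 (f i) := by
  classical
  induction s using Finset.induction_on with
  | empty => simp [l1_one]
  | insert a s ha ih =>
    rw [prod_insert ha, prod_insert ha]
    exact (l1_mul _ _).trans (Nat.mul_le_mul_left _ ih)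

theorem l1_rename (σ : ℕ → ℕ) (f : MP) : l1 (rename σ f) ≤ l1 f := by
  conv_lhs => rw [f.as_sum, map_sum]
  refine (l1_sum _ _).trans (sum_le_sum fun β _ => ?_)
  rw [rename_monomial, l1_monomial]

theorem l1_bind₁ {g : ℕ → MP} {M : ℕ} (hM : 1 ≤ M) (hg : ∀ i, l1 (g i) ≤ M) (f : MP) :
    l1 (bind₁ g f) ≤ l1 f * M ^ f.totalDegree := by
  conv_lhs => rw [f.as_sum, map_sum]
  refine (l1_sum _ _).trans ?_
  rw [l1, sum_mul]
  refine sum_le_sum fun β hβ => ?_
  rw [bind₁_monomial]
  refine (l1_mul _ _).trans ?_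
  rw [l1_C]
  refine Nat.mul_le_mul_left _ ((l1_prod _ _).trans ?_)
  calc ∏ i ∈ β.support, l1 (g i ^ β i) ≤ ∏ i ∈ β.support, M ^ β i :=
        prod_le_prod' fun i _ => (l1_pow _ _).trans (Nat.pow_le_pow_left (hg i) _)
    _ = M ^ (β.sum fun _ e => e) := by rw [prod_pow_eq_pow_sum]; rfl
    _ ≤ _ := Nat.pow_le_pow_right hM (le_totalDegree hβ)

theorem totalDegree_bind₁ {g : ℕ → MP} {δ : ℕ} (hg : ∀ i, (g i).totalDegree ≤ δ) (f : MP) :
    (bind₁ g f).totalDegree ≤ f.totalDegree * δ := by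
  conv_lhs => rw [f.as_sum, map_sum]
  refine totalDegree_finsetSum_le fun β hβ => ?_
  rw [bind₁_monomial]
  refine (totalDegree_mul _ _).trans ?_
  rw [totalDegree_C, zero_add]
  refine (totalDegree_finsetProd _ _).trans ?_
  calc ∑ i ∈ β.support, (g i ^ β i).totalDegree ≤ ∑ i ∈ β.support, β i * δ :=
        sum_le_sum fun i _ => (totalDegree_pow _ _).trans (Nat.mul_le_mul_left _ (hg i))
    _ = (β.sum fun _ e => e) * δ := by rw [← sum_mul]; rfl
    _ ≤ _ := Nat.mul_le_mul_right _ (le_totalDegree hβ)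

theorem l1_cf (lo m : ℕ) (e : ℕ → ℕ) (f : MP) : l1 (cf lo m e f) ≤ l1 f := by
  unfold cf
  refine (l1_sum _ _).trans ?_
  simp only [l1_monomial]
  exact sum_le_sum_of_subset (filter_subset _ _)

theorem totalDegree_cf (lo m : ℕ) (e : ℕ → ℕ) (f : MP) :
    (cf lo m e f).totalDegree ≤ f.totalDegree := by
  unfold cf
  refine totalDegree_finsetSum_le fun β hβ => (totalDegree_monomial_le _ _).trans ?_
  refine le_trans ?_ (le_totalDegree (mem_filter.1 hβ).1)
  unfold Finsupp.sum
  rw [Finsupp.support_filter]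
  refine le_trans (sum_le_sum fun i _ => ?_) (sum_le_sum_of_subset (filter_subset _ _))
  simp only [Finsupp.filter_apply, id]
  split_ifs <;> simp

theorem natAbs_coeff_le (β : ℕ →₀ ℕ) (f : MP) : (coeff β f).natAbs ≤ l1 f := by
  by_cases h : β ∈ f.support
  · exact single_le_sum (f := fun β => (coeff β f).natAbs) (fun _ _ => Nat.zero_le _) h
  · rw [notMem_support_iff.1 h]; simp

theorem norm_aeval_le {K : Type*} [NormedField K] {v : ℕ → K} {M : ℝ} (hM : 1 ≤ M)
    (hv : ∀ i, ‖v i‖ ≤ M) (f : MP) : ‖aeval v f‖ ≤ l1 f * M ^ f.totalDegree := by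
  conv_lhs => rw [f.as_sum, map_sum]
  refine (norm_sum_le _ _).trans ?_
  rw [l1, Nat.cast_sum, sum_mul]
  refine sum_le_sum fun β hβ => ?_
  rw [aeval_monomial, norm_mul]
  have h1 : ‖algebraMap ℤ K (coeff β f)‖ ≤ ((coeff β f).natAbs : ℝ) := by
    have h0 : ∀ n : ℕ, ‖(n : K)‖ ≤ n := fun n => by
      simpa using Nat.norm_cast_le (α := K) n
    rw [eq_intCast]
    generalize coeff β f = z
    obtain ⟨n, rfl | rfl⟩ := z.eq_nat_or_neg <;> simpa using h0 n
  have h2 : ‖β.prod fun i k => v i ^ k‖ ≤ M ^ f.totalDegree := by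
    unfold Finsupp.prod
    rw [norm_prod]
    calc ∏ i ∈ β.support, ‖v i ^ β i‖ ≤ ∏ i ∈ β.support, M ^ β i :=
          prod_le_prod (fun _ _ => norm_nonneg _) fun i _ => by
            rw [norm_pow]; exact pow_le_pow_left₀ (norm_nonneg _) (hv i) _
      _ = M ^ (β.sum fun _ e => e) := by rw [prod_pow_eq_pow_sum]; rfl
      _ ≤ _ := pow_le_pow_right₀ hM (le_totalDegree hβ)
  exact mul_le_mul h1 h2 (norm_nonneg _) (Nat.cast_nonneg _)

theorem coeff_uni (i : ℕ) (b : Polynomial ℤ) (k : ℕ) :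
    coeff (Finsupp.single i k) (uni i b) = b.coeff k := by
  classical
  induction b using Polynomial.induction_on' with
  | add p q hp hq => simp only [map_add, coeff_add, hp, hq, Polynomial.coeff_add]
  | monomial n a =>
    unfold uni
    rw [Polynomial.aeval_monomial, X_pow_eq_monomial, algebraMap_eq, C_mul_monomial, coeff_monomial,
      Polynomial.coeff_monomial]
    simp [Finsupp.single_left_inj, (Finsupp.single_injective i).eq_iff]

theorem natAbs_coeff_uni_le (b : Polynomial ℤ) (k : ℕ) : (b.coeff k).natAbs ≤ l1 (uni 0 b) := by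
  rw [← coeff_uni 0]; exact natAbs_coeff_le _ _

theorem natDegree_le_uni (b : Polynomial ℤ) : b.natDegree ≤ (uni 0 b).totalDegree := by
  by_cases hb : b = 0
  · simp [hb]
  · have h : Finsupp.single 0 b.natDegree ∈ (uni 0 b).support := by
      rw [mem_support_iff, coeff_uni]
      exact Polynomial.leadingCoeff_ne_zero.2 hb
    simpa using le_totalDegree h

/-- Cauchy's bound -/
theorem norm_root_le {b : Polynomial ℤ} (hb : b ≠ 0) {r : ℂ} (hr : Polynomial.aeval r b = 0) :
    ‖r‖ ≤ l1 (uni 0 b) + 1 := by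
  have hinj : Function.Injective (algebraMap ℤ ℂ) := (algebraMap ℤ ℂ).injective_int
  have hb' : b.map (algebraMap ℤ ℂ) ≠ 0 := (Polynomial.map_ne_zero_iff hinj).2 hb
  have hroot : (b.map (algebraMap ℤ ℂ)).IsRoot r := by
    rw [Polynomial.IsRoot, Polynomial.eval_map_algebraMap, hr]
  have h := hroot.norm_lt_cauchyBound hb'
  have h2 : (b.map (algebraMap ℤ ℂ)).cauchyBound ≤ (l1 (uni 0 b) : NNReal) + 1 := by
    unfold Polynomial.cauchyBound
    refine add_le_add ?_ le_rfl
    have h3 : (1 : NNReal) ≤ ‖(b.map (algebraMap ℤ ℂ)).leadingCoeff‖₊ := by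
      rw [Polynomial.leadingCoeff_map_of_injective hinj, eq_intCast, Complex.nnnorm_intCast,
        ← NNReal.natCast_natAbs]
      exact_mod_cast Int.natAbs_pos.2 (Polynomial.leadingCoeff_ne_zero.2 hb)
    refine (div_le_self (zero_le) h3).trans (Finset.sup_le fun i _ => ?_)
    rw [Polynomial.coeff_map, eq_intCast, Complex.nnnorm_intCast, ← NNReal.natCast_natAbs]
    exact_mod_cast natAbs_coeff_uni_le b i
  exact_mod_cast (h.le.trans h2)

end Crest.Agent.R316
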