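import Crest.Agent.R316.Dig
import Crest.Agent.R316.L1
/-!
# Closure properties of the size bound `Bd` (task R316-BdLem)

Use `L1.lean` and `Dig.lean` (`PB.sup_lt`, `PB.sup_size`, `PT.exists_lt_pow`).  Typical arithmetic: if
`N < 2^s` and `l ≤ 2^2^q` then `N * l ≤ 2^2^(q+s+1)` and `l ^ N ≤ 2^2^(q+s)`.  Prove a few such lemmas first
(`x ≤ 2^2^a → y ≤ 2^2^b → x * y ≤ 2^2^(a+b+1)`, `x + y`, `x ≤ 2^2^a → n ≤ 2^b → x^n ≤ 2^2^(a+b)`, `n ≤ 2^n`).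
-/
set_option autoImplicit false
namespace Crest.Agent.R316
open Crest.Agent.PTime MvPolynomial Finset
variable {α β : Type} [Enc α] [Enc β]

theorem dd_mono {a b : ℕ} (h : a ≤ b) : 2 ^ 2 ^ a ≤ 2 ^ 2 ^ b :=
  Nat.pow_le_pow_right (by norm_num) (Nat.pow_le_pow_right (by norm_num) h)

theorem d_mono {a b : ℕ} (h : a ≤ b) : 2 ^ a ≤ 2 ^ b := Nat.pow_le_pow_right (by norm_num) h

theorem d_add_le (a b : ℕ) : 2 ^ a + 2 ^ b ≤ 2 ^ (a + b + 1) := by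
  have h1 : 2 ^ a ≤ 2 ^ (a + b) := d_mono (by omega)
  have h2 : 2 ^ b ≤ 2 ^ (a + b) := d_mono (by omega)
  rw [pow_succ]; omega

theorem d_le_dd (a : ℕ) : 2 ^ a ≤ 2 ^ 2 ^ a := d_mono Nat.lt_two_pow_self.le

theorem dd_mul {x y a b : ℕ} (hx : x ≤ 2 ^ 2 ^ a) (hy : y ≤ 2 ^ 2 ^ b) :
    x * y ≤ 2 ^ 2 ^ (a + b + 1) := by
  calc x * y ≤ 2 ^ 2 ^ a * 2 ^ 2 ^ b := Nat.mul_le_mul hx hy
    _ = 2 ^ (2 ^ a + 2 ^ b) := (pow_add _ _ _).symm
    _ ≤ _ := d_mono (d_add_le a b)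

theorem dd_add {x y a b : ℕ} (hx : x ≤ 2 ^ 2 ^ a) (hy : y ≤ 2 ^ 2 ^ b) :
    x + y ≤ 2 ^ 2 ^ (a + b + 1) := by
  have h1 : 1 ≤ 2 ^ a := Nat.one_le_two_pow
  have h2 : 1 ≤ 2 ^ b := Nat.one_le_two_pow
  calc x + y ≤ 2 ^ 2 ^ a + 2 ^ 2 ^ b := Nat.add_le_add hx hy
    _ ≤ 2 ^ 2 ^ (a + b) + 2 ^ 2 ^ (a + b) :=
        Nat.add_le_add (dd_mono (by omega)) (dd_mono (by omega))
    _ = 2 ^ (2 ^ (a + b) + 1) := by rw [pow_succ]; omega
    _ ≤ _ := by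
        refine d_mono ?_
        have : 1 ≤ 2 ^ (a + b) := Nat.one_le_two_pow
        rw [pow_succ]; omega

theorem dd_pow {x n a b : ℕ} (hx : x ≤ 2 ^ 2 ^ a) (hn : n ≤ 2 ^ b) : x ^ n ≤ 2 ^ 2 ^ (a + b) := by
  calc x ^ n ≤ (2 ^ 2 ^ a) ^ n := Nat.pow_le_pow_left hx n
    _ = 2 ^ (2 ^ a * n) := (pow_mul _ _ _).symm
    _ ≤ _ := by
        refine d_mono ?_
        rw [pow_add]; exact Nat.mul_le_mul_left _ hn

theorem Bd.major {f : α → MP} (h : Bd f) :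
    ∃ q : α → ℕ, PT q ∧ PB q ∧ ∀ a, (f a).totalDegree ≤ 2 ^ q a ∧ l1 (f a) ≤ 2 ^ 2 ^ q a := by
  obtain ⟨q, hq, h⟩ := h
  obtain ⟨q', h1, h2, h3⟩ := PB.major hq
  exact ⟨q', h1, h2, fun a => ⟨(h a).1.trans (d_mono (h3 a)), (h a).2.trans (dd_mono (h3 a))⟩⟩

theorem Bd.major₂ {f : α → ℕ → MP} (h : Bd (fun x : α × ℕ => f x.1 x.2)) {N : α → ℕ} (hN : PT N) :
    ∃ q : α → ℕ, PT q ∧ PB q ∧
      ∀ a, ∀ i < N a, (f a i).totalDegree ≤ 2 ^ q a ∧ l1 (f a i) ≤ 2 ^ 2 ^ q a := by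
  obtain ⟨q, hq, h⟩ := h
  obtain ⟨q', h1, h2, h3⟩ := PB.sup_lt (q := fun a i => q (a, i)) hq hN
  exact ⟨q', h1, h2, fun a i hi => ⟨(h (a, i)).1.trans (d_mono (h3 a i hi)),
    (h (a, i)).2.trans (dd_mono (h3 a i hi))⟩⟩

theorem Bd.const (f : MP) : Bd (fun _ : α => f) := by
  refine ⟨fun _ => f.totalDegree + l1 f, PB.const _, fun _ => ⟨?_, ?_⟩⟩
  · exact (Nat.lt_two_pow_self.le).trans (d_mono (by beta_reduce; omega))
  · exact (Nat.lt_two_pow_self.le.trans (d_le_dd _)).trans (dd_mono (by beta_reduce; omega))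

theorem Bd.comp {f : β → MP} {g : α → β} (hf : Bd f) (hg : PT g) : Bd (fun a => f (g a)) := by
  obtain ⟨q, hq, h⟩ := hf
  exact ⟨fun a => q (g a), hq.comp hg, fun a => h (g a)⟩

theorem Bd.subst {f : α → ℕ → MP} {φ : α → ℕ} (hf : Bd (fun x : α × ℕ => f x.1 x.2))
    (hφ : PB (fun a => (φ a).size)) : Bd (fun a => f a (φ a)) := by
  obtain ⟨q, hq, h⟩ := hf
  obtain ⟨q', _, h2, h3⟩ := PB.sup_size (q := fun a i => q (a, i)) hq hφ
  exact ⟨q', h2, fun a => ⟨(h (a, φ a)).1.trans (d_mono (h3 a _ le_rfl)),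
    (h (a, φ a)).2.trans (dd_mono (h3 a _ le_rfl))⟩⟩

theorem Bd.C_int {z : α → ℤ} (hz : PT z) : Bd (fun a => (C (z a) : MP)) := by
  refine ⟨fun a => sz (z a), PB.sz hz, fun a => ⟨by rw [totalDegree_C]; exact Nat.zero_le _, ?_⟩⟩
  rw [l1_C]
  exact (natAbs_lt_two_pow_sz _).le.trans (d_le_dd _)

theorem Bd.C_nat {z : α → ℕ} (hz : PB (fun a => (z a).size)) :
    Bd (fun a => (C (z a : ℤ) : MP)) := by
  refine ⟨fun a => (z a).size, hz, fun a => ⟨by rw [totalDegree_C]; exact Nat.zero_le _, ?_⟩⟩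
  rw [l1_C, Int.natAbs_natCast]
  exact (Nat.lt_size_self _).le.trans (d_le_dd _)

theorem Bd.X (i : α → ℕ) : Bd (fun a => (X (i a) : MP)) := by
  refine ⟨fun _ => 0, PB.const _, fun a => ⟨by simp, ?_⟩⟩
  rw [l1_X]; norm_num

theorem Bd.neg {f : α → MP} (hf : Bd f) : Bd (fun a => - f a) := by
  obtain ⟨q, hq, h⟩ := hf
  exact ⟨q, hq, fun a => ⟨by rw [totalDegree_neg]; exact (h a).1, by rw [l1_neg]; exact (h a).2⟩⟩

theorem Bd.add {f g : α → MP} (hf : Bd f) (hg : Bd g) : Bd (fun a => f a + g a) := by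
  obtain ⟨q, hq, h⟩ := hf
  obtain ⟨r, hr, h'⟩ := hg
  refine ⟨fun a => q a + r a + 1, by fun_prop, fun a => ⟨?_, (l1_add _ _).trans (dd_add (h a).2 (h' a).2)⟩⟩
  refine (totalDegree_add _ _).trans (max_le ?_ ?_)
  · exact (h a).1.trans (d_mono (by beta_reduce; omega))
  · exact (h' a).1.trans (d_mono (by beta_reduce; omega))

theorem Bd.mul {f g : α → MP} (hf : Bd f) (hg : Bd g) : Bd (fun a => f a * g a) := by
  obtain ⟨q, hq, h⟩ := hf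
  obtain ⟨r, hr, h'⟩ := hg
  refine ⟨fun a => q a + r a + 1, by fun_prop, fun a => ⟨?_, (l1_mul _ _).trans (dd_mul (h a).2 (h' a).2)⟩⟩
  exact (totalDegree_mul _ _).trans ((Nat.add_le_add (h a).1 (h' a).1).trans (d_add_le _ _))

theorem Bd.pow {f : α → MP} {n : α → ℕ} (hf : Bd f) (hn : PT n) : Bd (fun a => f a ^ n a) := by
  obtain ⟨q, hq, h⟩ := hf
  obtain ⟨r, _, hr, h'⟩ := PT.exists_lt_pow hn
  refine ⟨fun a => q a + r a, by fun_prop, fun a => ⟨?_, (l1_pow _ _).trans (dd_pow (h a).2 (h' a).le)⟩⟩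
  refine (totalDegree_pow _ _).trans ?_
  rw [pow_add, mul_comm]
  exact Nat.mul_le_mul (h a).1 (h' a).le

theorem Bd.ite {c : α → Prop} [∀ a, Decidable (c a)] {f g : α → MP} (hf : Bd f) (hg : Bd g) :
    Bd (fun a => if c a then f a else g a) := by
  obtain ⟨q, hq, h⟩ := hf
  obtain ⟨r, hr, h'⟩ := hg
  refine ⟨fun a => q a + r a, by fun_prop, fun a => ?_⟩
  by_cases hc : c a
  · simp only [if_pos hc]
    exact ⟨(h a).1.trans (d_mono (by beta_reduce; omega)), (h a).2.trans (dd_mono (by beta_reduce; omega))⟩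
  · simp only [if_neg hc]
    exact ⟨(h' a).1.trans (d_mono (by beta_reduce; omega)), (h' a).2.trans (dd_mono (by beta_reduce; omega))⟩

theorem Bd.sum_range {f : α → ℕ → MP} {N : α → ℕ} (hN : PT N)
    (hf : Bd (fun x : α × ℕ => f x.1 x.2)) : Bd (fun a => ∑ i ∈ range (N a), f a i) := by
  obtain ⟨q, _, hq, h⟩ := hf.major₂ hN
  obtain ⟨r, _, hr, h'⟩ := PT.exists_lt_pow hN
  refine ⟨fun a => r a + q a + 1, by fun_prop, fun a => ⟨?_, (l1_sum _ _).trans ?_⟩⟩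
  · refine (totalDegree_finsetSum _ _).trans (Finset.sup_le fun i hi => ?_)
    exact (h a i (mem_range.1 hi)).1.trans (d_mono (by beta_reduce; omega))
  · refine (Finset.sum_le_card_nsmul _ _ _ fun i hi => (h a i (mem_range.1 hi)).2).trans ?_
    rw [card_range, smul_eq_mul]
    exact dd_mul ((h' a).le.trans (d_le_dd _)) le_rfl

theorem Bd.prod_range {f : α → ℕ → MP} {N : α → ℕ} (hN : PT N)
    (hf : Bd (fun x : α × ℕ => f x.1 x.2)) : Bd (fun a => ∏ i ∈ range (N a), f a i) := by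
  obtain ⟨q, _, hq, h⟩ := hf.major₂ hN
  obtain ⟨r, _, hr, h'⟩ := PT.exists_lt_pow hN
  refine ⟨fun a => q a + r a, by fun_prop, fun a => ⟨?_, (l1_prod _ _).trans ?_⟩⟩
  · refine (totalDegree_finsetProd _ _).trans ?_
    refine (Finset.sum_le_card_nsmul _ _ _ fun i hi => (h a i (mem_range.1 hi)).1).trans ?_
    rw [card_range, smul_eq_mul, pow_add, mul_comm]
    exact Nat.mul_le_mul_left _ (h' a).le
  · refine (Finset.prod_le_pow_card _ _ _ fun i hi => (h a i (mem_range.1 hi)).2).trans ?_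
    rw [card_range]
    exact dd_pow le_rfl (h' a).le

theorem Bd.sub {f : α → MP} {g : α → ℕ → MP} {m : α → ℕ} (hm : PT m)
    (hg : Bd (fun x : α × ℕ => g x.1 x.2)) (hf : Bd f) : Bd (fun a => sub (m a) (g a) (f a)) := by
  obtain ⟨q, _, hq, h⟩ := hg.major₂ hm
  obtain ⟨r, hr, h'⟩ := hf
  have H : ∀ a i, (trunc (m a) (g a) i).totalDegree ≤ 2 ^ q a ∧ l1 (trunc (m a) (g a) i) ≤ 2 ^ 2 ^ q a := by
    intro a i
    unfold trunc
    split_ifs with hi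
    · exact h a i hi
    · simp [l1_zero]
  refine ⟨fun a => r a + (q a + r a) + 1, by fun_prop, fun a => ⟨?_, ?_⟩⟩
  · refine (totalDegree_bind₁ (fun i => (H a i).1) _).trans ?_
    refine (Nat.mul_le_mul_right _ (h' a).1).trans ?_
    rw [← pow_add]; exact d_mono (by beta_reduce; omega)
  · refine (l1_bind₁ Nat.one_le_two_pow (fun i => (H a i).2) _).trans ?_
    exact dd_mul (h' a).2 (dd_pow le_rfl (h' a).1)

theorem Bd.cf {f : α → MP} (lo m : α → ℕ) (e : α → ℕ → ℕ) (hf : Bd f) :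
    Bd (fun a => cf (lo a) (m a) (e a) (f a)) := by
  obtain ⟨q, hq, h⟩ := hf
  exact ⟨q, hq, fun a => ⟨(totalDegree_cf _ _ _ _).trans (h a).1, (l1_cf _ _ _ _).trans (h a).2⟩⟩

theorem Bd.rename {f : α → MP} (σ : α → ℕ → ℕ) (hf : Bd f) :
    Bd (fun a => rename (σ a) (f a)) := by
  obtain ⟨q, hq, h⟩ := hf
  exact ⟨q, hq, fun a => ⟨(totalDegree_rename_le _ _).trans (h a).1, (l1_rename _ _).trans (h a).2⟩⟩

end Crest.Agent.R316
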