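import Crest.Agent.R316.Dig
/-!
# From the internal levels to `Crest.CountHier.level` (task R316-Bridge)

Prove, by induction on `j`, for all `α`, `P` with `Lv j α P` and every `PT` map `dec : List Bool → α`:
`{w | P (dec w)} ∈ level j`.  `j = 0`: `PT.inP`.  Step: `P a ↔ 2^n < 2 cnt (2^n) (B (a, ·))`.  There is a
polynomial `p` with `n (dec x) ≤ p.eval x.length` (`PB.comp`, `sz_bits_le`).  Define a `PT` inverse
`unpair : List Bool → List Bool × List Bool` of `pairBits` (a `foldl` with a small state, cf. `unpairStep` in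
`Lib/PT/Code.lean`; or `x` = every second bit of a `takeWhile` over the list of pairs), and
`dec' w = (dec (unpair w).1, ofBits (unpair w).2 % 2 ^ n (dec (unpair w).1))`.  By induction
`B' = {w | B (dec' w)} ∈ level j`.  The strings `y` of length `l = p.eval x.length` are in bijection with the numbers
`< 2^l` by `ofBits`, and `cnt (2^l) (fun y => B (a, y % 2^n)) = 2^(l-n) * cnt (2^n) (B (a, ·))` (`cnt_mul`).
-/
set_option autoImplicit false
namespace Crest.Agent.R316
open Crest.Agent.PTime Finset

namespace BridgeA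
open Crest.CountHier

/-- inverse of `pairBits` -/
def unpair (w : List Bool) : List Bool × List Bool :=
  ((pnStep^[w.length] (w, [])).2, (pnStep^[w.length] (w, [])).1.tail)

theorem unpair_pair (x y : List Bool) : unpair (pairBits x y) = (x, y) := by
  have h : pairBits x y = (x.map fun b => [true, b]).flatten ++ false :: y := by
    simp [pairBits, List.flatMap_def]
  have h2 : x.length ≤ (pairBits x y).length := by
    rw [h]
    have := length_le_flatten (fun b : Bool => [true, b]) x (fun _ => by simp)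
    rw [List.length_append]; omega
  unfold unpair
  generalize (pairBits x y).length = k at h2
  rw [h, pnStep_code _ _ _ _ h2]
  simp

theorem pt_unpair : PT unpair := by
  have := PT.iterate (f := fun (_ : List Bool) s => pnStep s) (init := fun w => (w, []))
    (n := fun w => w.length) (by unfold pnStep; fun_prop) (by fun_prop) (by fun_prop)
    (by fun_prop) (B := fun w => 8 * w.length + 3) (by fun_prop) (fun w i hi => by
      obtain ⟨h1, h2⟩ := pnStep_len i (w, [])
      show PTime.sz (pnStep^[i] _) ≤ _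
      have h3 := sz_bits_le (pnStep^[i] (w, [])).1
      have h4 := sz_bits_le (pnStep^[i] (w, [])).2
      rw [sz_prod]
      simp at h1 h2; omega)
  exact this.snd.pair this.fst.tail

theorem ofBits_inj : ∀ (l m : List Bool), l.length = m.length → ofBits l = ofBits m → l = m
  | [], [], _, _ => rfl
  | [], _ :: _, h, _ => by simp at h
  | _ :: _, [], h, _ => by simp at h
  | b :: l, c :: m, h, h' => by
    rw [ofBits_cons, ofBits_cons] at h'
    have h1 : b = c := by cases b <;> cases c <;> simp at h' ⊢ <;> omega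
    subst h1
    rw [ofBits_inj l m (by simpa using h) (by omega)]

theorem ofBits_surj : ∀ (l n : ℕ), n < 2 ^ l → ∃ y : List Bool, y.length = l ∧ ofBits y = n
  | 0, n, h => ⟨[], rfl, by simp at h ⊢; omega⟩
  | l + 1, n, h => by
    obtain ⟨y, h1, h2⟩ := ofBits_surj l (n / 2) (by rw [pow_succ] at h; omega)
    refine ⟨decide (n % 2 = 1) :: y, by simp [h1], ?_⟩
    rw [ofBits_cons, h2]
    rcases Nat.mod_two_eq_zero_or_one n with h3 | h3 <;> simp [h3] <;> omega

theorem ncard_eq (l : ℕ) (Q : ℕ → Prop) :
    {y : List Bool | y.length = l ∧ Q (ofBits y)}.ncard = cnt (2 ^ l) Q := by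
  classical
  rw [cnt_eq_card, ← Set.ncard_coe_finset]
  refine Set.ncard_congr (fun y _ => ofBits y) ?_ ?_ ?_
  · rintro y ⟨h1, h2⟩
    simp only [coe_filter, mem_range, Set.mem_ofPred_eq]
    exact ⟨h1 ▸ ofBits_lt y, h2⟩
  · rintro y y' ⟨h1, -⟩ ⟨h2, -⟩ h
    exact ofBits_inj y y' (h1.trans h2.symm) h
  · intro n hn
    simp only [coe_filter, mem_range, Set.mem_ofPred_eq] at hn
    obtain ⟨y, h1, h2⟩ := ofBits_surj l n hn.1
    exact ⟨y, ⟨h1, h2 ▸ hn.2⟩, h2⟩

theorem key : ∀ (j : ℕ) {α : Type} [Enc α] {P : α → Prop}, Lv j α P →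
    ∀ {dec : List Bool → α}, PT dec → {w | P (dec w)} ∈ level j
  | 0, _, _, P, h, dec, hd => by
    have h1 : PT (fun w => P (dec w)) := PT.comp (Lv_zero.1 h) hd
    exact PT.inP h1
  | j + 1, α, _, P, h, dec, hd => by
    obtain ⟨B, n, hB, hn, hb, hP⟩ := Lv_succ.1 h
    obtain ⟨q, hq⟩ := hb.comp hd
    have hu1 := pt_unpair.fst
    have hu2 := pt_unpair.snd
    have hd' : PT (fun w => ((dec (unpair w).1,
        ofBits (unpair w).2 % 2 ^ n (dec (unpair w).1)) : α × ℕ)) :=
      (hd.comp hu1).pair (hu2.ofBits.mod ((PT.const 2).pow (hn.comp (hd.comp hu1))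
        (hb.comp (hd.comp hu1))))
    refine ⟨_, key j hB hd', q.comp (4 * Polynomial.X + 1), fun x => ?_⟩
    set l := (q.comp (4 * Polynomial.X + 1)).eval x.length with hl
    have hle : n (dec x) ≤ l := by
      refine (hq x).trans ?_
      rw [hl, Polynomial.eval_comp]
      exact eval_mono q (by simpa using sz_bits_le x)
    obtain ⟨k, hk⟩ := Nat.exists_eq_add_of_le' hle
    have e : {y : List Bool | y.length = l ∧ pairBits x y ∈ {w | B (dec (unpair w).1,
        ofBits (unpair w).2 % 2 ^ n (dec (unpair w).1))}}.ncard =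
        2 ^ k * cnt (2 ^ n (dec x)) (fun y => B (dec x, y)) := by
      simp only [Set.mem_ofPred_eq, unpair_pair]
      rw [ncard_eq l (fun y => B (dec x, y % 2 ^ n (dec x))), hk, pow_add,
        cnt_mul (2 ^ k) (2 ^ n (dec x)) (fun _ z => B (dec x, z))]
      simp
    rw [e, Set.mem_ofPred_eq, hP, hk, pow_add, mul_left_comm]
    exact (Nat.mul_lt_mul_left (by positivity)).symm

end BridgeA

theorem CH.mem_level {P : List Bool → Prop} (h : CH P) :
    ∃ j, {w | P w} ∈ Crest.CountHier.level j := by
  obtain ⟨j, hj⟩ := h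
  exact ⟨j, BridgeA.key j hj PT.id⟩

end Crest.Agent.R316
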