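import Crest.Agent.R316.Dig
/-!
# Boolean closure, quantifiers and thresholds for `CH` (task R316-CHBasic)

Work with `Lv j` by induction on `j`, generalising the type (`induction j generalizing α`; state the
lemmas with `∀ {α : Type} [Enc α]` after the colon).
* `Lv.comp` (`B' (a, y) = B (g a, y)`, `n' = n ∘ g`), `Lv.congr`, `Lv.succ` (`n = 0`: `1 < 2 * cnt 1 _`),
  `Lv.mono`.
* `Lv.ite`: `c` is `PT`, `P Q` in `Lv j` ⇒ `if c then P else Q` in `Lv j` (`B`, `n` by cases on `c`).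
* `Lv.thr`: `B ∈ Lv j`, `N t` in `PT` ⇒ `t ≤ cnt N B` in `Lv (j+1)`.  Let `s = size N` (`N < 2^s`), `n = s + 2`,
  `t' = min t (N+1)`, `pad = 2^(s+1) + 1 - t'`; `B' (a,y) = if y < N then B else y < N + pad`; then
  `cnt (2^n) B' = cnt N B + pad` (as `N + pad ≤ 2^n`), and `2^n < 2 (c + pad) ↔ t' ≤ c ↔ t ≤ c`.
* `Lv.not`: by induction: `¬ (2^n < 2 c) ↔ 2^n - 2^n/2 ≤ cnt (¬B)` (`cnt_not`), `Lv.thr`.
* `and`: `2 ≤ cnt 2 (fun y => if y = 0 then P else Q)`; `∃`: `1 ≤ cnt`; the rest by De Morgan.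
* `prime`: `2 ≤ p ∧ ∀ d < p, d ∣ p → d = 1`.
-/
set_option autoImplicit false
namespace Crest.Agent.R316
open Crest.Agent.PTime Finset
variable {α β : Type} [Enc α] [Enc β]

theorem CH.of_PT {P : α → Prop} (h : PT P) : CH P := ⟨0, h⟩

theorem CH.congr {P Q : α → Prop} (h : CH Q) (e : ∀ a, P a ↔ Q a) : CH P := by
  have : P = Q := funext fun a => propext (e a)
  rwa [this]

@[fun_prop] theorem CH.const (p : Prop) : CH (fun _ : α => p) := CH.of_PT (PT.const p)

theorem Lv.congr {j : ℕ} {P Q : α → Prop} (h : Lv j α Q) (e : ∀ a, P a ↔ Q a) : Lv j α P := by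
  have : P = Q := funext fun a => propext (e a)
  rwa [this]

theorem Lv.comp (j : ℕ) : ∀ {α β : Type} [Enc α] [Enc β] {P : β → Prop} {g : α → β},
    Lv j β P → PT g → Lv j α (fun a => P (g a)) := by
  induction j with
  | zero => intro α β _ _ P g hP hg; exact Lv_zero.2 (PT.comp (Lv_zero.1 hP) hg)
  | succ j ih =>
    intro α β _ _ P g hP hg
    obtain ⟨B, n, hB, hn, hb, h⟩ := Lv_succ.1 hP
    refine Lv_succ.2 ⟨fun x => B (g x.1, x.2), fun a => n (g a), ?_, hn.comp hg, hb.comp hg,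
      fun a => h (g a)⟩
    exact ih (g := fun x : α × ℕ => (g x.1, x.2)) hB
      (PT.pair (hg.comp (PT.fst PT.id)) (PT.snd PT.id))

theorem Lv.succ {j : ℕ} {P : α → Prop} (h : Lv j α P) : Lv (j + 1) α P := by
  classical
  refine Lv_succ.2 ⟨fun x => P x.1, fun _ => 0, Lv.comp j h (PT.fst PT.id), PT.const 0, PB.const 0,
    fun a => ?_⟩
  rw [cnt_eq_sum]
  by_cases hp : P a <;> simp [hp]

theorem Lv.mono {i j : ℕ} {P : α → Prop} (h : Lv i α P) (hij : i ≤ j) : Lv j α P := by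
  induction hij with
  | refl => exact h
  | step _ ih => exact Lv.succ ih

theorem Lv.of_PT (j : ℕ) {P : α → Prop} (h : PT P) : Lv j α P :=
  Lv.mono (Lv_zero.2 h) (Nat.zero_le j)

theorem Lv.ite (j : ℕ) : ∀ {α : Type} [Enc α] {c P Q : α → Prop} [∀ a, Decidable (c a)],
    PT c → Lv j α P → Lv j α Q → Lv j α (fun a => if c a then P a else Q a) := by
  induction j with
  | zero =>
    intro α _ c P Q _ hc hP hQ
    exact Lv_zero.2 (PT.ite hc (Lv_zero.1 hP) (Lv_zero.1 hQ))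
  | succ j ih =>
    intro α _ c P Q _ hc hP hQ
    obtain ⟨B, n, hB, hn, hb, h⟩ := Lv_succ.1 hP
    obtain ⟨B', n', hB', hn', hb', h'⟩ := Lv_succ.1 hQ
    refine Lv_succ.2 ⟨fun x => if c x.1 then B x else B' x, fun a => if c a then n a else n' a,
      ih (c := fun x : α × ℕ => c x.1) (hc.comp (PT.fst PT.id)) hB hB', PT.ite hc hn hn',
      PB.ite hb hb', fun a => ?_⟩
    by_cases hca : c a
    · simp only [if_pos hca]; exact h a
    · simp only [if_neg hca]; exact h' a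

theorem cnt_pad (N pad M : ℕ) (B : ℕ → Prop) (h : N + pad ≤ M) :
    cnt M (fun y => if y < N then B y else y < N + pad) = cnt N B + pad := by
  obtain ⟨K, rfl⟩ : ∃ K, M = N + K := ⟨M - N, by omega⟩
  rw [cnt_add]
  congr 1
  · exact cnt_congr fun y hy => by simp only [if_pos hy]
  · rw [cnt_congr (B' := fun y => y < pad) fun y _ => by
      rw [if_neg (by omega)]; omega, cnt_lt]
    omega

theorem Lv.thr {j : ℕ} {B : α × ℕ → Prop} (hB : Lv j (α × ℕ) B) {N t : α → ℕ} (hN : PT N)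
    (ht : PT t) : Lv (j + 1) α (fun a => t a ≤ cnt (N a) (fun y => B (a, y))) := by
  have hs : PT fun a => (N a).size := PT.size hN
  have hsb : PB fun a => (N a).size := PB.size hN
  have hpad : PT fun a => 2 ^ ((N a).size + 1) + 1 - min (t a) (N a + 1) :=
    PT.sub (PT.add (PT.pow (PT.const 2) (hs.add (PT.const 1)) (hsb.add (PB.const 1))) (PT.const 1))
      (PT.min ht (hN.add (PT.const 1)))
  refine Lv_succ.2 ⟨fun x => if x.2 < N x.1 then B x else
      x.2 < N x.1 + (2 ^ ((N x.1).size + 1) + 1 - min (t x.1) (N x.1 + 1)),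
    fun a => (N a).size + 2, ?_, hs.add (PT.const 2), hsb.add (PB.const 2), fun a => ?_⟩
  · exact Lv.ite j (PT.lt (PT.snd PT.id) (hN.comp (PT.fst PT.id))) hB
      (Lv.of_PT j (PT.lt (PT.snd PT.id) ((hN.add hpad).comp (PT.fst PT.id))))
  · have h1 : N a < 2 ^ (N a).size := Nat.lt_size_self _
    have h2 := cnt_le (N a) (fun y => B (a, y))
    have h3 := cnt_pad (N a) (2 ^ ((N a).size + 1) + 1 - min (t a) (N a + 1)) (2 ^ ((N a).size + 2))
      (fun y => B (a, y)) (by rw [pow_succ, pow_succ]; omega)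
    simp only []
    rw [h3, pow_succ, pow_succ]
    omega

theorem Lv.not (j : ℕ) : ∀ {α : Type} [Enc α] {P : α → Prop},
    Lv j α P → Lv j α (fun a => ¬ P a) := by
  induction j with
  | zero => intro α _ P hP; exact Lv_zero.2 (PT.not (Lv_zero.1 hP))
  | succ j ih =>
    intro α _ P hP
    obtain ⟨B, n, hB, hn, hb, h⟩ := Lv_succ.1 hP
    have hN : PT fun a => 2 ^ n a := PT.pow (PT.const 2) hn hb
    refine (Lv.thr (ih hB) hN (hN.sub (hN.div (PT.const 2)))).congr fun a => ?_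
    have := cnt_not (2 ^ n a) (fun y => B (a, y))
    rw [h a]
    omega

theorem CH.thr' {B : α × ℕ → Prop} (hB : CH B) {N t : α → ℕ} (hN : PT N)
    (ht : PT t) : CH (fun a => t a ≤ cnt (N a) (fun y => B (a, y))) := by
  obtain ⟨j, hj⟩ := hB
  exact ⟨j + 1, Lv.thr hj hN ht⟩

@[fun_prop] theorem CH.comp {P : β → Prop} {g : α → β} (hP : CH P) (hg : PT g) :
    CH (fun a => P (g a)) := by
  obtain ⟨j, hj⟩ := hP
  exact ⟨j, Lv.comp j hj hg⟩

@[fun_prop] theorem CH.not {P : α → Prop} (h : CH P) : CH (fun a => ¬ P a) := by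
  obtain ⟨j, hj⟩ := h
  exact ⟨j, Lv.not j hj⟩

@[fun_prop] theorem CH.and {P Q : α → Prop} (hP : CH P) (hQ : CH Q) : CH (fun a => P a ∧ Q a) := by
  classical
  obtain ⟨i, hi⟩ := hP
  obtain ⟨j, hj⟩ := hQ
  have hB : Lv (max i j) (α × ℕ) (fun x => if x.2 = 0 then P x.1 else Q x.1) :=
    Lv.ite _ (PT.eq (PT.snd PT.id) (PT.const 0))
      (Lv.comp _ (hi.mono (le_max_left i j)) (PT.fst PT.id))
      (Lv.comp _ (hj.mono (le_max_right i j)) (PT.fst PT.id))
  refine (CH.thr' ⟨_, hB⟩ (PT.const 2) (PT.const 2)).congr fun a => ?_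
  rw [cnt_eq_sum]
  by_cases hp : P a <;> by_cases hq : Q a <;> simp [hp, hq, sum_range_succ]

@[fun_prop] theorem CH.or {P Q : α → Prop} (hP : CH P) (hQ : CH Q) : CH (fun a => P a ∨ Q a) :=
  (hP.not.and hQ.not).not.congr fun a => by tauto

theorem CH.imp {P Q : α → Prop} (hP : CH P) (hQ : CH Q) : CH (fun a => P a → Q a) :=
  (hP.not.or hQ).congr fun a => by tauto

@[fun_prop] theorem CH.iff {P Q : α → Prop} (hP : CH P) (hQ : CH Q) : CH (fun a => P a ↔ Q a) :=
  ((hP.imp hQ).and (hQ.imp hP)).congr fun a => iff_def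

@[fun_prop] theorem CH.ite {c P Q : α → Prop} [∀ a, Decidable (c a)] (hc : CH c) (hP : CH P)
    (hQ : CH Q) : CH (fun a => if c a then P a else Q a) :=
  ((hc.and hP).or (hc.not.and hQ)).congr fun a => by by_cases h : c a <;> simp [h]

theorem CH.thr {B : α → ℕ → Prop} (hB : CH (fun x : α × ℕ => B x.1 x.2)) {N t : α → ℕ} (hN : PT N)
    (ht : PT t) : CH (fun a => t a ≤ cnt (N a) (B a)) :=
  CH.thr' hB hN ht

theorem CH.exists_lt {B : α → ℕ → Prop} {N : α → ℕ} (hN : PT N)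
    (hB : CH (fun x : α × ℕ => B x.1 x.2)) : CH (fun a => ∃ y < N a, B a y) :=
  (CH.thr hB hN (PT.const 1)).congr fun a => by rw [← cnt_pos]; rfl

theorem CH.forall_lt {B : α → ℕ → Prop} {N : α → ℕ} (hN : PT N)
    (hB : CH (fun x : α × ℕ => B x.1 x.2)) : CH (fun a => ∀ y < N a, B a y) :=
  (CH.exists_lt (B := fun a y => ¬ B a y) hN hB.not).not.congr fun a => by simp

theorem CH.exists_le {B : α → ℕ → Prop} {N : α → ℕ} (hN : PT N)
    (hB : CH (fun x : α × ℕ => B x.1 x.2)) : CH (fun a => ∃ y ≤ N a, B a y) :=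
  (CH.exists_lt (hN.add (PT.const 1)) hB).congr fun a => by simp only [Nat.lt_succ_iff]

theorem CH.forall_le {B : α → ℕ → Prop} {N : α → ℕ} (hN : PT N)
    (hB : CH (fun x : α × ℕ => B x.1 x.2)) : CH (fun a => ∀ y ≤ N a, B a y) :=
  (CH.forall_lt (hN.add (PT.const 1)) hB).congr fun a => by simp only [Nat.lt_succ_iff]

@[fun_prop] theorem CH.prime {p : α → ℕ} (hp : PT p) : CH (fun a => (p a).Prime) := by
  have h1 : CH (fun a => 2 ≤ p a) := CH.of_PT (PT.le (PT.const 2) hp)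
  have h2 : CH (fun a => ∀ d < p a, d ∣ p a → d = 1) :=
    CH.forall_lt (B := fun a d => d ∣ p a → d = 1) hp (CH.of_PT (PT.imp
      (PT.dvd (PT.snd PT.id) (hp.comp (PT.fst PT.id))) (PT.eq (PT.snd PT.id) (PT.const 1))))
  exact (h1.and h2).congr fun a => Nat.prime_def_lt

end Crest.Agent.R316
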