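import Crest.Agent.R316.CHBasic
/-!
# Functions with graph in `CH` (task R316-CHFun)

* `CHF.bound`: `f a < 2 ^ size (f a) ≤ 2 ^ q' a` (`PB.major`).
* `CH.subst`: `P a (f a) ↔ ∃ y < B a, f a = y ∧ P a y`.
* `CHF.subst`: size bound by `PB.sup_size`.
* `CHF.cnt`: `c = r ↔ r ≤ c ∧ ¬ (r + 1 ≤ c)`.
* `CHF.sum_range`: with `f a i < M a` for `i < N a` (`PB.sup_lt`, `M = 2^q'`),
  `∑ f a i = cnt (N * M) (fun w => w % M < f a (w / M))` (`cnt_mul`, `cnt_lt`).
* `CHF.op₂`: two applications of `subst`.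
* `CHF.choose`: the least witness `y` has the graph `(y < N ∧ B y ∧ ∀ y' < y, ¬ B y') ∨ (y = 0 ∧ ¬ ∃ …)`.
-/
set_option autoImplicit false
namespace Crest.Agent.R316
open Crest.Agent.PTime Finset
variable {α β : Type} [Enc α] [Enc β]

theorem CHF.of_PT {f : α → ℕ} (h : PT f) : CHF f :=
  ⟨PB.size h, CH.of_PT ((h.comp PT.id.fst).eq PT.id.snd)⟩

theorem CHF.congr {f g : α → ℕ} (h : CHF g) (e : ∀ a, f a = g a) : CHF f := by
  have : f = g := funext e
  rwa [this]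

@[fun_prop] theorem CHF.const (c : ℕ) : CHF (fun _ : α => c) := CHF.of_PT (PT.const c)

@[fun_prop] theorem CHF.comp {f : β → ℕ} {g : α → β} (hf : CHF f) (hg : PT g) :
    CHF (fun a => f (g a)) :=
  ⟨PB.comp (f := fun b => (f b).size) hf.1 hg,
    CH.comp (P := fun x : β × ℕ => f x.1 = x.2) (g := fun x : α × ℕ => (g x.1, x.2)) hf.2
      (by fun_prop)⟩

theorem CHF.bound {f : α → ℕ} (hf : CHF f) :
    ∃ q : α → ℕ, PT q ∧ PB q ∧ ∀ a, f a < 2 ^ q a := by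
  obtain ⟨q, h1, h2, h3⟩ := PB.major hf.1
  exact ⟨q, h1, h2, fun a => Nat.size_le.1 (h3 a)⟩

theorem CHF.of_graph {f B : α → ℕ} (hB : PT B) (h : ∀ a, f a ≤ B a)
    (hg : CH (fun x : α × ℕ => f x.1 = x.2)) : CHF f :=
  ⟨(PB.size hB).mono fun a => Nat.size_le_size (h a), hg⟩

theorem CH.subst {P : α → ℕ → Prop} {f : α → ℕ} (hP : CH (fun x : α × ℕ => P x.1 x.2))
    (hf : CHF f) : CH (fun a => P a (f a)) := by
  obtain ⟨q, h1, h2, h3⟩ := hf.bound
  refine (CH.exists_lt (B := fun a y => f a = y ∧ P a y) ((PT.const 2).pow h1 h2)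
    (hf.2.and hP)).congr fun a => ⟨fun h => ⟨f a, h3 a, rfl, h⟩, ?_⟩
  rintro ⟨y, -, rfl, h⟩
  exact h

theorem CHF.subst {g : α → ℕ → ℕ} {f : α → ℕ} (hg : CHF (fun x : α × ℕ => g x.1 x.2))
    (hf : CHF f) : CHF (fun a => g a (f a)) := by
  obtain ⟨q, -, h2, h3⟩ := PB.sup_size (q := fun a i => (g a i).size) hg.1 hf.1
  refine ⟨h2.mono fun a => h3 a (f a) le_rfl, ?_⟩
  exact CH.subst (P := fun (x : α × ℕ) y => g x.1 y = x.2) (f := fun x : α × ℕ => f x.1)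
    (CH.comp (P := fun x : (α × ℕ) × ℕ => g x.1.1 x.1.2 = x.2)
      (g := fun z : (α × ℕ) × ℕ => ((z.1.1, z.2), z.1.2)) hg.2 (by fun_prop))
    (hf.comp PT.id.fst)

theorem CHF.op₂ {op : α → ℕ → ℕ → ℕ} {f g : α → ℕ}
    (hop : PT (fun x : (α × ℕ) × ℕ => op x.1.1 x.1.2 x.2)) (hf : CHF f) (hg : CHF g) :
    CHF (fun a => op a (f a) (g a)) :=
  CHF.subst (g := fun a y => op a (f a) y)
    (CHF.subst (g := fun (x : α × ℕ) y => op x.1 y x.2) (f := fun x : α × ℕ => f x.1)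
      (CHF.of_PT (PT.comp (f := fun x : (α × ℕ) × ℕ => op x.1.1 x.1.2 x.2)
        (g := fun z : (α × ℕ) × ℕ => ((z.1.1, z.2), z.1.2)) hop (by fun_prop)))
      (hf.comp PT.id.fst)) hg

theorem CH.rel₂ {r : α → ℕ → ℕ → Prop} {f g : α → ℕ}
    (hr : CH (fun x : (α × ℕ) × ℕ => r x.1.1 x.1.2 x.2)) (hf : CHF f) (hg : CHF g) :
    CH (fun a => r a (f a) (g a)) :=
  CH.subst (P := fun a y => r a (f a) y)
    (CH.subst (P := fun (x : α × ℕ) y => r x.1 y x.2) (f := fun x : α × ℕ => f x.1)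
      (CH.comp (P := fun x : (α × ℕ) × ℕ => r x.1.1 x.1.2 x.2)
        (g := fun z : (α × ℕ) × ℕ => ((z.1.1, z.2), z.1.2)) hr (by fun_prop))
      (hf.comp PT.id.fst)) hg

@[fun_prop] theorem CHF.add {f g : α → ℕ} (hf : CHF f) (hg : CHF g) : CHF (fun a => f a + g a) :=
  CHF.op₂ (op := fun _ x y => x + y) (by fun_prop) hf hg

@[fun_prop] theorem CHF.mul {f g : α → ℕ} (hf : CHF f) (hg : CHF g) : CHF (fun a => f a * g a) :=
  CHF.op₂ (op := fun _ x y => x * y) (by fun_prop) hf hg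

@[fun_prop] theorem CHF.sub {f g : α → ℕ} (hf : CHF f) (hg : CHF g) : CHF (fun a => f a - g a) :=
  CHF.op₂ (op := fun _ x y => x - y) (by fun_prop) hf hg

@[fun_prop] theorem CHF.div {f g : α → ℕ} (hf : CHF f) (hg : CHF g) : CHF (fun a => f a / g a) :=
  CHF.op₂ (op := fun _ x y => x / y) (by fun_prop) hf hg

@[fun_prop] theorem CHF.mod {f g : α → ℕ} (hf : CHF f) (hg : CHF g) : CHF (fun a => f a % g a) :=
  CHF.op₂ (op := fun _ x y => x % y) (by fun_prop) hf hg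

theorem CHF.eq {f g : α → ℕ} (hf : CHF f) (hg : CHF g) : CH (fun a => f a = g a) :=
  CH.rel₂ (r := fun _ x y => x = y) (CH.of_PT (by fun_prop)) hf hg

theorem CHF.lt {f g : α → ℕ} (hf : CHF f) (hg : CHF g) : CH (fun a => f a < g a) :=
  CH.rel₂ (r := fun _ x y => x < y) (CH.of_PT (by fun_prop)) hf hg

theorem CHF.le {f g : α → ℕ} (hf : CHF f) (hg : CHF g) : CH (fun a => f a ≤ g a) :=
  CH.rel₂ (r := fun _ x y => x ≤ y) (CH.of_PT (by fun_prop)) hf hg

@[fun_prop] theorem CHF.ite {c : α → Prop} [∀ a, Decidable (c a)] {f g : α → ℕ} (hc : CH c)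
    (hf : CHF f) (hg : CHF g) : CHF (fun a => if c a then f a else g a) := by
  refine ⟨(PB.add hf.1 hg.1).mono fun a => by beta_reduce; split_ifs <;> omega, ?_⟩
  refine (CH.ite (c := fun x : α × ℕ => c x.1) (hc.comp PT.id.fst) hf.2 hg.2).congr fun x => ?_
  beta_reduce
  split_ifs <;> rfl

theorem CHF.cnt {B : α → ℕ → Prop} {N : α → ℕ} (hN : PT N) (hB : CH (fun x : α × ℕ => B x.1 x.2)) :
    CHF (fun a => cnt (N a) (B a)) := by
  have hB' : CH (fun z : (α × ℕ) × ℕ => B z.1.1 z.2) :=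
    CH.comp (P := fun x : α × ℕ => B x.1 x.2) (g := fun z : (α × ℕ) × ℕ => (z.1.1, z.2)) hB
      (by fun_prop)
  have h1 := CH.thr (B := fun (x : α × ℕ) y => B x.1 y) hB' (hN.comp PT.id.fst) PT.id.snd
  have h2 := CH.thr (B := fun (x : α × ℕ) y => B x.1 y) hB' (hN.comp PT.id.fst)
    (PT.id.snd.add (PT.const 1))
  refine CHF.of_graph hN (fun a => cnt_le _ _) ((h1.and h2.not).congr fun x => ?_)
  show R316.cnt (N x.1) (B x.1) = x.2 ↔
    x.2 ≤ R316.cnt (N x.1) (B x.1) ∧ ¬ x.2 + 1 ≤ R316.cnt (N x.1) (B x.1)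
  omega

@[fun_prop] theorem CHF.sum_range {f : α → ℕ → ℕ} {N : α → ℕ} (hN : PT N)
    (hf : CHF (fun x : α × ℕ => f x.1 x.2)) : CHF (fun a => ∑ i ∈ range (N a), f a i) := by
  obtain ⟨q, -, h2, h3⟩ := hf.bound
  obtain ⟨q', k1, k2, k3⟩ := PB.sup_lt (q := fun a i => q (a, i)) h2 hN
  have hM : PT (fun a => 2 ^ q' a) := (PT.const 2).pow k1 k2
  have hc := CHF.cnt (B := fun a w => w % 2 ^ q' a < f a (w / 2 ^ q' a)) (hN.mul hM)
    (CHF.lt (CHF.of_PT (PT.id.snd.mod (hM.comp PT.id.fst)))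
      (CHF.comp (f := fun x : α × ℕ => f x.1 x.2) (g := fun x : α × ℕ => (x.1, x.2 / 2 ^ q' x.1)) hf
        (PT.id.fst.pair (PT.id.snd.div (hM.comp PT.id.fst)))))
  refine hc.congr fun a => ?_
  rw [cnt_mul (N a) (2 ^ q' a) (fun y z => z < f a y)]
  refine Finset.sum_congr rfl fun i hi => ?_
  rw [cnt_lt, min_eq_right]
  exact ((h3 (a, i)).trans_le (Nat.pow_le_pow_right (by norm_num) (k3 a i (mem_range.1 hi)))).le

/-- a witness function -/
theorem CHF.choose {B : α → ℕ → Prop} {N : α → ℕ} (hN : PT N)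
    (hB : CH (fun x : α × ℕ => B x.1 x.2)) :
    ∃ f : α → ℕ, CHF f ∧ ∀ a, (∃ y < N a, B a y) → f a < N a ∧ B a (f a) := by
  classical
  refine ⟨fun a => if h : ∃ y < N a, B a y then Nat.find h else 0, ?_, fun a h => ?_⟩
  · refine CHF.of_graph hN (fun a => ?_) ?_
    · split_ifs with h
      · exact (Nat.find_spec h).1.le
      · exact Nat.zero_le _
    · have hB' : CH (fun z : (α × ℕ) × ℕ => B z.1.1 z.2) :=
        CH.comp (P := fun x : α × ℕ => B x.1 x.2) (g := fun z : (α × ℕ) × ℕ => (z.1.1, z.2)) hB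
          (by fun_prop)
      have h1 : CH (fun x : α × ℕ => x.2 < N x.1) := CH.of_PT (by fun_prop)
      have h2 := CH.forall_lt (B := fun (x : α × ℕ) y => ¬ B x.1 y) PT.id.snd hB'.not
      have h3 : CH (fun x : α × ℕ => x.2 = 0) := CH.of_PT (by fun_prop)
      have h4 := (CH.exists_lt hN hB).comp (PT.id (α := α × ℕ)).fst
      refine (((h1.and hB).and h2).or (h3.and h4.not)).congr fun x => ?_
      split_ifs with h
      · rw [Nat.find_eq_iff]
        constructor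
        · rintro ⟨h5, h6⟩
          exact Or.inl ⟨h5, fun y hy hb => h6 y hy ⟨hy.trans h5.1, hb⟩⟩
        · rintro (⟨h5, h6⟩ | ⟨-, h5⟩)
          · exact ⟨h5, fun y hy hb => h6 y hy hb.2⟩
          · exact absurd h h5
      · constructor
        · intro h5
          exact Or.inr ⟨h5.symm, h⟩
        · rintro (⟨h5, -⟩ | ⟨h5, -⟩)
          · exact absurd ⟨_, h5⟩ h
          · exact h5.symm
  · simp only [dif_pos h]
    exact Nat.find_spec h

end Crest.Agent.R316
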