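import Crest.Agent.R316.ProdMod
/-!
# Closure properties of `EvCH`: long sums, long products, substitution (task R316-EvB)

* sums: `CHF.sum_range`; products: `CHF.prodMod`; thresholds by `PB.sup_lt`.
* `sub`: by `aeval_sub` one has to evaluate `f` at the list of the values `v i = e_g ((a,i), p, l) % p`, `i < m`.
  The number `w = ∑ i < m, v i * p ^ i` is `CHF` (write `p ^ i` as `p ^ (min i m)` so that it is `PT`), and the list is
  `(List.range m).map (dig p w)` (`dig_sum`), a `PT` function of `(a, p, w)`; finish with `CHF.subst`.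
-/
set_option autoImplicit false
namespace Crest.Agent.R316
open Crest.Agent.PTime MvPolynomial Finset
variable {α : Type} [Enc α]

theorem EvCH.sum_range {f : α → ℕ → MP} {N : α → ℕ} (hN : PT N)
    (hf : EvCH (fun x : α × ℕ => f x.1 x.2)) : EvCH (fun a => ∑ i ∈ range (N a), f a i) := by
  obtain ⟨q, e, hq, he, h⟩ := hf
  obtain ⟨q', -, hq', hle⟩ := PB.sup_lt (q := fun a i => q (a, i)) hq hN
  refine ⟨q', fun x => ∑ i ∈ range (N x.1), e ((x.1, i), x.2.1, x.2.2), hq', ?_, ?_⟩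
  · refine CHF.sum_range (f := fun (x : α × ℕ × List ℕ) i => e ((x.1, i), x.2.1, x.2.2))
      (N := fun x => N x.1) (hN.comp (by fun_prop)) ?_
    exact he.comp (g := fun y : (α × ℕ × List ℕ) × ℕ => ((y.1.1, y.2), y.1.2.1, y.1.2.2))
      (by fun_prop)
  · intro a p l hp hqp
    simp only [Nat.cast_sum, map_sum]
    refine Finset.sum_congr rfl fun i hi => ?_
    exact h (a, i) p l hp
      ((Nat.pow_le_pow_right (by norm_num) (hle a i (Finset.mem_range.1 hi))).trans hqp)

theorem EvCH.prod_range {f : α → ℕ → MP} {N : α → ℕ} (hN : PT N)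
    (hf : EvCH (fun x : α × ℕ => f x.1 x.2)) : EvCH (fun a => ∏ i ∈ range (N a), f a i) := by
  obtain ⟨q, e, hq, he, h⟩ := hf
  obtain ⟨q', -, hq', hle⟩ := PB.sup_lt (q := fun a i => q (a, i)) hq hN
  obtain ⟨e', he', h'⟩ := CHF.prodMod
    (f := fun (x : α × ℕ × List ℕ) i => e ((x.1, i), x.2.1, x.2.2))
    (N := fun x => N x.1) (p := fun x => x.2.1) (hN.comp (by fun_prop)) (by fun_prop)
    (he.comp (g := fun y : (α × ℕ × List ℕ) × ℕ => ((y.1.1, y.2), y.1.2.1, y.1.2.2))
      (by fun_prop))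
  refine ⟨q', e', hq', he', ?_⟩
  intro a p l hp hqp
  have h1 := h' (a, p, l) hp
  simp only at h1
  rw [h1, map_prod]
  refine Finset.prod_congr rfl fun i hi => ?_
  exact h (a, i) p l hp
    ((Nat.pow_le_pow_right (by norm_num) (hle a i (Finset.mem_range.1 hi))).trans hqp)

theorem EvCH.sub {f : α → MP} {g : α → ℕ → MP} {m : α → ℕ} (hm : PT m) (hb : PB m)
    (hg : EvCH (fun x : α × ℕ => g x.1 x.2)) (hf : EvCH f) :
    EvCH (fun a => sub (m a) (g a) (f a)) := by
  obtain ⟨q, e, hq, he, h⟩ := hg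
  obtain ⟨qf, ef, hqf, hef, hf⟩ := hf
  obtain ⟨q', -, hq', hle⟩ := PB.sup_lt (q := fun a i => q (a, i)) hq hm
  have hm1 : PT (fun x : α × ℕ × List ℕ => m x.1) := hm.comp (by fun_prop)
  have hw : CHF (fun x : α × ℕ × List ℕ => ∑ i ∈ range (m x.1),
      e ((x.1, i), x.2.1, x.2.2) % x.2.1 * x.2.1 ^ (min i (m x.1))) := by
    refine CHF.sum_range (f := fun (x : α × ℕ × List ℕ) i =>
      e ((x.1, i), x.2.1, x.2.2) % x.2.1 * x.2.1 ^ (min i (m x.1))) (N := fun x => m x.1) hm1 ?_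
    have h1 : CHF (fun y : (α × ℕ × List ℕ) × ℕ => e ((y.1.1, y.2), y.1.2.1, y.1.2.2)) :=
      he.comp (g := fun y : (α × ℕ × List ℕ) × ℕ => ((y.1.1, y.2), y.1.2.1, y.1.2.2))
        (by fun_prop)
    have h2 : PT (fun y : (α × ℕ × List ℕ) × ℕ => y.1.2.1) := by fun_prop
    have h3 : PT (fun y : (α × ℕ × List ℕ) × ℕ => m y.1.1) := hm.comp (by fun_prop)
    have h4 : PB (fun y : (α × ℕ × List ℕ) × ℕ => m y.1.1) := hb.comp (by fun_prop)
    have h5 : PT (fun y : (α × ℕ × List ℕ) × ℕ => y.1.2.1 ^ (min y.2 (m y.1.1))) :=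
      PT.pow h2 (PT.min (by fun_prop) h3) (PB.min_right h4)
    exact (h1.mod (CHF.of_PT h2)).mul (CHF.of_PT h5)
  have hl : PT (fun y : (α × ℕ × List ℕ) × ℕ =>
      (List.range (m y.1.1)).map (fun i => dig y.1.2.1 y.2 i)) := by
    have h3 : PT (fun y : (α × ℕ × List ℕ) × ℕ => m y.1.1) := hm.comp (by fun_prop)
    have h4 : PB (fun y : (α × ℕ × List ℕ) × ℕ => m y.1.1) := hb.comp (by fun_prop)
    exact PT.map (f := fun (y : (α × ℕ × List ℕ) × ℕ) i => dig y.1.2.1 y.2 i) (by fun_prop)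
      (PT.range h3 h4)
  have hE : CHF (fun y : (α × ℕ × List ℕ) × ℕ =>
      ef (y.1.1, y.1.2.1, (List.range (m y.1.1)).map (fun i => dig y.1.2.1 y.2 i))) :=
    hef.comp (g := fun y : (α × ℕ × List ℕ) × ℕ =>
      (y.1.1, y.1.2.1, (List.range (m y.1.1)).map (fun i => dig y.1.2.1 y.2 i)))
      (PT.pair (by fun_prop) (PT.pair (by fun_prop) hl))
  refine ⟨fun a => q' a + qf a, _, hq'.add hqf,
    CHF.subst (g := fun (x : α × ℕ × List ℕ) w =>
      ef (x.1, x.2.1, (List.range (m x.1)).map (fun i => dig x.2.1 w i))) hE hw, ?_⟩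
  intro a p l hp hqp
  have hq1 : 2 ^ q' a ≤ p := (Nat.pow_le_pow_right (by norm_num) (Nat.le_add_right _ _)).trans hqp
  have hq2 : 2 ^ qf a ≤ p := (Nat.pow_le_pow_right (by norm_num) (Nat.le_add_left _ _)).trans hqp
  simp only
  rw [hf a p _ hp hq2, aeval_sub]
  congr 2
  funext i
  unfold lpt trunc
  split_ifs with hi
  · have hsum : ∑ t ∈ range (m a), e ((a, t), p, l) % p * p ^ (min t (m a)) =
        ∑ t ∈ range (m a), e ((a, t), p, l) % p * p ^ t :=
      Finset.sum_congr rfl fun t ht => by rw [min_eq_left (Finset.mem_range.1 ht).le]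
    rw [hsum]
    have hd := dig_sum p (m a) (fun t => e ((a, t), p, l) % p)
      (fun t _ => Nat.mod_lt _ hp.pos) i hi
    have hget : ((List.range (m a)).map
        (fun j => dig p (∑ t ∈ range (m a), e ((a, t), p, l) % p * p ^ t) j)).getD i 0 =
        dig p (∑ t ∈ range (m a), e ((a, t), p, l) % p * p ^ t) i := by
      simp [List.getD_eq_getElem?_getD, hi]
    rw [hget, hd, ZMod.natCast_mod]
    exact h (a, i) p l hp ((Nat.pow_le_pow_right (by norm_num) (hle a i hi)).trans hq1)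
  · simp [List.getD_eq_getElem?_getD, hi]

end Crest.Agent.R316
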