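import Crest.Agent.R316.Dig
/-!
# Algebra of `cf`, `blk`, `up` (task R316-CfAlg)

`cf lo m e` is additive (`cf_add`; write it as a sum over any finset containing the support) and
`cf lo m e (monomial β c) = if ∀ i < m, β (lo+i) = e i then monomial (β.filter …) c else 0`.  All statements
then follow by `MvPolynomial.induction_on'` (monomials and sums), or `as_sum`.
For a monomial, `aeval (upd lo v y) (monomial β c) = c * (∏ outside the block, v i ^ β i) * ∏ i : Fin m, y i ^ β (lo+i)`.
`expand` follows from `coeff_blk`, `eval_blk`, `totalDegree_blk`, `MvPolynomial.eval_eq'`-style sums over the box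
(the support of a polynomial of total degree `≤ δ` lies in the box `[0, δ]^m`) and `sum_dig`.
-/
set_option autoImplicit false
namespace Crest.Agent.R316
open MvPolynomial Finset
variable {K : Type*} [CommRing K]

namespace CfAlgA

theorem cf_eq_sum (lo m : ℕ) (e : ℕ → ℕ) (f : MP) {s : Finset (ℕ →₀ ℕ)} (hs : f.support ⊆ s) :
    cf lo m e f = ∑ β ∈ s, if ∀ i < m, β (lo + i) = e i then
      monomial (β.filter (fun i => ¬ (lo ≤ i ∧ i < lo + m))) (coeff β f) else 0 := by
  unfold cf
  rw [Finset.sum_filter]
  refine Finset.sum_subset hs fun β _ hβ => ?_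
  rw [notMem_support_iff.1 hβ]
  simp

theorem map_aeval'' {K L : Type*} [CommRing K] [CommRing L] [Algebra ℤ K] [Algebra ℤ L]
    (φ : K →+* L) (v : ℕ → K) (f : MP) : φ (aeval v f) = aeval (fun i => φ (v i)) f := by
  induction f using MvPolynomial.induction_on with
  | C a => simp
  | add p q hp hq => simp [hp, hq]
  | mul_X p i hp => simp [hp]

theorem aeval_XX [Algebra ℤ MP] (f : MP) : aeval (X : ℕ → MP) f = f := by
  induction f using MvPolynomial.induction_on with
  | C a => simp
  | add p q hp hq => simp only [map_add, hp, hq]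
  | mul_X p i hp => simp only [map_mul, aeval_X, hp]

theorem uni_eq (i : ℕ) (b : Polynomial ℤ) :
    uni i b = @Polynomial.aeval ℤ MP _ _ (Ring.toIntAlgebra MP) (X i) b := by
  induction b using Polynomial.induction_on' with
  | add p q hp hq => rw [map_add, map_add, hp, hq]
  | monomial n c => simp [uni]

theorem cf_zero (lo m : ℕ) (e : ℕ → ℕ) : cf lo m e 0 = 0 := by simp [cf]

/-- a product over the exponents of a monomial splits into the block part and the rest -/
theorem prod_split {M : Type*} [CommMonoid M] (lo m : ℕ) (β : ℕ →₀ ℕ) (u : ℕ → M) :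
    β.prod (fun i k => u i ^ k) =
      (β.filter (fun i => ¬ (lo ≤ i ∧ i < lo + m))).prod (fun i k => u i ^ k) *
        ∏ i : Fin m, u (lo + i) ^ β (lo + i) := by
  rw [← Finsupp.prod_filter_mul_prod_filter_not (fun i => ¬ (lo ≤ i ∧ i < lo + m)) β]
  congr 1
  rw [Finsupp.prod_of_support_subset _ (s := (range m).map (addLeftEmbedding lo)) ?_ _
    (fun i _ => pow_zero _), Finset.prod_map, Finset.prod_range]
  · refine Finset.prod_congr rfl fun i _ => ?_
    have := i.2
    rw [addLeftEmbedding_apply, Finsupp.filter_apply_pos]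
    omega
  · intro i hi
    rw [Finsupp.support_filter, Finset.mem_filter] at hi
    refine Finset.mem_map.2 ⟨i - lo, mem_range.2 (by omega), ?_⟩
    rw [addLeftEmbedding_apply]; omega

theorem prod_filter_congr {M : Type*} [CommMonoid M] (lo m : ℕ) (β : ℕ →₀ ℕ) {u w : ℕ → M}
    (h : ∀ i, ¬ (lo ≤ i ∧ i < lo + m) → u i = w i) :
    (β.filter (fun i => ¬ (lo ≤ i ∧ i < lo + m))).prod (fun i k => u i ^ k) =
      (β.filter (fun i => ¬ (lo ≤ i ∧ i < lo + m))).prod (fun i k => w i ^ k) := by
  refine Finsupp.prod_congr fun i hi => ?_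
  rw [Finsupp.support_filter, Finset.mem_filter] at hi
  rw [h i hi.2]

theorem aeval_upd_monomial {L : Type*} [CommRing L] [Algebra ℤ L] (lo m : ℕ) (v : ℕ → L) (y : Fin m → L)
    (β : ℕ →₀ ℕ) (c : ℤ) :
    aeval (upd lo v y) (monomial β c : MP) =
      aeval v (monomial (β.filter (fun i => ¬ (lo ≤ i ∧ i < lo + m))) c : MP) *
        ∏ i : Fin m, y i ^ β (lo + i) := by
  rw [aeval_monomial, aeval_monomial, prod_split lo m, mul_assoc,
    prod_filter_congr lo m β (w := v) fun i hi => upd_of_not_mem lo v y hi]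
  simp only [upd_of_mem]

theorem blk_monomial (lo m : ℕ) (v : ℕ → K) (β : ℕ →₀ ℕ) (c : ℤ) :
    blk lo m v (monomial β c) =
      monomial (Finsupp.equivFunOnFinite.symm fun i : Fin m => β (lo + i))
        (aeval v (monomial (β.filter (fun i => ¬ (lo ≤ i ∧ i < lo + m))) c : MP)) := by
  unfold blk
  rw [aeval_upd_monomial, ← map_aeval'' (C : K →+* MvPolynomial (Fin m) K),
    monomial_eq (σ := Fin m), Finsupp.prod_fintype _ _ (fun i => pow_zero _)]
  simp

theorem le_totalDegree_of_mem {σ R : Type*} [CommSemiring R] {f : MvPolynomial σ R} {β : σ →₀ ℕ}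
    (h : β ∈ f.support) (i : σ) : β i ≤ f.totalDegree :=
  (monomial_le_degreeOf i h).trans (degreeOf_le_totalDegree f i)

end CfAlgA
open CfAlgA

theorem cf_add (lo m : ℕ) (e : ℕ → ℕ) (f g : MP) : cf lo m e (f + g) = cf lo m e f + cf lo m e g := by
  rw [cf_eq_sum lo m e (f + g) (s := f.support ∪ g.support) support_add,
    cf_eq_sum lo m e f (s := f.support ∪ g.support) subset_union_left,
    cf_eq_sum lo m e g (s := f.support ∪ g.support) subset_union_right, ← sum_add_distrib]
  refine sum_congr rfl fun β _ => ?_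
  split_ifs <;> simp

theorem cf_monomial (lo m : ℕ) (e : ℕ → ℕ) (β : ℕ →₀ ℕ) (c : ℤ) :
    cf lo m e (monomial β c) = if ∀ i < m, β (lo + i) = e i then
      monomial (β.filter (fun i => ¬ (lo ≤ i ∧ i < lo + m))) c else 0 := by
  rw [cf_eq_sum lo m e _ (s := {β}) support_monomial_subset, sum_singleton, coeff_monomial, if_pos rfl]

theorem cf_congr (lo m : ℕ) {e e' : ℕ → ℕ} (h : ∀ i < m, e i = e' i) (f : MP) :
    cf lo m e f = cf lo m e' f := by
  rw [cf_eq_sum lo m e f subset_rfl, cf_eq_sum lo m e' f subset_rfl]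
  refine sum_congr rfl fun β _ => if_congr ?_ rfl rfl
  exact forall_congr' fun i => imp_congr_right fun hi => by rw [h i hi]

theorem cf_eq_zero {lo m : ℕ} {e : ℕ → ℕ} {f : MP} {i : ℕ} (hi : i < m) (h : f.totalDegree < e i) :
    cf lo m e f = 0 := by
  rw [cf_eq_sum lo m e f subset_rfl]
  refine sum_eq_zero fun β hβ => if_neg fun h' => ?_
  have h1 := le_totalDegree_of_mem hβ (lo + i)
  have h2 := h' i hi
  omega

theorem cf_C_zero (lo m : ℕ) (c : ℤ) : cf lo m (fun _ => 0) (C c) = C c := by
  rw [C_apply, cf_monomial, if_pos (by simp), Finsupp.filter_zero]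

theorem aeval_cf_congr (lo m : ℕ) (e : ℕ → ℕ) (f : MP) {v w : ℕ → K}
    (h : ∀ i, ¬ (lo ≤ i ∧ i < lo + m) → v i = w i) :
    aeval v (cf lo m e f) = aeval w (cf lo m e f) := by
  unfold cf
  rw [map_sum, map_sum]
  refine sum_congr rfl fun β _ => ?_
  rw [aeval_monomial, aeval_monomial, prod_filter_congr lo m β h]

theorem coeff_blk (lo m : ℕ) (v : ℕ → K) (e : ℕ → ℕ) (f : MP) :
    coeff (Finsupp.equivFunOnFinite.symm fun i : Fin m => e i) (blk lo m v f) =
      aeval v (cf lo m e f) := by
  induction f using MvPolynomial.induction_on' with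
  | add p q hp hq => rw [map_add, coeff_add, cf_add, map_add, hp, hq]
  | monomial β c =>
    rw [blk_monomial, coeff_monomial, cf_monomial]
    by_cases h : ∀ i < m, β (lo + i) = e i
    · rw [if_pos h, if_pos]
      congr 1
      funext i
      exact h i i.2
    · rw [if_neg h, if_neg, map_zero]
      intro h'
      refine h fun i hi => ?_
      exact congrFun (Finsupp.equivFunOnFinite.symm.injective h') ⟨i, hi⟩

theorem eval_blk (lo m : ℕ) (v : ℕ → K) (y : Fin m → K) (f : MP) :
    eval y (blk lo m v f) = aeval (upd lo v y) f := by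
  unfold blk
  rw [map_aeval'' (eval y)]
  congr 2
  funext i
  unfold upd
  split_ifs <;> simp

theorem blk_X (lo m : ℕ) (v : ℕ → K) (i : Fin m) : blk lo m v (X (lo + i)) = X i := by
  simp [blk, upd_of_mem]

theorem totalDegree_blk (lo m : ℕ) (v : ℕ → K) (f : MP) :
    (blk lo m v f).totalDegree ≤ f.totalDegree := by
  conv_lhs => rw [f.as_sum, map_sum]
  refine (totalDegree_finsetSum _ _).trans (Finset.sup_le fun β hβ => ?_)
  rw [blk_monomial]
  refine (totalDegree_monomial_le _ _).trans (le_trans ?_ (le_totalDegree hβ))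
  have h := prod_split (M := Multiplicative ℕ) lo m β (fun _ => Multiplicative.ofAdd 1)
  have h2 := congrArg Multiplicative.toAdd h
  simp only [Finsupp.prod, toAdd_mul, toAdd_prod, toAdd_pow, toAdd_ofAdd, smul_eq_mul, mul_one] at h2
  rw [Finsupp.sum_fintype _ _ (fun _ => rfl)]
  simp only [Finsupp.sum, Finsupp.equivFunOnFinite_symm_apply_apply, id]
  omega

theorem pderiv_blk (lo m : ℕ) (v : ℕ → K) (i : Fin m) (f : MP) :
    pderiv i (blk lo m v f) = blk lo m v (pderiv (lo + i) f) := by
  have hX : ∀ j : ℕ, pderiv i (blk lo m v (X j)) = blk lo m v (pderiv (lo + i) (X j)) := by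
    intro j
    by_cases hj : lo ≤ j ∧ j < lo + m
    · obtain ⟨t, rfl⟩ : ∃ t : Fin m, j = lo + t := ⟨⟨j - lo, by omega⟩, by simp; omega⟩
      rw [blk_X, pderiv_X, pderiv_X]
      by_cases ht : t = i
      · subst ht; simp
      · have : lo + (t : ℕ) ≠ lo + i := fun h => ht (Fin.ext (by omega))
        rw [Pi.single_eq_of_ne ht, Pi.single_eq_of_ne this, map_zero]
    · have : j ≠ lo + i := by have := i.2; omega
      rw [pderiv_X, Pi.single_eq_of_ne this, map_zero]
      unfold blk
      rw [aeval_X, upd_of_not_mem _ _ _ hj, pderiv_C]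
  induction f using MvPolynomial.induction_on with
  | C a =>
    rw [pderiv_C, map_zero]
    have : blk lo m v (C a) = C (a : K) := by simp [blk]
    rw [this, pderiv_C]
  | add p q hp hq => simp only [map_add, hp, hq]
  | mul_X p j hp =>
    rw [map_mul, Derivation.leibniz, Derivation.leibniz, hp, hX]
    simp only [smul_eq_mul, map_add, map_mul]

/-- expansion in the variables of a block -/
theorem expand (lo m : ℕ) (v : ℕ → K) (y : Fin m → K) {f : MP} {δ : ℕ} (hδ : f.totalDegree ≤ δ) :
    aeval (upd lo v y) f = ∑ w ∈ range ((δ + 1) ^ m),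
      aeval v (cf lo m (dig (δ + 1) w) f) * ∏ i : Fin m, y i ^ dig (δ + 1) w i := by
  simp only [← coeff_blk]
  rw [sum_dig (δ + 1) m (fun k : Fin m → ℕ =>
    coeff (Finsupp.equivFunOnFinite.symm k) (blk lo m v f) * ∏ i : Fin m, y i ^ k i),
    ← eval_blk, eval_eq']
  have hd := (totalDegree_blk lo m v f).trans hδ
  symm
  refine Finset.sum_bij_ne_zero (fun k _ _ => Finsupp.equivFunOnFinite.symm k) ?_ ?_ ?_ ?_
  · intro k _ hk
    exact mem_support_iff.2 fun h => hk (by rw [h, zero_mul])
  · intro k _ _ k' _ _ h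
    exact Finsupp.equivFunOnFinite.symm.injective h
  · intro β hβ h
    refine ⟨β, Fintype.mem_piFinset.2 fun i => mem_range.2 ?_, ?_, ?_⟩
    · have := le_totalDegree_of_mem hβ i
      omega
    · simpa using h
    · simp
  · intro k _ _
    simp

/-- expansion in one variable -/
theorem expand_one (τ : ℕ) (v : ℕ → K) {f : MP} {δ : ℕ} (hδ : f.totalDegree ≤ δ) :
    aeval v f = ∑ k ∈ range (δ + 1), aeval v (cf τ 1 (fun _ => k) f) * v τ ^ k := by
  have h := expand τ 1 v (fun _ => v τ) hδ
  have h1 : upd τ v (fun _ : Fin 1 => v τ) = v := by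
    funext i
    unfold upd
    split_ifs with hi
    · exact congrArg v (by omega)
    · rfl
  rw [h1, pow_one] at h
  rw [h]
  refine sum_congr rfl fun k hk => ?_
  have h2 : dig (δ + 1) k 0 = k := by
    simp [dig, Nat.mod_eq_of_lt (mem_range.1 hk)]
  rw [cf_congr τ 1 (e' := fun _ => k) fun i hi => by rw [show i = 0 by omega, h2]]
  simp [h2]

theorem pderiv_eq_sum (i : ℕ) {f : MP} {δ : ℕ} (hδ : f.totalDegree ≤ δ) :
    pderiv i f = ∑ k ∈ range (δ + 1), (k : MP) * X i ^ (k - 1) * cf i 1 (fun _ => k) f := by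
  have h := expand_one i (X : ℕ → MP) hδ
  simp only [aeval_XX] at h
  have hc : ∀ k, pderiv i (cf i 1 (fun _ => k) f) = 0 := by
    intro k
    unfold cf
    rw [map_sum]
    refine sum_eq_zero fun β _ => ?_
    rw [pderiv_monomial, Finsupp.filter_apply_neg _ _ (by omega)]
    simp
  conv_lhs => rw [h, map_sum]
  refine sum_congr rfl fun k _ => ?_
  rw [Derivation.leibniz, hc, Derivation.leibniz_pow, pderiv_X_self]
  simp only [smul_eq_mul, mul_zero, add_zero, mul_one, nsmul_eq_mul]
  ring

theorem coeff_up (g : Polynomial MP) (k : ℕ) :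
    g.coeff k = rename Nat.pred (cf 0 1 (fun _ => k) (up g)) := by
  induction g using Polynomial.induction_on' with
  | add p q hp hq => rw [Polynomial.coeff_add, map_add, cf_add, map_add, ← hp, ← hq]
  | monomial n p =>
    rw [← Polynomial.C_mul_X_pow_eq_monomial, map_mul, map_pow, up_C, up_X,
      Polynomial.coeff_C_mul_X_pow]
    induction p using MvPolynomial.induction_on' with
    | add p q hp hq =>
      rw [map_add, add_mul, cf_add, map_add, ← hp, ← hq]
      split_ifs <;> simp
    | monomial β c =>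
      have h0 : (β.mapDomain Nat.succ) 0 = 0 :=
        Finsupp.mapDomain_of_notMem_range _ _ (by simp)
      rw [rename_monomial, X_pow_eq_monomial, monomial_mul, mul_one, cf_monomial]
      by_cases hk : k = n
      · rw [if_pos hk, if_pos (fun i hi => by
          rw [show i = 0 by omega]; simp [h0, hk]), rename_monomial]
        have : (β.mapDomain Nat.succ + Finsupp.single 0 n).filter (fun i => ¬ (0 ≤ i ∧ i < 0 + 1)) =
            β.mapDomain Nat.succ := by
          ext i
          rw [Finsupp.filter_apply]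
          split_ifs with hi
          · rw [show i = 0 by omega, h0]
          · rw [Finsupp.add_apply, Finsupp.single_eq_of_ne (by omega), add_zero]
        rw [this, ← Finsupp.mapDomain_comp]
        congr 2
        exact (Finsupp.mapDomain_id).symm
      · rw [if_neg hk, if_neg, map_zero]
        intro h
        have := h 0 (by omega)
        simp [h0] at this
        exact hk this.symm

theorem cf_uni (b : Polynomial ℤ) (k : ℕ) : cf 0 1 (fun _ => k) (uni 0 b) = C (b.coeff k) := by
  induction b using Polynomial.induction_on' with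
  | add p q hp hq => rw [Polynomial.coeff_add, map_add, cf_add, map_add, hp, hq]
  | monomial n c =>
    have : uni 0 (Polynomial.monomial n c) = monomial (Finsupp.single 0 n) c := by
      unfold uni
      rw [Polynomial.aeval_monomial, ← C_mul_X_pow_eq_monomial]
      rfl
    rw [this, cf_monomial, Polynomial.coeff_monomial]
    by_cases hk : n = k
    · rw [if_pos hk, if_pos (fun i hi => by rw [show i = 0 by omega]; simp [hk]),
        Finsupp.filter_single_of_neg _ (by omega), C_apply]
    · rw [if_neg hk, if_neg, map_zero]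
      intro h
      have := h 0 (by omega)
      simp at this
      exact hk this

theorem uni_eq_sub (i : ℕ) (b : Polynomial ℤ) : uni i b = sub 1 (fun _ => X i) (uni 0 b) := by
  have h := aeval_sub (X : ℕ → MP) 1 (fun _ => X i) (uni 0 b)
  simp only [aeval_XX] at h
  rw [h, aeval_uni, uni_eq]
  simp [trunc]

theorem uni_tou (τ : ℕ) (f : MP) :
    uni 0 (tou τ f) = sub (τ + 1) (fun i => if i = τ then X 0 else 0) f := by
  have h := aeval_sub (X : ℕ → MP) (τ + 1) (fun i => if i = τ then X 0 else 0) f
  simp only [aeval_XX] at h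
  rw [h, uni_eq, aeval_tou]
  congr 2
  funext i
  unfold trunc
  by_cases hi : i = τ
  · simp [hi]
  · simp [hi]

theorem C_constantCoeff (f : MP) : (C (constantCoeff f) : MP) = sub 0 X f := by
  have h := aeval_trunc (X : ℕ → MP) 0 f
  simp only [aeval_XX] at h
  have h1 : trunc 0 (X : ℕ → MP) = 0 := by
    funext i; simp [trunc]
  rw [h, h1, aeval_zero]
  rfl

theorem aeval_zero_eq (f : MP) : aeval (0 : ℕ → K) f = ((constantCoeff f : ℤ) : K) := by
  rw [aeval_zero]
  simp

end Crest.Agent.R316
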