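import Crest.Agent.R316.ProdMod
import Crest.Agent.R316.CfAlg
import Crest.Agent.R316.BdLem
/-!
# Coefficient extraction modulo a prime (task R316-EvCf)

Let `δ = 2^q ≥ deg f` (`Bd.major`), `p ≥ δ + 2` prime.  If some `e i > δ` (`i < m`) then `cf = 0` (`cf_eq_zero`); this is a
`PT` test (`PT.exists_lt`).  Otherwise, for `s : Fin m → ZMod p` ranging over tuples of units,
`∑_s f(upd lo v s) * ∏ i, s i ^ (p - 1 - e i) = (-1)^m * (cf lo m e f)(v)`:
expand `f` (`expand`, or `eval_blk` + `coeff_blk`), swap sums, `Finset.prod_univ_sum`, and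
`∑_{s ≠ 0} s^(k + (p - 1 - e)) = if k = e then -1 else 0` for `k, e ≤ δ < p - 1`
(`FiniteField.sum_pow_units`).  Enumerate the tuples by `w < (p-1)^m`, `s i = dig (p-1) w i + 1` (`sum_dig`); the
point `upd lo (lpt p l) s` is `lpt p l'` with
`l' = (List.range lo).map (l.getD · 0) ++ (List.range m).map (dig (p-1) w · + 1) ++ l.drop (lo + m)`.
The evaluator is `(p-1)^m * ∑_{w < (p-1)^m} e_f (a, p, l') * ∏_{i<m} powMod (s i) (p - 1 - e i) p`.
-/
set_option autoImplicit false
namespace Crest.Agent.R316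
open Crest.Agent.PTime MvPolynomial Finset
variable {α : Type} [Enc α]

namespace EvCfA

theorem sum_pow {p : ℕ} (hp : p.Prime) {k e : ℕ} (hk : k + 1 < p) (he : e + 1 < p) :
    ∑ t ∈ range (p - 1), ((t + 1 : ℕ) : ZMod p) ^ (k + (p - 1 - e)) =
      if k = e then -1 else 0 := by
  have : Fact p.Prime := ⟨hp⟩
  have hne : ∀ t ∈ range (p - 1), ((t + 1 : ℕ) : ZMod p) ≠ 0 := fun t ht h => by
    have := Nat.le_of_dvd (by omega) ((ZMod.natCast_eq_zero_iff _ _).1 h)
    have := mem_range.1 ht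
    omega
  have h1 : ∑ t ∈ range (p - 1), ((t + 1 : ℕ) : ZMod p) ^ (k + (p - 1 - e)) =
      ∑ x : (ZMod p)ˣ, (x : ZMod p) ^ (k + (p - 1 - e)) := by
    refine Finset.sum_bij (fun t ht => Units.mk0 _ (hne t ht)) (fun _ _ => mem_univ _) ?_ ?_
      (fun _ _ => rfl)
    · intro t ht t' ht' h
      have h2 : ((t + 1 : ℕ) : ZMod p) = ((t' + 1 : ℕ) : ZMod p) := congrArg Units.val h
      rw [ZMod.natCast_eq_natCast_iff', Nat.mod_eq_of_lt (by have := mem_range.1 ht; omega),
        Nat.mod_eq_of_lt (by have := mem_range.1 ht'; omega)] at h2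
      omega
    · intro x _
      have h2 : (x : ZMod p).val ≠ 0 := by
        rw [Ne, ZMod.val_eq_zero]; exact x.ne_zero
      have h3 := ZMod.val_lt (x : ZMod p)
      refine ⟨(x : ZMod p).val - 1, mem_range.2 (by omega), Units.ext ?_⟩
      rw [Units.val_mk0, Nat.sub_add_cancel (by omega), ZMod.natCast_zmod_val]
  rw [h1, FiniteField.sum_pow_units, ZMod.card]
  congr 1
  apply propext
  constructor
  · rintro ⟨c, hc⟩
    have hc1 : c = 1 := by
      rcases c with _ | _ | c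
      · omega
      · rfl
      · have : (p - 1) * 2 ≤ (p - 1) * (c + 1 + 1) := Nat.mul_le_mul_left _ (by omega)
        omega
    subst hc1
    omega
  · rintro rfl
    exact ⟨1, by omega⟩

theorem main {p : ℕ} (hp : p.Prime) (lo m : ℕ) (e : ℕ → ℕ) (f : MP) {δ : ℕ}
    (hδ : f.totalDegree ≤ δ) (hpδ : δ + 2 ≤ p) (he : ∀ i < m, e i ≤ δ) (v : ℕ → ZMod p) :
    (-1) ^ m * ∑ w ∈ range ((p - 1) ^ m),
      aeval (upd lo v fun i : Fin m => ((dig (p - 1) w i + 1 : ℕ) : ZMod p)) f *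
        ∏ i : Fin m, ((dig (p - 1) w i + 1 : ℕ) : ZMod p) ^ (p - 1 - e i) =
      aeval v (cf lo m e f) := by
  rw [sum_dig (p - 1) m fun k : Fin m → ℕ =>
    aeval (upd lo v fun i : Fin m => ((k i + 1 : ℕ) : ZMod p)) f *
        ∏ i : Fin m, ((k i + 1 : ℕ) : ZMod p) ^ (p - 1 - e i)]
  simp only [expand lo m v _ hδ, Finset.sum_mul, mul_assoc, ← Finset.prod_mul_distrib, ← pow_add]
  rw [Finset.sum_comm]
  simp only [← Finset.mul_sum]
  have h1 : ∀ u, ∑ k ∈ Fintype.piFinset (fun _ : Fin m => range (p - 1)),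
      ∏ i : Fin m, ((k i + 1 : ℕ) : ZMod p) ^ (dig (δ + 1) u i + (p - 1 - e i)) =
      ∏ i : Fin m, if dig (δ + 1) u i = e i then (-1 : ZMod p) else 0 := fun u => by
    rw [← Finset.prod_univ_sum (fun _ : Fin m => range (p - 1))
      fun i t => ((t + 1 : ℕ) : ZMod p) ^ (dig (δ + 1) u i + (p - 1 - e i))]
    refine Finset.prod_congr rfl fun i _ => sum_pow hp ?_ ?_
    · have := dig_lt (show 0 < δ + 1 by omega) u i
      omega
    · have := he i i.2
      omega
  simp only [h1]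
  obtain ⟨u0, hu0, hd⟩ := exists_dig (δ + 1) m e fun i hi => Nat.lt_succ_of_le (he i hi)
  rw [Finset.sum_eq_single u0]
  · rw [cf_congr lo m hd, Finset.prod_congr rfl fun (i : Fin m) _ => if_pos (hd i i.2)]
    rw [Finset.prod_const, Finset.card_univ, Fintype.card_fin, mul_left_comm, ← mul_pow]
    simp
  · intro u hu hne
    have : ∃ i : Fin m, dig (δ + 1) u i ≠ e i := by
      by_contra hcon
      push Not at hcon
      apply hne
      rw [DigA.eq_sum _ m u (mem_range.1 hu), DigA.eq_sum _ m u0 hu0]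
      exact Finset.sum_congr rfl fun t ht => by
        rw [hd t (mem_range.1 ht), hcon ⟨t, mem_range.1 ht⟩]
    obtain ⟨i, hi⟩ := this
    rw [Finset.prod_eq_zero (mem_univ i) (if_neg hi), mul_zero]
  · intro h
    exact absurd (mem_range.2 hu0) h

/-- the list of the modified point -/
def lst (lo m p w : ℕ) (l : List ℕ) : List ℕ :=
  (List.range (lo + m + l.length)).map fun i =>
    if lo ≤ i ∧ i < lo + m then dig (p - 1) w (i - lo) + 1 else l.getD i 0

theorem lpt_lst (lo m p w : ℕ) (l : List ℕ) :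
    lpt p (lst lo m p w l) =
      upd lo (lpt p l) fun i : Fin m => ((dig (p - 1) w i + 1 : ℕ) : ZMod p) := by
  funext i
  unfold lpt upd lst
  by_cases hi : i < lo + m + l.length
  · rw [List.getD_eq_getElem _ _ (by simpa using hi)]
    simp only [List.getElem_map, List.getElem_range]
    split_ifs <;> rfl
  · rw [List.getD_eq_default _ _ (by simpa using hi), dif_neg (by omega)]
    beta_reduce
    rw [List.getD_eq_default l 0 (by omega)]

end EvCfA

open EvCfA

theorem EvCH.cf {f : α → MP} {lo m : α → ℕ} {e : α → ℕ → ℕ} (hlo : PT lo) (hlb : PB lo) (hm : PT m)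
    (hmb : PB m) (he : PT (fun x : α × ℕ => e x.1 x.2)) (hb : Bd f) (hf : EvCH f) :
    EvCH (fun a => cf (lo a) (m a) (e a) (f a)) := by
  classical
  obtain ⟨q1, t1, b1, h1⟩ := hb.major
  obtain ⟨q2, ef, b2, c2, h2⟩ := hf
  have he' : ∀ {β : Type} [Enc β] {g : β → α} {i : β → ℕ}, PT g → PT i →
      PT (fun x => e (g x) (i x)) := fun hg hi =>
    PT.comp (f := fun x : α × ℕ => e x.1 x.2) he (hg.pair hi)
  have test : PT (fun x : α × ℕ × List ℕ => ∃ i < m x.1, 2 ^ q1 x.1 < e x.1 i) :=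
    PT.exists_lt (by fun_prop) (by fun_prop)
      (PT.lt (by fun_prop) (he' (by fun_prop) (by fun_prop)))
  have hl : PT (fun x : (α × ℕ × List ℕ) × ℕ =>
      lst (lo x.1.1) (m x.1.1) x.1.2.1 x.2 x.1.2.2) := by
    unfold lst
    fun_prop
  have hN : PT (fun x : α × ℕ × List ℕ => (x.2.1 - 1) ^ m x.1) := by fun_prop
  have hprod : PT (fun x : (α × ℕ × List ℕ) × ℕ => ∏ i ∈ range (m x.1.1),
      powMod (dig (x.1.2.1 - 1) x.2 i + 1) (x.1.2.1 - 1 - e x.1.1 i) x.1.2.1) :=
    PT.prod_range (by fun_prop) (by fun_prop)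
      (PT.powMod (by fun_prop) (PT.sub (by fun_prop) (he' (by fun_prop) (by fun_prop)))
        (by fun_prop))
  have hsum := CHF.sum_range (f := fun (x : α × ℕ × List ℕ) w =>
      ef (x.1, x.2.1, lst (lo x.1) (m x.1) x.2.1 w x.2.2) * ∏ i ∈ range (m x.1),
        powMod (dig (x.2.1 - 1) w i + 1) (x.2.1 - 1 - e x.1 i) x.2.1) hN
    ((c2.comp (PT.pair (by fun_prop) (PT.pair (by fun_prop) hl))).mul (CHF.of_PT hprod))
  refine ⟨fun a => q1 a + q2 a + 2, _, by fun_prop,
    CHF.ite (CH.of_PT test) (CHF.const 0) ((CHF.of_PT hN).mul hsum), fun a p l hp hq => ?_⟩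
  beta_reduce at hq
  have hq1 : 2 ^ q1 a + 2 ≤ p := by
    have a1 : 2 ^ (q1 a + 2) ≤ 2 ^ (q1 a + q2 a + 2) := Nat.pow_le_pow_right (by norm_num) (by omega)
    have a2 : 1 ≤ 2 ^ q1 a := Nat.one_le_two_pow
    rw [pow_add] at a1
    omega
  have hq2 : 2 ^ q2 a ≤ p := (Nat.pow_le_pow_right (by norm_num) (by omega)).trans hq
  simp only
  split_ifs with h
  · obtain ⟨i, hi, hlt⟩ := h
    rw [cf_eq_zero hi ((h1 a).1.trans_lt hlt)]
    simp
  · push Not at h
    rw [← main hp (lo a) (m a) (e a) (f a) (h1 a).1 hq1 h (lpt p l)]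
    have e1 : ((p - 1 : ℕ) : ZMod p) = -1 := by
      rw [Nat.cast_sub hp.one_le]; simp
    rw [Nat.cast_mul, Nat.cast_pow, e1, Nat.cast_sum]
    congr 1
    refine Finset.sum_congr rfl fun w _ => ?_
    rw [Nat.cast_mul, h2 a p _ hp hq2, lpt_lst, Nat.cast_prod, Finset.prod_range]
    congr 1
    exact Finset.prod_congr rfl fun i _ => cast_powMod _ _ hp.ne_zero

end Crest.Agent.R316
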