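import Crest.Agent.R316.EvA
import Crest.Agent.R316.EvB
import Crest.Agent.R316.EvCf
/-!
# Closure properties of `CHP` and `CHZ` (complete; combines `BdLem` and `EvA`, `EvB`, `EvCf`)

`fun_prop` proves `CHP`, `CHZ` goals built from `+ - * ^ ∑ ∏ (over range) C X if cf sub` and hypotheses.  Hypotheses about
families with indices are in the form `CHP (fun x : α × ℕ => f x.1 x.2)`; use `CHP.app₂`, `CHP.app₃` (tagged) to apply them at
`PT` arguments.  `CH` side conditions: `CH.of_PT (by fun_prop)`.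
-/
set_option autoImplicit false
namespace Crest.Agent.R316
open Crest.Agent.PTime MvPolynomial Finset
variable {α β : Type} [Enc α] [Enc β]

theorem CHP.congr {f g : α → MP} (h : CHP g) (e : ∀ a, f a = g a) : CHP f := by
  have : f = g := funext e
  rwa [this]

@[fun_prop] theorem CHP.const (f : MP) : CHP (fun _ : α => f) := ⟨Bd.const f, EvCH.const f⟩

@[fun_prop] theorem CHP.comp {f : β → MP} {g : α → β} (hf : CHP f) (hg : PT g) :
    CHP (fun a => f (g a)) := ⟨hf.1.comp hg, hf.2.comp hg⟩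

theorem CHP.app₂ {f : β → ℕ → MP} {g : α → β} {i : α → ℕ} (hf : CHP (fun x : β × ℕ => f x.1 x.2))
    (hg : PT g) (hi : PT i) : CHP (fun a => f (g a) (i a)) := hf.comp (hg.pair hi)

theorem CHP.app₃ {f : β → ℕ → ℕ → MP} {g : α → β} {i j : α → ℕ}
    (hf : CHP (fun x : (β × ℕ) × ℕ => f x.1.1 x.1.2 x.2))
    (hg : PT g) (hi : PT i) (hj : PT j) : CHP (fun a => f (g a) (i a) (j a)) :=
  hf.comp ((hg.pair hi).pair hj)

theorem CHP.subst {f : α → ℕ → MP} {φ : α → ℕ} (hf : CHP (fun x : α × ℕ => f x.1 x.2))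
    (hφ : CHF φ) : CHP (fun a => f a (φ a)) := ⟨hf.1.subst hφ.1, hf.2.subst hφ⟩

@[fun_prop] theorem CHP.C {z : α → ℤ} (hz : CHZ z) : CHP (fun a => (C (z a) : MP)) := hz

@[fun_prop] theorem CHP.X {i : α → ℕ} (hi : PT i) : CHP (fun a => (X (i a) : MP)) :=
  ⟨Bd.X i, EvCH.X hi⟩

@[fun_prop] theorem CHP.neg {f : α → MP} (hf : CHP f) : CHP (fun a => - f a) := ⟨hf.1.neg, hf.2.neg⟩

@[fun_prop] theorem CHP.add {f g : α → MP} (hf : CHP f) (hg : CHP g) : CHP (fun a => f a + g a) :=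
  ⟨hf.1.add hg.1, hf.2.add hg.2⟩

@[fun_prop] theorem CHP.sub' {f g : α → MP} (hf : CHP f) (hg : CHP g) : CHP (fun a => f a - g a) :=
  (hf.add hg.neg).congr fun _ => sub_eq_add_neg _ _

@[fun_prop] theorem CHP.mul {f g : α → MP} (hf : CHP f) (hg : CHP g) : CHP (fun a => f a * g a) :=
  ⟨hf.1.mul hg.1, hf.2.mul hg.2⟩

@[fun_prop] theorem CHP.pow {f : α → MP} {n : α → ℕ} (hf : CHP f) (hn : PT n) :
    CHP (fun a => f a ^ n a) := ⟨hf.1.pow hn, hf.2.pow hn⟩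

@[fun_prop] theorem CHP.ite {c : α → Prop} [∀ a, Decidable (c a)] {f g : α → MP} (hc : PT c)
    (hf : CHP f) (hg : CHP g) : CHP (fun a => if c a then f a else g a) :=
  ⟨hf.1.ite hg.1, EvCH.ite (CH.of_PT hc) hf.2 hg.2⟩

theorem CHP.ite_CH {c : α → Prop} [∀ a, Decidable (c a)] {f g : α → MP} (hc : CH c)
    (hf : CHP f) (hg : CHP g) : CHP (fun a => if c a then f a else g a) :=
  ⟨hf.1.ite hg.1, EvCH.ite hc hf.2 hg.2⟩

@[fun_prop] theorem CHP.sum_range {f : α → ℕ → MP} {N : α → ℕ} (hN : PT N)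
    (hf : CHP (fun x : α × ℕ => f x.1 x.2)) : CHP (fun a => ∑ i ∈ range (N a), f a i) :=
  ⟨hf.1.sum_range hN, hf.2.sum_range hN⟩

@[fun_prop] theorem CHP.prod_range {f : α → ℕ → MP} {N : α → ℕ} (hN : PT N)
    (hf : CHP (fun x : α × ℕ => f x.1 x.2)) : CHP (fun a => ∏ i ∈ range (N a), f a i) :=
  ⟨hf.1.prod_range hN, hf.2.prod_range hN⟩

@[fun_prop] theorem CHP.sub {f : α → MP} {g : α → ℕ → MP} {m : α → ℕ} (hm : PT m) (hb : PB m)
    (hg : CHP (fun x : α × ℕ => g x.1 x.2)) (hf : CHP f) :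
    CHP (fun a => sub (m a) (g a) (f a)) := ⟨Bd.sub hm hg.1 hf.1, EvCH.sub hm hb hg.2 hf.2⟩

theorem CHP.trunc {f : α → MP} {m : α → ℕ} (hm : PT m) (hb : PB m) (hf : CHP f) :
    CHP (fun a => R316.sub (m a) MvPolynomial.X (f a)) :=
  CHP.sub (g := fun _ i => MvPolynomial.X i) hm hb (CHP.X PT.id.snd) hf

@[fun_prop] theorem CHP.cf {f : α → MP} {lo m : α → ℕ} {e : α → ℕ → ℕ} (hlo : PT lo) (hlb : PB lo)
    (hm : PT m) (hmb : PB m) (he : PT (fun x : α × ℕ => e x.1 x.2)) (hf : CHP f) :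
    CHP (fun a => cf (lo a) (m a) (e a) (f a)) :=
  ⟨hf.1.cf lo m e, EvCH.cf hlo hlb hm hmb he hf.1 hf.2⟩

theorem CHP.rename_succ {f : α → MP} (hf : CHP f) : CHP (fun a => rename Nat.succ (f a)) :=
  ⟨hf.1.rename fun _ => Nat.succ, hf.2.rename_succ⟩

theorem CHP.rename_pred {f : α → MP} (hf : CHP f) : CHP (fun a => rename Nat.pred (f a)) :=
  ⟨hf.1.rename fun _ => Nat.pred, hf.2.rename_pred⟩

theorem CHZ.of_PT {z : α → ℤ} (hz : PT z) : CHZ z := ⟨Bd.C_int hz, EvCH.C_int hz⟩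

theorem CHZ.of_CHF {z : α → ℕ} (hz : CHF z) : CHZ (fun a => (z a : ℤ)) :=
  ⟨Bd.C_nat hz.1, EvCH.C_nat hz⟩

@[fun_prop] theorem CHZ.natCast {z : α → ℕ} (hz : PT z) : CHZ (fun a => (z a : ℤ)) :=
  CHZ.of_PT hz.natCast_int

@[fun_prop] theorem CHP.natCast {z : α → ℕ} (hz : PT z) : CHP (fun a => (z a : MP)) :=
  (CHZ.natCast hz).congr fun _ => by simp

theorem CHZ.congr {f g : α → ℤ} (h : CHZ g) (e : ∀ a, f a = g a) : CHZ f := by
  have : f = g := funext e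
  rwa [this]

@[fun_prop] theorem CHZ.const (z : ℤ) : CHZ (fun _ : α => z) := CHP.const _

@[fun_prop] theorem CHZ.comp {f : β → ℤ} {g : α → β} (hf : CHZ f) (hg : PT g) :
    CHZ (fun a => f (g a)) := CHP.comp (f := fun b => (MvPolynomial.C (f b) : MP)) hf hg

theorem CHZ.app₂ {f : β → ℕ → ℤ} {g : α → β} {i : α → ℕ} (hf : CHZ (fun x : β × ℕ => f x.1 x.2))
    (hg : PT g) (hi : PT i) : CHZ (fun a => f (g a) (i a)) := hf.comp (hg.pair hi)

theorem CHZ.subst {f : α → ℕ → ℤ} {φ : α → ℕ} (hf : CHZ (fun x : α × ℕ => f x.1 x.2))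
    (hφ : CHF φ) : CHZ (fun a => f a (φ a)) :=
  CHP.subst (f := fun a i => (MvPolynomial.C (f a i) : MP)) hf hφ

@[fun_prop] theorem CHZ.neg {f : α → ℤ} (hf : CHZ f) : CHZ (fun a => - f a) :=
  (CHP.neg hf).congr fun _ => by simp

@[fun_prop] theorem CHZ.add {f g : α → ℤ} (hf : CHZ f) (hg : CHZ g) : CHZ (fun a => f a + g a) :=
  (CHP.add hf hg).congr fun _ => by simp

@[fun_prop] theorem CHZ.sub {f g : α → ℤ} (hf : CHZ f) (hg : CHZ g) : CHZ (fun a => f a - g a) :=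
  (CHP.sub' hf hg).congr fun _ => by simp

@[fun_prop] theorem CHZ.mul {f g : α → ℤ} (hf : CHZ f) (hg : CHZ g) : CHZ (fun a => f a * g a) :=
  (CHP.mul hf hg).congr fun _ => by simp

@[fun_prop] theorem CHZ.pow {f : α → ℤ} {n : α → ℕ} (hf : CHZ f) (hn : PT n) :
    CHZ (fun a => f a ^ n a) := (CHP.pow hf hn).congr fun _ => by simp

@[fun_prop] theorem CHZ.ite {c : α → Prop} [∀ a, Decidable (c a)] {f g : α → ℤ} (hc : PT c)
    (hf : CHZ f) (hg : CHZ g) : CHZ (fun a => if c a then f a else g a) :=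
  (CHP.ite hc hf hg).congr fun _ => apply_ite _ _ _ _

@[fun_prop] theorem CHZ.sum_range {f : α → ℕ → ℤ} {N : α → ℕ} (hN : PT N)
    (hf : CHZ (fun x : α × ℕ => f x.1 x.2)) : CHZ (fun a => ∑ i ∈ range (N a), f a i) :=
  (CHP.sum_range (f := fun a i => (MvPolynomial.C (f a i) : MP)) hN hf).congr fun _ => by simp

@[fun_prop] theorem CHZ.prod_range {f : α → ℕ → ℤ} {N : α → ℕ} (hN : PT N)
    (hf : CHZ (fun x : α × ℕ => f x.1 x.2)) : CHZ (fun a => ∏ i ∈ range (N a), f a i) :=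
  (CHP.prod_range (f := fun a i => (MvPolynomial.C (f a i) : MP)) hN hf).congr fun _ => by simp

@[fun_prop] theorem CHZ.constantCoeff {f : α → MP} (hf : CHP f) :
    CHZ (fun a => constantCoeff (f a)) :=
  (hf.trunc (PT.const 0) (PB.const 0)).congr fun _ => C_constantCoeff _

/-- a `CHZ` integer is bounded by `2^2^poly` -/
theorem CHZ.bound {z : α → ℤ} (hz : CHZ z) :
    ∃ q : α → ℕ, PT q ∧ PB q ∧ ∀ a, (z a).natAbs ≤ 2 ^ 2 ^ q a := by
  obtain ⟨q, h1, h2, h3⟩ := hz.1.major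
  exact ⟨q, h1, h2, fun a => by have := (h3 a).2; rwa [l1_C] at this⟩

/-- a `PT` bound for the total degree -/
theorem CHP.deg {f : α → MP} (hf : CHP f) : ∃ δ : α → ℕ, PT δ ∧ ∀ a, (f a).totalDegree ≤ δ a := by
  obtain ⟨q, h1, h2, h3⟩ := hf.1.major
  exact ⟨fun a => 2 ^ q a, by fun_prop, fun a => (h3 a).1⟩

theorem CHP.deg₂ {f : α → ℕ → MP} (hf : CHP (fun x : α × ℕ => f x.1 x.2)) {N : α → ℕ} (hN : PT N) :
    ∃ δ : α → ℕ, PT δ ∧ ∀ a, ∀ i < N a, (f a i).totalDegree ≤ δ a := by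
  obtain ⟨q, h1, h2, h3⟩ := hf.1.major₂ hN
  exact ⟨fun a => 2 ^ q a, by fun_prop, fun a i hi => (h3 a i hi).1⟩

@[fun_prop] theorem CHP.pderiv {f : α → MP} {i : α → ℕ} (hi : PT i) (hb : PB i) (hf : CHP f) :
    CHP (fun a => pderiv (i a) (f a)) := by
  obtain ⟨δ, h1, h2⟩ := hf.deg
  refine CHP.congr ?_ fun a => pderiv_eq_sum (i a) (h2 a)
  fun_prop

/-- coefficients of a polynomial over `MP`; prove the hypothesis by `simp only [map_sum, map_mul, map_pow, up_C, up_X, …]`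
and the closure properties (`CHP.rename_succ`) -/
theorem CHP.coeff_up {g : α → Polynomial MP} {k : α → ℕ} (hg : CHP (fun a => up (g a))) (hk : PT k) :
    CHP (fun a => (g a).coeff (k a)) := by
  refine CHP.congr (CHP.rename_pred ?_) fun a => R316.coeff_up (g a) (k a)
  fun_prop

theorem Pos.comp {N : β → ℕ} {F : β → MP} (h : Pos N F) {g : α → β} (hg : PT g) :
    Pos (fun a => N (g a)) (fun a => F (g a)) :=
  ⟨h.chp.comp hg, fun a => h.nonneg (g a), fun a => h.dep (g a)⟩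

theorem Good.comp {n m : β → ℕ} {F : β → MP} (h : Good n m F) {g : α → β} (hg : PT g) :
    Good (fun a => n (g a)) (fun a => m (g a)) (fun a => F (g a)) :=
  ⟨h.ptn.comp hg, h.pbn.comp hg, h.ptm.comp hg, h.pbm.comp hg, h.pos.comp hg⟩

theorem GridF.comp {n : β → ℕ} {b : β → ℕ → Polynomial ℤ} (h : GridF n b) {g : α → β} (hg : PT g) :
    GridF (fun a => n (g a)) (fun a => b (g a)) :=
  ⟨h.ptn.comp hg, h.pbn.comp hg,
    CHP.comp (f := fun x : β × ℕ => uni 0 (b x.1 x.2)) (g := fun x : α × ℕ => (g x.1, x.2)) h.chu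
      (by fun_prop)⟩

end Crest.Agent.R316
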