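import Crest.Agent.R316.Defs
/-!
# One sign condition for a conjunction (task R316-Compress)

`s(u) = cNum E u / cDen E u = ∑_{k ≤ E} u 2^k / (u² + 4^k)`, `cDen > 0`.  For `u ≤ 0`: `s ≤ 0`.  For `u > 0`: `s ≤ 4`
(each term is `≤ min (2^k / u) (u / 2^k)`; the terms with `2^k ≤ u` sum to `≤ 2`, the others to `≤ 2`).  For `1 ≤ u ≤ 2^E`: `s ≥ 2/5` (the term with `2^k ≤ u < 2^(k+1)`).
`cmp = (∑_j (4 - s_j)^N - 4^N) ∏_j cDen_j^N` with `N = 10 κ`.  If all `u_j > 0`: `∑ ≤ κ (18/5)^N < 4^N` as `κ < 2^κ ≤ ((10/9)^10)^κ`.  If some `u_j ≤ 0`: that term is `≥ 4^N`, the others `≥ 0`.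
-/
set_option autoImplicit false
namespace Crest.Agent.R316
open Finset

namespace CompressA

theorem prod_ite_mul {ι : Type*} [DecidableEq ι] {s : Finset ι} {k : ι} (hk : k ∈ s) (f : ι → ℝ) :
    (∏ t ∈ s, if t = k then 1 else f t) * f k = ∏ t ∈ s, f t := by
  rw [← mul_prod_erase s _ hk, ← mul_prod_erase s f hk, if_pos rfl, one_mul, mul_comm]
  congr 1
  exact prod_congr rfl fun t ht => if_neg (ne_of_mem_erase ht)

/-- the partial sums -/
noncomputable def sg (n : ℕ) (u : ℝ) : ℝ := ∑ k ∈ range n, u * 2 ^ k / (u ^ 2 + 4 ^ k)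

theorem cDen_pos (E : ℕ) (u : ℝ) : 0 < cDen E u := prod_pos fun _ _ => by positivity

theorem cNum_eq (E : ℕ) (u : ℝ) : cNum E u = sg (E + 1) u * cDen E u := by
  unfold cNum sg cDen
  rw [sum_mul]
  refine sum_congr rfl fun k hk => ?_
  rw [← prod_ite_mul hk (fun t => u ^ 2 + 4 ^ t)]
  have : u ^ 2 + 4 ^ k ≠ 0 := by positivity
  field_simp

theorem sg_nonpos (n : ℕ) {u : ℝ} (hu : u ≤ 0) : sg n u ≤ 0 :=
  sum_nonpos fun k _ => div_nonpos_of_nonpos_of_nonneg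
    (mul_nonpos_of_nonpos_of_nonneg hu (by positivity)) (by positivity)

theorem four_pow (k : ℕ) : (4 : ℝ) ^ k = (2 ^ k) ^ 2 := by
  rw [← pow_mul, mul_comm, pow_mul]; norm_num

theorem sg_le_aux (n : ℕ) {u : ℝ} (hu : 0 < u) : sg n u ≤ 4 * 2 ^ n / (u + 2 ^ n) := by
  induction n with
  | zero => simp only [sg, range_zero, sum_empty]; positivity
  | succ n ih =>
    unfold sg at ih ⊢
    rw [sum_range_succ, four_pow, pow_succ (2 : ℝ) n]
    have hp : (0 : ℝ) < 2 ^ n := by positivity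
    generalize (2 : ℝ) ^ n = p at *
    have key : u * p / (u ^ 2 + p ^ 2) ≤ 4 * (p * 2) / (u + p * 2) - 4 * p / (u + p) := by
      rw [div_sub_div _ _ (by positivity) (by positivity), div_le_div_iff₀ (by positivity) (by positivity)]
      have h1 : 0 ≤ u * p * (3 * u ^ 2 - 3 * u * p + 2 * p ^ 2) :=
        mul_nonneg (by positivity) (by nlinarith [sq_nonneg (u - p), sq_nonneg u, sq_nonneg p])
      nlinarith [h1]
    linarith

theorem sg_le (n : ℕ) (u : ℝ) : sg n u ≤ 4 := by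
  rcases le_or_gt u 0 with hu | hu
  · exact (sg_nonpos n hu).trans (by norm_num)
  · refine (sg_le_aux n hu).trans ?_
    have hp : (0 : ℝ) < 2 ^ n := by positivity
    rw [div_le_iff₀ (by positivity)]
    linarith

theorem le_sg {E : ℕ} {u : ℝ} (h1 : 1 ≤ u) (h2 : u ≤ 2 ^ E) : 2 / 5 ≤ sg (E + 1) u := by
  obtain ⟨k, hk1, hk2⟩ := exists_nat_pow_near h1 (by norm_num : (1 : ℝ) < 2)
  have hkE : k ≤ E := (pow_le_pow_iff_right₀ (by norm_num : (1 : ℝ) < 2)).1 (hk1.trans h2)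
  refine le_trans ?_ (single_le_sum (f := fun k => u * 2 ^ k / (u ^ 2 + 4 ^ k))
    (fun t _ => by positivity) (mem_range.2 (Nat.lt_succ_of_le hkE)))
  rw [four_pow]
  rw [pow_succ] at hk2
  have hp : (0 : ℝ) < 2 ^ k := by positivity
  generalize (2 : ℝ) ^ k = p at *
  rw [div_le_div_iff₀ (by norm_num) (by positivity)]
  nlinarith [mul_nonneg (by linarith : 0 ≤ 2 * p - u) (by linarith : 0 ≤ 2 * u - p)]

theorem cmp_eq (E κ : ℕ) (u : ℕ → ℝ) :
    cmp E κ u = (∑ j ∈ range κ, (4 - sg (E + 1) (u j)) ^ (10 * κ) - 4 ^ (10 * κ)) *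
      ∏ j ∈ range κ, cDen E (u j) ^ (10 * κ) := by
  unfold cmp
  rw [sub_mul, sum_mul]
  congr 1
  refine sum_congr rfl fun j hj => ?_
  rw [← prod_ite_mul hj (fun t => cDen E (u t) ^ (10 * κ)), cNum_eq, ← sub_mul, mul_pow]
  ring

theorem num_bound (κ : ℕ) : (κ : ℝ) * (18 / 5) ^ (10 * κ) < 4 ^ (10 * κ) := by
  have h1 : (κ : ℝ) < 2 ^ κ := by exact_mod_cast Nat.lt_two_pow_self
  calc (κ : ℝ) * (18 / 5) ^ (10 * κ) < 2 ^ κ * (18 / 5) ^ (10 * κ) :=
        mul_lt_mul_of_pos_right h1 (by positivity)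
    _ = (2 * (18 / 5) ^ 10) ^ κ := by rw [pow_mul, mul_pow]
    _ ≤ (4 ^ 10) ^ κ := pow_le_pow_left₀ (by positivity) (by norm_num) _
    _ = _ := by rw [pow_mul]

end CompressA
open CompressA

theorem map_cmp {R S : Type*} [CommRing R] [CommRing S] (φ : R →+* S) (E κ : ℕ) (u : ℕ → R) :
    φ (cmp E κ u) = cmp E κ (fun j => φ (u j)) := by
  simp only [cmp, cNum, cDen, map_sub, map_sum, map_mul, map_pow, map_prod, map_add, map_ofNat,
    apply_ite φ, map_one]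

theorem cmp_neg_iff {E κ : ℕ} {u : ℕ → ℝ} (h : ∀ j < κ, 0 < u j → 1 ≤ u j ∧ u j ≤ 2 ^ E) :
    cmp E κ u < 0 ↔ ∀ j < κ, 0 < u j := by
  have hP : 0 < ∏ j ∈ range κ, cDen E (u j) ^ (10 * κ) :=
    prod_pos fun j _ => pow_pos (cDen_pos E _) _
  have hneg : ∀ x y : ℝ, 0 < y → (x * y < 0 ↔ x < 0) := fun x y hy =>
    ⟨fun h => neg_of_mul_neg_left h hy.le, fun h => mul_neg_of_neg_of_pos h hy⟩
  rw [cmp_eq, hneg _ _ hP, sub_neg]
  constructor
  · intro hs j hj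
    by_contra hu
    have h1 := sg_nonpos (E + 1) (not_lt.1 hu)
    have h2 : (4 : ℝ) ^ (10 * κ) ≤ (4 - sg (E + 1) (u j)) ^ (10 * κ) :=
      pow_le_pow_left₀ (by norm_num) (by linarith) _
    have h3 := single_le_sum (f := fun j => (4 - sg (E + 1) (u j)) ^ (10 * κ))
      (fun t _ => pow_nonneg (sub_nonneg.2 (sg_le _ _)) _) (mem_range.2 hj)
    linarith
  · intro hu
    refine lt_of_le_of_lt ?_ (num_bound κ)
    have := sum_le_card_nsmul (range κ) (fun j => (4 - sg (E + 1) (u j)) ^ (10 * κ))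
      ((18 / 5) ^ (10 * κ)) fun j hj => by
        have hj' := mem_range.1 hj
        have h1 := le_sg (h j hj' (hu j hj')).1 (h j hj' (hu j hj')).2
        exact pow_le_pow_left₀ (sub_nonneg.2 (sg_le _ _)) (by linarith) _
    simpa using this

end Crest.Agent.R316
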