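import Crest.Agent.R316.Defs
/-!
# Penalisation: minimisers, critical points, leading coefficients (task R316-Crit)

* `exists_min`: `penR ≥ ∑ y_i^(d+1) ≥ ‖y‖^(d+1)` (`d + 1` even), so it tends to `∞` along `cocompact`
  (`Continuous.exists_forall_le`), or restrict to a closed ball.
* `crit`: `t ↦ penR … (update y0 i t)` has a local minimum at `y0 i`; `upd lo v (update y0 i t) = update (upd lo v y0) (lo+i) t`;
  `HasDerivAt (fun t => aeval (update w j t) P) (aeval w (pderiv j P)) (w j)` by induction on `P`.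
* `lead_limit`: divide the relation by `T n ^ K` and pass to the limit.
-/
set_option autoImplicit false
namespace Crest.Agent.R316
open MvPolynomial Finset Filter Topology

theorem aeval_pen (lo : ℕ) {m : ℕ} (d : ℕ) (T P : MP) (v : ℕ → ℝ) (y : Fin m → ℝ) :
    aeval (upd lo v y) (pen lo m d T P) =
      penR d (aeval (upd lo v y) T) (fun y => aeval (upd lo v y) P) y := by
  unfold pen penR
  rw [map_add, map_mul, map_mul, map_natCast, map_sum, Finset.sum_range]
  congr 1
  refine Finset.sum_congr rfl fun i _ => ?_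
  rw [map_pow, aeval_X, upd_of_mem]

theorem continuous_penR {Y : Type*} [TopologicalSpace Y] {m : ℕ} (d : ℕ) (T : ℝ)
    {f : Y → (Fin m → ℝ) → ℝ} (hf : Continuous fun p : Y × (Fin m → ℝ) => f p.1 p.2) :
    Continuous fun p : Y × (Fin m → ℝ) => penR d T (f p.1) p.2 := by
  unfold penR
  refine (continuous_const.mul hf).add (continuous_finsetSum _ fun i _ => ?_)
  exact ((continuous_apply i).comp continuous_snd).pow _

/-- the sublevel sets of `∑ y_i^(d+1)` are compact -/
theorem isCompact_sublevel {m d : ℕ} (hd : Odd d) (ρ : ℝ) :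
    IsCompact {y : Fin m → ℝ | ∑ i, y i ^ (d + 1) ≤ ρ} := by
  have he : Even (d + 1) := hd.add_one
  refine Metric.isCompact_of_isClosed_isBounded
    (isClosed_le (continuous_finsetSum _ fun i _ => (continuous_apply i).pow _) continuous_const) ?_
  refine (Metric.isBounded_closedBall (x := (0 : Fin m → ℝ)) (r := max 1 ρ)).subset fun y hy => ?_
  rw [mem_closedBall_zero_iff, pi_norm_le_iff_of_nonneg (by positivity)]
  intro i
  have h1 : y i ^ (d + 1) ≤ ρ :=
    (Finset.single_le_sum (f := fun i => y i ^ (d + 1)) (fun j _ => he.pow_nonneg _)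
      (Finset.mem_univ i)).trans hy
  rw [Real.norm_eq_abs]
  by_cases h : |y i| ≤ 1
  · exact h.trans (le_max_left _ _)
  · refine le_trans ?_ (le_max_right _ _)
    have h2 : |y i| ≤ |y i| ^ (d + 1) := le_self_pow₀ (not_le.1 h).le (Nat.succ_ne_zero d)
    rw [he.pow_abs] at h2
    exact h2.trans h1

theorem sum_pow_le_penR {m d : ℕ} {T : ℝ} (hT : 0 ≤ T) {f : (Fin m → ℝ) → ℝ} (h0 : ∀ y, 0 ≤ f y)
    (y : Fin m → ℝ) : ∑ i, y i ^ (d + 1) ≤ penR d T f y := by
  unfold penR
  have := h0 y
  have : 0 ≤ ((d + 1 : ℕ) : ℝ) * T * f y := by positivity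
  linarith

theorem exists_min {m d : ℕ} (hd : Odd d) {T : ℝ} (hT : 0 ≤ T) {f : (Fin m → ℝ) → ℝ}
    (hf : Continuous f) (h0 : ∀ y, 0 ≤ f y) : ∃ y0, ∀ y, penR d T f y0 ≤ penR d T f y := by
  have hc : Continuous (penR d T f) := by
    unfold penR
    exact (continuous_const.mul hf).add
      (continuous_finsetSum _ fun i _ => (continuous_apply i).pow _)
  have h00 : (0 : Fin m → ℝ) ∈ {y : Fin m → ℝ | ∑ i, y i ^ (d + 1) ≤ penR d T f 0} :=
    sum_pow_le_penR hT h0 0
  obtain ⟨y0, -, hy0⟩ := (isCompact_sublevel (m := m) hd (penR d T f 0)).exists_isMinOn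
    ⟨0, h00⟩ hc.continuousOn
  refine ⟨y0, fun y => ?_⟩
  by_cases hy : ∑ i, y i ^ (d + 1) ≤ penR d T f 0
  · exact hy0 hy
  · exact (hy0 h00).trans ((not_le.1 hy).le.trans (sum_pow_le_penR hT h0 y))

theorem crit (lo : ℕ) {m : ℕ} (d : ℕ) (T : ℝ) (P : MP) (v : ℕ → ℝ) {y0 : Fin m → ℝ}
    (h : IsLocalMin (penR d T fun y => aeval (upd lo v y) P) y0) (i : Fin m) :
    y0 i ^ d = - T * aeval (upd lo v y0) (pderiv (lo + i) P) := by
  classical
  have key : ∀ (w : ℕ → ℝ) (j : ℕ) (Q : MP),
      HasDerivAt (fun t => aeval (Function.update w j t) Q) (aeval w (pderiv j Q)) (w j) := by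
    intro w j Q
    induction Q using MvPolynomial.induction_on with
    | C a =>
      simp only [aeval_C, pderiv_C, map_zero]
      exact hasDerivAt_const _ _
    | add p q hp hq =>
      simp only [map_add]
      exact hp.add hq
    | mul_X p k hp =>
      simp only [map_mul, aeval_X, Derivation.leibniz, smul_eq_mul, map_add]
      by_cases hk : k = j
      · subst hk
        simp only [Function.update_self, pderiv_X_self, map_one, mul_one]
        have := hp.mul (hasDerivAt_id' (w k))
        simp only [Function.update_eq_self, mul_one] at this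
        rw [add_comm, mul_comm (w k)]
        exact this
      · simp only [Function.update_of_ne hk, pderiv_X_of_ne hk, map_zero, mul_zero, zero_add]
        rw [mul_comm (w k)]
        exact hp.mul_const _
  have e1 : ∀ t, upd lo v (Function.update y0 i t) = Function.update (upd lo v y0) (lo + i) t := by
    intro t
    funext k
    by_cases hk : k = lo + i
    · subst hk
      rw [upd_of_mem, Function.update_self, Function.update_self]
    · rw [Function.update_of_ne hk]
      unfold upd
      split_ifs with h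
      · rw [Function.update_of_ne]
        intro h'
        apply hk
        have := congrArg Fin.val h'
        simp only at this
        omega
      · rfl
  have hu : Continuous fun t : ℝ => Function.update y0 i t := continuous_const.update i continuous_id
  have hm : IsLocalMin (fun t : ℝ => penR d T (fun y => aeval (upd lo v y) P) (Function.update y0 i t))
      (y0 i) := by
    have h' : IsLocalMin (penR d T fun y => aeval (upd lo v y) P)
        ((fun t : ℝ => Function.update y0 i t) (y0 i)) := by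
      simpa only [Function.update_eq_self] using h
    exact h'.comp_continuous hu.continuousAt
  have hP := key (upd lo v y0) (lo + i) P
  rw [upd_of_mem] at hP
  have hS : HasDerivAt (fun t : ℝ => ∑ j, Function.update y0 i t j ^ (d + 1))
      (((d + 1 : ℕ) : ℝ) * y0 i ^ d) (y0 i) := by
    have e : (fun t : ℝ => ∑ j, Function.update y0 i t j ^ (d + 1)) =
        fun t : ℝ => t ^ (d + 1) + ∑ j ∈ univ.erase i, y0 j ^ (d + 1) := by
      funext t
      rw [← Finset.add_sum_erase _ _ (Finset.mem_univ i), Function.update_self]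
      congr 1
      exact Finset.sum_congr rfl fun j hj => by rw [Function.update_of_ne (Finset.ne_of_mem_erase hj)]
    rw [e]
    exact (hasDerivAt_pow (d + 1) (y0 i)).add_const _
  have hD : HasDerivAt (fun t : ℝ => penR d T (fun y => aeval (upd lo v y) P) (Function.update y0 i t))
      (((d + 1 : ℕ) : ℝ) * T * aeval (upd lo v y0) (pderiv (lo + i) P) +
        ((d + 1 : ℕ) : ℝ) * y0 i ^ d) (y0 i) := by
    unfold penR
    simp only [e1]
    exact (hP.const_mul _).add hS
  have h0 := hm.hasDerivAt_eq_zero hD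
  have hpos : ((d + 1 : ℕ) : ℝ) ≠ 0 := by positivity
  have : ((d + 1 : ℕ) : ℝ) * (y0 i ^ d + T * aeval (upd lo v y0) (pderiv (lo + i) P)) = 0 := by
    linarith
  have := (mul_eq_zero.1 this).resolve_left hpos
  linarith

theorem exists_top {Km D : ℕ} {a : ℕ → ℕ → ℝ} (h : ∃ k ≤ Km, ∃ j ≤ D, a k j ≠ 0) :
    ∃ K e, Top Km D K e a := by
  classical
  obtain ⟨k, hk, j, hj, hkj⟩ := h
  have h1 : ∃ j ≤ D, a (Nat.findGreatest (fun k => ∃ j ≤ D, a k j ≠ 0) Km) j ≠ 0 :=
    Nat.findGreatest_spec (P := fun k => ∃ j ≤ D, a k j ≠ 0) hk ⟨j, hj, hkj⟩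
  set K := Nat.findGreatest (fun k => ∃ j ≤ D, a k j ≠ 0) Km with hK
  obtain ⟨j1, hj1, hkj1⟩ := h1
  refine ⟨K, Nat.findGreatest (fun j => a K j ≠ 0) D, Nat.findGreatest_le _, Nat.findGreatest_le _,
    Nat.findGreatest_spec (P := fun j => a K j ≠ 0) hj1 hkj1, fun k' hk' j' hj' hh => ?_⟩
  rcases hh with hh | ⟨rfl, hh⟩
  · by_contra hne
    exact Nat.findGreatest_is_greatest (P := fun k => ∃ j ≤ D, a k j ≠ 0) hh hk' ⟨j', hj', hne⟩
  · by_contra hne
    exact Nat.findGreatest_is_greatest (P := fun j => a K j ≠ 0) hh hj' hne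

theorem lead_limit {Km D K : ℕ} {a : ℕ → ℕ → ℝ} (hK : K ≤ Km)
    (h0 : ∀ k ≤ Km, ∀ j ≤ D, K < k → a k j = 0) {T z : ℕ → ℝ} {z0 : ℝ}
    (hT : Tendsto T atTop atTop) (hz : Tendsto z atTop (𝓝 z0))
    (h : ∀ n, ∑ k ∈ range (Km + 1), ∑ j ∈ range (D + 1), a k j * T n ^ k * z n ^ j = 0) :
    ∑ j ∈ range (D + 1), a K j * z0 ^ j = 0 := by
  have hc : ∀ k, Tendsto (fun n => ∑ j ∈ range (D + 1), a k j * z n ^ j) atTop
      (𝓝 (∑ j ∈ range (D + 1), a k j * z0 ^ j)) := fun k =>
    tendsto_finsetSum _ fun j _ => (hz.pow j).const_mul _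
  have hinv : Tendsto (fun n => (T n)⁻¹) atTop (𝓝 0) := hT.inv_tendsto_atTop
  have h1 : Tendsto (fun n => ∑ k ∈ range (K + 1),
      (∑ j ∈ range (D + 1), a k j * z n ^ j) * (T n)⁻¹ ^ (K - k)) atTop
      (𝓝 (∑ k ∈ range (K + 1), (∑ j ∈ range (D + 1), a k j * z0 ^ j) * 0 ^ (K - k))) :=
    tendsto_finsetSum _ fun k _ => (hc k).mul (hinv.pow _)
  have h2 : ∑ k ∈ range (K + 1), (∑ j ∈ range (D + 1), a k j * z0 ^ j) * (0 : ℝ) ^ (K - k) =
      ∑ j ∈ range (D + 1), a K j * z0 ^ j := by
    rw [Finset.sum_range_succ, Nat.sub_self, pow_zero, mul_one, Finset.sum_eq_zero, zero_add]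
    intro k hk
    rw [zero_pow (by have := Finset.mem_range.1 hk; omega), mul_zero]
  rw [h2] at h1
  refine tendsto_nhds_unique h1 (tendsto_const_nhds.congr' ?_)
  filter_upwards [hT.eventually_gt_atTop 0] with n hn
  have h3 := h n
  rw [← Finset.sum_range_add_sum_Ico _ (Nat.succ_le_succ hK), Finset.sum_eq_zero (s := Finset.Ico _ _),
    add_zero] at h3
  · have h4 : ∑ k ∈ range (K + 1), (∑ j ∈ range (D + 1), a k j * z n ^ j) * (T n)⁻¹ ^ (K - k) =
        (∑ k ∈ range (K + 1), ∑ j ∈ range (D + 1), a k j * T n ^ k * z n ^ j) * (T n)⁻¹ ^ K := by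
      rw [Finset.sum_mul]
      refine Finset.sum_congr rfl fun k hk => ?_
      have hk' : k ≤ K := by have := Finset.mem_range.1 hk; omega
      rw [Finset.sum_mul, Finset.sum_mul]
      refine Finset.sum_congr rfl fun j _ => ?_
      obtain ⟨r, rfl⟩ := Nat.exists_eq_add_of_le hk'
      rw [Nat.add_sub_cancel_left, pow_add]
      have : T n ^ k * (T n)⁻¹ ^ k = 1 := by rw [← mul_pow, mul_inv_cancel₀ hn.ne', one_pow]
      linear_combination (-(a k j * z n ^ j * (T n)⁻¹ ^ r)) * this
    rw [h4, h3, zero_mul]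
  · intro k hk
    have := Finset.mem_Ico.1 hk
    refine Finset.sum_eq_zero fun j hj => ?_
    rw [h0 k (by omega) j (by have := Finset.mem_range.1 hj; omega) (by omega), zero_mul, zero_mul]

end Crest.Agent.R316
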