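import Mathlib
import Crest.Agent.Lib.PT.Code
import Crest.Prelude.Def_CountHier
import Crest.Prelude.Def_RealEA
/-!
# Row 316 (S0488): `∃∀ℝ` is in the counting hierarchy — definitions

Overview of the proof (every file of `R316/` has its own plan in its header).

* `CH P`, `CHF f`: predicates / polynomially-many-bit functions in the counting hierarchy, on encoded
  types (`PT`, `PB`, `Enc` are from `Lib/PT`).  `CHP f`: families of integer polynomials of degree
  `2^poly`, height `2^2^poly`, whose values modulo large primes are `CHF`.  `CHZ`, `CHU`: integers and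
  univariate polynomials.  These are closed under exponential sums and products, substitution,
  coefficient extraction; the sign of a `CHZ` integer is `CH`.
* A sentence is `∃ x, ¬ Solv x` with `Solv x := ∃ y, F(x,y) = 0`, `F ≥ 0` a `CHP` family.
* `elim`: for a system `y_i^d = g_i` (`deg g_i < d`) and `h`, a `CHP` polynomial relation, monic in `z`,
  holding at `z = h(y)` for every solution `y` (traces through residues, Newton's identities).
* penalisation `penR d T f y = (d+1) T f(y) + ∑ y_i^(d+1)` gives such systems as critical-point equations;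
  sample points are real points of grids `∏ roots (b i)`.
* The parity of the number of real grid points with `U_j > 0` for all `j` is `CH`; real grid points can be
  isolated by such conditions (Thom encodings, hashed).
-/
set_option autoImplicit false

namespace Crest.Agent.R316
open Crest.Agent.PTime MvPolynomial Finset

/-! ## the counting hierarchy on encoded types -/

/-- number of `y < N` with `B y` -/
noncomputable def cnt (N : ℕ) (B : ℕ → Prop) : ℕ :=
  (@Finset.filter ℕ B (Classical.decPred B) (range N)).card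

/-- internal levels of the counting hierarchy -/
def Lv : ℕ → ∀ (α : Type) [Enc α], (α → Prop) → Prop
  | 0, _, _, P => PT P
  | j + 1, α, _, P => ∃ (B : α × ℕ → Prop) (n : α → ℕ), Lv j (α × ℕ) B ∧ PT n ∧ PB n ∧
      ∀ a, P a ↔ 2 ^ n a < 2 * cnt (2 ^ n a) (fun y => B (a, y))

theorem Lv_zero {α : Type} [Enc α] {P : α → Prop} : Lv 0 α P ↔ PT P := Iff.rfl

theorem Lv_succ {j : ℕ} {α : Type} [Enc α] {P : α → Prop} : Lv (j + 1) α P ↔
    ∃ (B : α × ℕ → Prop) (n : α → ℕ), Lv j (α × ℕ) B ∧ PT n ∧ PB n ∧
      ∀ a, P a ↔ 2 ^ n a < 2 * cnt (2 ^ n a) (fun y => B (a, y)) := Iff.rfl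

/-- predicates in the counting hierarchy -/
@[fun_prop] def CH {α : Type} [Enc α] (P : α → Prop) : Prop := ∃ j, Lv j α P

/-- functions with polynomially many output bits and graph in the counting hierarchy -/
@[fun_prop] def CHF {α : Type} [Enc α] (f : α → ℕ) : Prop :=
  PB (fun a => (f a).size) ∧ CH (fun x : α × ℕ => f x.1 = x.2)

/-- `b ^ e mod p` (and `0` for `p = 0`) -/
def powMod (b e p : ℕ) : ℕ := if p = 0 then 0 else b ^ e % p

/-- digit `i` of `w` in base `b` -/
def dig (b w i : ℕ) : ℕ := w / b ^ i % b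

/-! ## polynomial families -/

/-- integer polynomials in the variables `X 0, X 1, …` -/
abbrev MP : Type := MvPolynomial ℕ ℤ

/-- sum of the absolute values of the coefficients -/
noncomputable def l1 (f : MP) : ℕ := ∑ β ∈ f.support, (coeff β f).natAbs

/-- degree `≤ 2^poly`, height `≤ 2^2^poly` -/
def Bd {α : Type} [Enc α] (f : α → MP) : Prop :=
  ∃ q : α → ℕ, PB q ∧ ∀ a, (f a).totalDegree ≤ 2 ^ q a ∧ l1 (f a) ≤ 2 ^ 2 ^ q a

/-- the point of `ZMod p` with coordinates given by a list (`0` beyond its end) -/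
def lpt (p : ℕ) (l : List ℕ) : ℕ → ZMod p := fun i => ((l.getD i 0 : ℕ) : ZMod p)

/-- values modulo large primes are `CHF` -/
def EvCH {α : Type} [Enc α] (f : α → MP) : Prop :=
  ∃ (q : α → ℕ) (e : α × ℕ × List ℕ → ℕ), PB q ∧ CHF e ∧
    ∀ a p l, p.Prime → 2 ^ q a ≤ p → ((e (a, p, l) : ℕ) : ZMod p) = aeval (lpt p l) (f a)

/-- polynomial families computable in the counting hierarchy -/
@[fun_prop] def CHP {α : Type} [Enc α] (f : α → MP) : Prop := Bd f ∧ EvCH f

/-- integer families -/
@[fun_prop] def CHZ {α : Type} [Enc α] (z : α → ℤ) : Prop := CHP (fun a => (C (z a) : MP))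

/-- a univariate integer polynomial, in the variable `X i` -/
noncomputable def uni (i : ℕ) : Polynomial ℤ →ₐ[ℤ] MP := Polynomial.aeval (X i : MP)

/-- univariate families -/
@[fun_prop] def CHU {α : Type} [Enc α] (b : α → Polynomial ℤ) : Prop := CHP (fun a => uni 0 (b a))

/-- overwrite the block `[lo, lo + m)` of `v` by `y` -/
def upd {K : Type*} (lo : ℕ) {m : ℕ} (v : ℕ → K) (y : Fin m → K) : ℕ → K :=
  fun i => if h : lo ≤ i ∧ i < lo + m then y ⟨i - lo, by omega⟩ else v i

/-- keep the first `n` coordinates -/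
def trunc {K : Type*} [Zero K] (n : ℕ) (v : ℕ → K) : ℕ → K := fun i => if i < n then v i else 0

/-- first `n` coordinates from `z`, the others from `v` -/
def merge {K : Type*} (n : ℕ) (z v : ℕ → K) : ℕ → K := fun i => if i < n then z i else v i

/-- substitute `g i` for `X i` (`i < m`) and `0` for the other variables -/
noncomputable def sub (m : ℕ) (g : ℕ → MP) (f : MP) : MP := bind₁ (trunc m g) f

/-- coefficient of `∏_{i<m} X (lo+i) ^ e i`, a polynomial in the variables outside the block -/
noncomputable def cf (lo m : ℕ) (e : ℕ → ℕ) (f : MP) : MP :=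
  ∑ β ∈ f.support with (∀ i < m, β (lo + i) = e i),
    monomial (β.filter (fun i => ¬ (lo ≤ i ∧ i < lo + m))) (coeff β f)

/-- keep the block `[lo, lo + m)` as variables and evaluate the other variables at `v` -/
noncomputable def blk {K : Type*} [CommRing K] (lo m : ℕ) (v : ℕ → K) :
    MP →ₐ[ℤ] MvPolynomial (Fin m) K :=
  aeval (upd lo (fun i => (C (v i) : MvPolynomial (Fin m) K)) X)

/-- a polynomial over `MP` as an element of `MP`: the new variable is `X 0`, the old ones are shifted -/
noncomputable def up : Polynomial MP →+* MP :=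
  Polynomial.eval₂RingHom (rename Nat.succ : MP →ₐ[ℤ] MP).toRingHom (X 0)

/-- restriction to the axis of the variable `τ` -/
noncomputable def tou (τ : ℕ) : MP →ₐ[ℤ] Polynomial ℤ :=
  aeval (fun i => if i = τ then Polynomial.X else 0)

/-! ## Newton's identities, power sums of roots, residues -/

/-- `D! * ∑_{j=1}^{D} (-1)^(j-1) p_j s^j / j` -/
noncomputable def newtonL {R : Type*} [CommRing R] (D : ℕ) (p : ℕ → R) : Polynomial R :=
  ∑ j ∈ range D, Polynomial.C ((-1) ^ j * (∏ t ∈ range D, if t = j then 1 else ((t + 1 : ℕ) : R)) *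
    p (j + 1)) * Polynomial.X ^ (j + 1)

/-- `D!^(D+1) * ∑_{i ≤ D} L^i / i!` with `L = newtonL / D!` -/
noncomputable def newtonW {R : Type*} [CommRing R] (D : ℕ) (p : ℕ → R) : Polynomial R :=
  ∑ i ∈ range (D + 1), Polynomial.C ((∏ t ∈ range D, if t < i then 1 else ((t + 1 : ℕ) : R)) *
    (∏ t ∈ range D, ((t + 1 : ℕ) : R)) ^ (D - i)) * newtonL D p ^ i

/-- `D!^(D+1)` times the `k`-th elementary symmetric function, from the power sums `p 1, …, p D` -/
noncomputable def newton {R : Type*} [CommRing R] (D : ℕ) (p : ℕ → R) (k : ℕ) : R :=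
  (newtonW D p).coeff k

/-- `Δ^(a+1) * ∑ r^a` over the complex roots `r` of `b`, when `d = natDegree b`, `Δ = coeff b d` -/
noncomputable def spowD (b : Polynomial ℤ) (d a : ℕ) : ℤ :=
  ((∑ k ∈ range d, Polynomial.C (((d - k : ℕ) : ℤ) * b.coeff (d - k)) * Polynomial.X ^ k) *
    ∑ k ∈ range (a + 1), Polynomial.C (b.coeff d ^ (a - k)) *
      (- ∑ t ∈ range d, Polynomial.C (b.coeff (d - (t + 1))) * Polynomial.X ^ (t + 1)) ^ k).coeff a

/-- the truncated residue of `u / ∏ (X i ^ d - g i)` -/
noncomputable def ellB {m : ℕ} (d : ℕ) (g : Fin m → MvPolynomial (Fin m) ℂ) (B : ℕ)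
    (u : MvPolynomial (Fin m) ℂ) : ℂ :=
  ∑ k ∈ Fintype.piFinset (fun _ : Fin m => range (B + 1)),
    coeff (Finsupp.equivFunOnFinite.symm fun i => d * (k i + 1) - 1) (u * ∏ i, g i ^ k i)

/-- the Jacobian determinant of the system `X i ^ d - g i` -/
noncomputable def jac {m : ℕ} (d : ℕ) (g : Fin m → MvPolynomial (Fin m) ℂ) :
    MvPolynomial (Fin m) ℂ :=
  (Matrix.of fun i j : Fin m => pderiv j (X i ^ d - g i)).det

/-- the ideal of the system -/
noncomputable def sysI {m : ℕ} (d : ℕ) (g : Fin m → MvPolynomial (Fin m) ℂ) :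
    Ideal (MvPolynomial (Fin m) ℂ) :=
  Ideal.span (Set.range fun i => X i ^ d - g i)

/-! ## penalisation -/

/-- the penalised function -/
def penR {m : ℕ} (d : ℕ) (T : ℝ) (f : (Fin m → ℝ) → ℝ) (y : Fin m → ℝ) : ℝ :=
  ((d + 1 : ℕ) : ℝ) * T * f y + ∑ i, y i ^ (d + 1)

/-- the penalised polynomial -/
noncomputable def pen (lo m d : ℕ) (T P : MP) : MP :=
  ((d + 1 : ℕ) : MP) * T * P + ∑ i ∈ range m, X (lo + i) ^ (d + 1)

/-- `(K, e)` is the lexicographically largest index of a nonzero coefficient -/
def Top (Km D K e : ℕ) (a : ℕ → ℕ → ℝ) : Prop :=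
  K ≤ Km ∧ e ≤ D ∧ a K e ≠ 0 ∧ ∀ k ≤ Km, ∀ j ≤ D, (K < k ∨ (k = K ∧ e < j)) → a k j = 0

/-- the minimum value `μ(T)` of the penalised function satisfies `∑ a k j T^k μ^j = 0` -/
def Rel {m : ℕ} (d : ℕ) (f : (Fin m → ℝ) → ℝ) (Km D : ℕ) (a : ℕ → ℕ → ℝ) : Prop :=
  ∀ T : ℝ, 0 ≤ T → ∀ y0, (∀ y, penR d T f y0 ≤ penR d T f y) →
    ∑ k ∈ range (Km + 1), ∑ j ∈ range (D + 1), a k j * T ^ k * penR d T f y0 ^ j = 0

/-- `F(x, ·)` has a real zero; `x` occupies the variables `< n`, `y` the block `[n, n + m)` -/
def Solv (n m : ℕ) (F : MP) (x : ℕ → ℝ) : Prop := ∃ y : Fin m → ℝ, aeval (upd n x y) F = 0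

/-- a family of nonnegative polynomials in the first `N` variables -/
structure Pos {α : Type} [Enc α] (N : α → ℕ) (F : α → MP) : Prop where
  chp : CHP F
  nonneg : ∀ a (v : ℕ → ℝ), 0 ≤ aeval v (F a)
  dep : ∀ a (v w : ℕ → ℝ), (∀ i < N a, v i = w i) → aeval v (F a) = aeval w (F a)

/-- a family of instances `∃ x ∈ ℝ^n, ¬ ∃ y ∈ ℝ^m, F(x,y) = 0` -/
structure Good {α : Type} [Enc α] (n m : α → ℕ) (F : α → MP) : Prop where
  ptn : PT n
  pbn : PB n
  ptm : PT m
  pbm : PB m
  pos : Pos (fun a => n a + m a) F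

/-! ## grids -/

/-- the multiset of points `z` with `z i ∈ R i` for `i < n` and `z i = 0` for `i ≥ n` -/
noncomputable def grid {K : Type*} [Zero K] (R : ℕ → Multiset K) : ℕ → Multiset (ℕ → K)
  | 0 => {0}
  | n + 1 => (grid R n).bind fun z => (R n).map fun r => Function.update z n r

theorem grid_zero {K : Type*} [Zero K] (R : ℕ → Multiset K) : grid R 0 = {0} := rfl

theorem grid_succ {K : Type*} [Zero K] (R : ℕ → Multiset K) (n : ℕ) :
    grid R (n + 1) = (grid R n).bind fun z => (R n).map fun r => Function.update z n r := rfl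

/-- complex grid points, with multiplicity -/
noncomputable def gridC (n : ℕ) (b : ℕ → Polynomial ℤ) : Multiset (ℕ → ℂ) :=
  grid (fun i => (b i).aroots ℂ) n

/-- real grid points, with multiplicity -/
noncomputable def gridR (n : ℕ) (b : ℕ → Polynomial ℤ) : Multiset (ℕ → ℝ) :=
  grid (fun i => (b i).aroots ℝ) n

/-- all polynomials of the grid are nonzero -/
def Valid (n : ℕ) (b : ℕ → Polynomial ℤ) : Prop := ∀ i < n, b i ≠ 0

/-- number of elements, with multiplicity, satisfying `p` -/
noncomputable def mcnt {β : Type*} (M : Multiset β) (p : β → Prop) : ℕ :=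
  @Multiset.countP β p (Classical.decPred p) M

/-- a family of grids -/
structure GridF {α : Type} [Enc α] (n : α → ℕ) (b : α → ℕ → Polynomial ℤ) : Prop where
  ptn : PT n
  pbn : PB n
  chu : CHU (fun x : α × ℕ => b x.1 x.2)

/-! ## compressing a conjunction of sign conditions into one -/

/-- `∏_{k ≤ E} (u² + 4^k)` -/
def cDen {R : Type*} [CommRing R] (E : ℕ) (u : R) : R := ∏ k ∈ range (E + 1), (u ^ 2 + 4 ^ k)

/-- `cDen E u * ∑_{k ≤ E} u 2^k / (u² + 4^k)` -/
def cNum {R : Type*} [CommRing R] (E : ℕ) (u : R) : R :=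
  ∑ k ∈ range (E + 1), u * 2 ^ k * ∏ t ∈ range (E + 1), if t = k then 1 else (u ^ 2 + 4 ^ t)

/-- negative iff all `u j` (`j < κ`) are positive -/
def cmp {R : Type*} [CommRing R] (E κ : ℕ) (u : ℕ → R) : R :=
  ∑ j ∈ range κ, (4 * cDen E (u j) - cNum E (u j)) ^ (10 * κ) *
      ∏ t ∈ range κ, (if t = j then 1 else cDen E (u t) ^ (10 * κ)) -
    4 ^ (10 * κ) * ∏ j ∈ range κ, cDen E (u j) ^ (10 * κ)

/-! ## sentences -/
open Crest.RealEA

/-- a formula as a prefix list of tokens; an atom carries its circuit -/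
def toks : Form → List (ℕ × List (List ℕ))
  | .eqZero c => [(6, c.map AGate.toNats)]
  | .pos c => [(7, c.map AGate.toNats)]
  | .and φ ψ => (8, []) :: (toks φ ++ toks ψ)
  | .or φ ψ => (9, []) :: (toks φ ++ toks ψ)
  | .not φ => (10, []) :: toks φ

instance : Enc Sentence := ⟨fun S => enc (S.r, S.s, toks S.body)⟩

theorem PT.sentence : PT (fun S : Sentence => (S.r, S.s, toks S.body)) :=
  PT.id.of_enc fun _ => rfl

/-- indices of the variables with gate tag `tag` (`1` for `x`, `2` for `y`) occurring in the tokens -/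
def vars (tag : ℕ) (t : List (ℕ × List (List ℕ))) : List ℕ :=
  t.flatMap fun k => (k.2.filter fun g => g.getD 0 0 == tag).map fun g => g.getD 1 0

/-- value of a gate in a commutative ring -/
def gateP {R : Type*} [CommRing R] (vx vy : ℕ → R) (prev : List R) : AGate → R
  | .const z => z
  | .varX i => vx i
  | .varY i => vy i
  | .add a b => prev.getD a 0 + prev.getD b 0
  | .sub a b => prev.getD a 0 - prev.getD b 0
  | .mul a b => prev.getD a 0 * prev.getD b 0

/-- value of a circuit in a commutative ring -/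
def circP {R : Type*} [CommRing R] (vx vy : ℕ → R) (c : List AGate) : R :=
  (c.foldl (fun prev g => prev ++ [gateP vx vy prev g]) []).getLastD 0

/-- number of atoms -/
def atoms : Form → ℕ
  | .eqZero _ => 1
  | .pos _ => 1
  | .and φ ψ => atoms φ + atoms ψ
  | .or φ ψ => atoms φ + atoms ψ
  | .not φ => atoms φ

/-- two nonnegative expressions in the auxiliary variables `vz k, …, vz (k + atoms φ - 1)`: the first has a
zero iff `φ` holds, the second iff `φ` fails -/
def formP {R : Type*} [CommRing R] (vx vy vz : ℕ → R) : Form → ℕ → R × R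
  | .eqZero c, k => (circP vx vy c ^ 2, (vz k * circP vx vy c - 1) ^ 2)
  | .pos c, k => ((vz k ^ 2 * circP vx vy c - 1) ^ 2, (circP vx vy c + vz k ^ 2) ^ 2)
  | .and φ ψ, k => ((formP vx vy vz φ (k + atoms ψ)).1 + (formP vx vy vz ψ k).1,
      (formP vx vy vz φ (k + atoms ψ)).2 * (formP vx vy vz ψ k).2)
  | .or φ ψ, k => ((formP vx vy vz φ (k + atoms ψ)).1 * (formP vx vy vz ψ k).1,
      (formP vx vy vz φ (k + atoms ψ)).2 + (formP vx vy vz ψ k).2)
  | .not φ, k => ((formP vx vy vz φ k).2, (formP vx vy vz φ k).1)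

/-- number of `x` variables -/
def nS (S : Sentence) : ℕ := (vars 1 (toks S.body)).length

/-- number of `y` variables and auxiliary variables -/
def mS (S : Sentence) : ℕ := (vars 2 (toks S.body)).length + atoms S.body

/-- the polynomial of a sentence: it has a zero over `x` iff the condition fails for some `y` -/
noncomputable def FS (S : Sentence) : MP :=
  (formP (fun i => (X ((vars 1 (toks S.body)).idxOf i) : MP))
    (fun i => X (nS S + (vars 2 (toks S.body)).idxOf i))
    (fun c => X (nS S + (vars 2 (toks S.body)).length + c)) S.body 0).2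

/-! ## small general facts -/

theorem map_aeval' {K L : Type*} [CommRing K] [CommRing L] (φ : K →+* L) (v : ℕ → K) (f : MP) :
    φ (aeval v f) = aeval (fun i => φ (v i)) f := by
  induction f using MvPolynomial.induction_on with
  | C a => simp
  | add p q hp hq => simp [hp, hq]
  | mul_X p i hp => simp [hp]

theorem ofReal_aeval (v : ℕ → ℝ) (f : MP) :
    ((aeval v f : ℝ) : ℂ) = aeval (fun i => (v i : ℂ)) f := map_aeval' Complex.ofRealHom v f

theorem aeval_sub {K : Type*} [CommRing K] (v : ℕ → K) (m : ℕ) (g : ℕ → MP) (f : MP) :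
    aeval v (sub m g f) = aeval (trunc m fun i => aeval v (g i)) f := by
  unfold sub
  rw [aeval_bind₁]
  congr 2
  funext i
  unfold trunc
  split_ifs <;> simp

theorem aeval_trunc {K : Type*} [CommRing K] (v : ℕ → K) (m : ℕ) (f : MP) :
    aeval v (sub m X f) = aeval (trunc m v) f := by
  rw [aeval_sub]; simp

theorem aeval_uni {K : Type*} [CommRing K] (v : ℕ → K) (i : ℕ) (b : Polynomial ℤ) :
    aeval v (uni i b) = Polynomial.aeval (v i) b := by
  unfold uni
  rw [← Polynomial.aeval_algHom_apply]; simp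

theorem aeval_tou {K : Type*} [CommRing K] (t : K) (τ : ℕ) (f : MP) :
    Polynomial.aeval t (tou τ f) = aeval (fun i => if i = τ then t else 0) f := by
  unfold tou
  have := map_aeval' (Polynomial.aeval t : Polynomial ℤ →ₐ[ℤ] K).toRingHom
    (fun i => if i = τ then Polynomial.X else 0) f
  refine this.trans ?_
  congr 2
  funext i
  split_ifs <;> simp

theorem up_C (p : MP) : up (Polynomial.C p) = rename Nat.succ p := by simp [up]

theorem up_X : up Polynomial.X = X 0 := by simp [up]

theorem upd_of_mem {K : Type*} (lo : ℕ) {m : ℕ} (v : ℕ → K) (y : Fin m → K) (i : Fin m) :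
    upd lo v y (lo + i) = y i := by
  have := i.2
  simp [upd, this]

theorem upd_of_not_mem {K : Type*} (lo : ℕ) {m : ℕ} (v : ℕ → K) (y : Fin m → K) {i : ℕ}
    (h : ¬ (lo ≤ i ∧ i < lo + m)) : upd lo v y i = v i := by
  simp only [upd, dif_neg h]

theorem continuous_aeval_of {Y : Type*} [TopologicalSpace Y] {v : Y → ℕ → ℝ}
    (hv : ∀ i, Continuous fun y => v y i) (f : MP) : Continuous fun y => aeval (v y) f := by
  induction f using MvPolynomial.induction_on with
  | C a => simpa using continuous_const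
  | add p q hp hq => simp only [map_add]; exact hp.add hq
  | mul_X p i hp => simp only [map_mul, aeval_X]; exact hp.mul (hv i)

theorem continuous_upd {Y : Type*} [TopologicalSpace Y] (lo : ℕ) {m : ℕ} {v : Y → ℕ → ℝ}
    {y : Y → Fin m → ℝ} (hv : ∀ i, Continuous fun t => v t i) (hy : Continuous y) (i : ℕ) :
    Continuous fun t => upd lo (v t) (y t) i := by
  unfold upd
  split_ifs with h
  · exact (continuous_apply _).comp hy
  · exact hv i

theorem Solv.congr {n m : ℕ} {F : MP}
    (hF : ∀ v w : ℕ → ℝ, (∀ i < n + m, v i = w i) → aeval v F = aeval w F) {x x' : ℕ → ℝ}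
    (h : ∀ i < n, x i = x' i) : Solv n m F x ↔ Solv n m F x' := by
  have key : ∀ y : Fin m → ℝ, aeval (upd n x y) F = aeval (upd n x' y) F := fun y => by
    refine hF _ _ fun i hi => ?_
    unfold upd
    split_ifs with h'
    · rfl
    · exact h i (by omega)
  simp only [Solv, key]

/-- realises unfolding lemmas once, here -/
theorem eqs_realised : True := by
  have _h0 := @toks.eq_def
  have _h1 := @atoms.eq_def
  have _h2 := @formP.eq_def.{0}
  have _h3 := @grid.eq_def.{0}
  have _h4 := @Lv.eq_def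
  have _h5 := @gateP.eq_1.{0}
  have _h6 := @Crest.RealEA.Form.Holds.eq_def
  have _h7 := @Crest.RealEA.Form.WF.eq_def
  have _h8 := @Crest.RealEA.Form.toNats.eq_def
  have _h9 := @Crest.CountHier.level.eq_def
  trivial

end Crest.Agent.R316
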