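import Crest.Agent.R316.CHP
/-!
# Determinants of polynomial size (task R316-Det)

Leibniz over all maps: `det M = ∑ σ : Fin m → Fin m, ε σ * ∏ i, M (σ i) i` with
`ε σ = ∏ i < m, ∏ j < m, if i < j then sign ((σ j : ℤ) - σ i) else 1`, which is `0` for non-injective `σ` and the sign for a permutation
(`Equiv.Perm.sign_eq_prod_prod_Ioi` or similar; else induction through `Equiv.Perm.signAux`).  Enumerate `σ` by `w < m ^ m`, `σ i = dig m w i`
(`sum_dig`); `ε` is a `PT` integer (`PT.prod_range`, `PT.int_sign`), `CHZ.of_PT`.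
-/
set_option autoImplicit false
namespace Crest.Agent.R316
open Crest.Agent.PTime MvPolynomial Finset
variable {α : Type} [Enc α]

namespace DetA

/-- sign of a map, `0` if it is not injective -/
def sg (x y : ℕ) : ℤ := if x < y then 1 else if x = y then 0 else -1

def eps (m : ℕ) (k : ℕ → ℕ) : ℤ :=
  ∏ i ∈ range m, ∏ j ∈ range m, if i < j then sg (k i) (k j) else 1

def epsF {m : ℕ} (k : Fin m → ℕ) : ℤ :=
  ∏ i : Fin m, ∏ j : Fin m, if i < j then sg (k i) (k j) else 1

theorem eps_eq (m : ℕ) (k : ℕ → ℕ) : eps m k = epsF fun i : Fin m => k i := by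
  unfold eps epsF
  rw [Finset.prod_range]
  refine Finset.prod_congr rfl fun i _ => ?_
  rw [Finset.prod_range]
  rfl

theorem epsF_perm {m : ℕ} (σ : Equiv.Perm (Fin m)) :
    epsF (fun i => (σ i : ℕ)) = (Equiv.Perm.sign σ : ℤ) := by
  rw [σ.sign_eq_prod_prod_Ioi, Units.coe_prod]
  refine Finset.prod_congr rfl fun i _ => ?_
  rw [Units.coe_prod, ← Finset.prod_filter]
  refine Finset.prod_congr (by ext j; simp) fun j hj => ?_
  have h : (σ i : ℕ) ≠ σ j := fun h => (Finset.mem_Ioi.1 hj).ne (σ.injective (Fin.ext h))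
  unfold sg
  rw [if_neg h]
  by_cases h' : σ i < σ j
  · rw [if_pos h', if_pos (show (σ i : ℕ) < σ j from h')]; rfl
  · rw [if_neg h', if_neg (show ¬ (σ i : ℕ) < σ j from h')]; rfl

theorem epsF_zero {m : ℕ} {k : Fin m → ℕ} (h : ¬ Function.Injective k) : epsF k = 0 := by
  have : ∃ i j, i < j ∧ k i = k j := by
    unfold Function.Injective at h
    push Not at h
    obtain ⟨i, j, h1, h2⟩ := h
    rcases lt_or_gt_of_ne h2 with h3 | h3
    · exact ⟨i, j, h3, h1⟩
    · exact ⟨j, i, h3, h1.symm⟩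
  obtain ⟨i, j, h1, h2⟩ := this
  refine Finset.prod_eq_zero (mem_univ i) (Finset.prod_eq_zero (mem_univ j) ?_)
  rw [if_pos h1, h2]
  simp [sg]

theorem det_eq (m : ℕ) (M : ℕ → ℕ → MP) :
    (Matrix.of fun i j : Fin m => M i j).det =
      ∑ w ∈ range (m ^ m), C (eps m (dig m w)) * ∏ i ∈ range m, M (dig m w i) i := by
  simp only [eps_eq, Finset.prod_range]
  rw [sum_dig m m fun k : Fin m → ℕ => C (epsF k) * ∏ i : Fin m, M (k i) i, Matrix.det_apply']
  refine Finset.sum_of_injOn (fun (σ : Equiv.Perm (Fin m)) (i : Fin m) => (σ i : ℕ)) ?_ ?_ ?_ ?_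
  · intro σ _ τ _ h
    ext i
    exact congrFun h i
  · intro σ _
    exact Fintype.mem_piFinset.2 fun i => mem_range.2 (σ i).2
  · intro k hk hne
    have hk' : ∀ i, k i < m := fun i => mem_range.1 (Fintype.mem_piFinset.1 hk i)
    rw [epsF_zero, map_zero, zero_mul]
    intro hinj
    have h1 : Function.Injective fun i => (⟨k i, hk' i⟩ : Fin m) :=
      fun i j h => hinj (congrArg Fin.val h)
    exact hne ⟨Equiv.ofBijective _ (Finite.injective_iff_bijective.1 h1), by simp, rfl⟩
  · intro σ _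
    rw [epsF_perm]
    simp

end DetA

open DetA

theorem CHP.det {M : α → ℕ → ℕ → MP} {m : α → ℕ} (hm : PT m) (hb : PB m)
    (hM : CHP (fun x : (α × ℕ) × ℕ => M x.1.1 x.1.2 x.2)) :
    CHP (fun a => (Matrix.of fun i j : Fin (m a) => M a i j).det) := by
  refine CHP.congr ?_ fun a => det_eq (m a) (M a)
  have h1 : PT (fun x : α × ℕ => eps (m x.1) (dig (m x.1) x.2)) := by
    unfold eps sg
    fun_prop
  refine CHP.sum_range (hm.pow hm hb) (CHP.mul (CHP.C (CHZ.of_PT h1)) ?_)
  exact CHP.prod_range (f := fun (x : α × ℕ) i => M x.1 (dig (m x.1) x.2 i) i) (by fun_prop)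
    (CHP.app₃ hM (by fun_prop) (by fun_prop) (by fun_prop))

end Crest.Agent.R316
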