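import Crest.Agent.R316.Defs
/-!
# Digits, majorants, elementary counting (task R316-Dig)

* `PB.major`: `q a ≤ Q.eval (sz a)`; `a ↦ Q.eval (sz a)` is `PT` (`PT.sz`, induction on `Q`, `PT.pow` with a
  constant exponent) and `PB`.
* `PB.sup_lt`: for `i < N a`, `sz (a, i) = sz a + sz i + 1 ≤ sz a + 4 * sz (N a) + 2` (`sz_le_of_le`), use `eval_mono`.
* `sum_dig`: `finFunctionFinEquiv` (`finFunctionFinEquiv_symm_apply_val`) or induction on `m`.
-/
set_option autoImplicit false
namespace Crest.Agent.R316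
open Crest.Agent.PTime Finset
variable {α : Type} [Enc α]

namespace DigA

theorem pt_eval (Q : Polynomial ℕ) {f : α → ℕ} (hf : PT f) : PT (fun a => Q.eval (f a)) := by
  induction Q using Polynomial.induction_on' with
  | add p q hp hq => simpa only [Polynomial.eval_add] using hp.add hq
  | monomial n c =>
    simpa only [Polynomial.eval_monomial] using
      (PTime.PT.const c).mul (hf.pow (PTime.PT.const n) (PTime.PB.const n))

theorem sum_lt (b m : ℕ) (k : ℕ → ℕ) (hk : ∀ i < m, k i < b) :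
    ∑ t ∈ range m, k t * b ^ t < b ^ m := by
  induction m with
  | zero => simp
  | succ m ih =>
    have h1 := ih fun i hi => hk i (by omega)
    have h2 : (k m + 1) * b ^ m ≤ b * b ^ m := Nat.mul_le_mul_right _ (hk m (by omega))
    rw [sum_range_succ, pow_succ']
    nlinarith

theorem dig_add (b u c m i : ℕ) (hi : i < m) (hb : 0 < b) :
    dig b (u + c * b ^ m) i = dig b u i := by
  unfold dig
  obtain ⟨j, rfl⟩ : ∃ j, m = i + (j + 1) := ⟨m - i - 1, by omega⟩
  have : c * b ^ (i + (j + 1)) = c * b ^ j * b * b ^ i := by ring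
  rw [this, Nat.add_mul_div_right _ _ (pow_pos hb i), Nat.add_mul_mod_self_right]

theorem dig_sum (b m : ℕ) (k : ℕ → ℕ) (hk : ∀ i < m, k i < b) :
    ∀ i < m, dig b (∑ t ∈ range m, k t * b ^ t) i = k i := by
  induction m with
  | zero => intro i hi; omega
  | succ m ih =>
    intro i hi
    have hb : 0 < b := by have := hk m (by omega); omega
    rw [sum_range_succ]
    rcases (Nat.lt_succ_iff.1 hi).lt_or_eq with h | h
    · rw [dig_add _ _ _ _ _ h hb]; exact ih (fun i hi => hk i (by omega)) i h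
    · subst h
      unfold dig
      rw [Nat.add_mul_div_right _ _ (pow_pos hb i),
        Nat.div_eq_of_lt (sum_lt b i k fun j hj => hk j (by omega)), zero_add,
        Nat.mod_eq_of_lt (hk i hi)]

theorem mod_eq_sum (b m w : ℕ) : w % b ^ m = ∑ t ∈ range m, dig b w t * b ^ t := by
  induction m with
  | zero => simp [Nat.mod_one]
  | succ m ih => rw [sum_range_succ, ← ih, Nat.mod_pow_succ, dig, mul_comm]

theorem eq_sum (b m w : ℕ) (h : w < b ^ m) : w = ∑ t ∈ range m, dig b w t * b ^ t := by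
  rw [← mod_eq_sum, Nat.mod_eq_of_lt h]

end DigA

theorem PB.major {q : α → ℕ} (h : PB q) : ∃ q' : α → ℕ, PT q' ∧ PB q' ∧ ∀ a, q a ≤ q' a := by
  obtain ⟨Q, hQ⟩ := h
  exact ⟨fun a => Q.eval (sz a), DigA.pt_eval Q (PTime.PT.sz PTime.PT.id),
    PTime.PB.poly_eval Q (PTime.PB.sz PTime.PT.id), hQ⟩

theorem PB.sup_lt {q : α → ℕ → ℕ} (h : PB (fun x : α × ℕ => q x.1 x.2)) {N : α → ℕ} (hN : PT N) :
    ∃ q' : α → ℕ, PT q' ∧ PB q' ∧ ∀ a, ∀ i < N a, q a i ≤ q' a := by
  obtain ⟨Q, hQ⟩ := h
  obtain ⟨q', h1, h2, h3⟩ := PB.major (q := fun a => Q.eval (sz a + (4 * sz (N a) + 1) + 1))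
    (PTime.PB.poly_eval Q (((PTime.PB.sz PTime.PT.id).add
      (((PTime.PB.const 4).mul (PTime.PB.sz hN)).add (PTime.PB.const 1))).add (PTime.PB.const 1)))
  refine ⟨q', h1, h2, fun a i hi => ((hQ (a, i)).trans (eval_mono Q ?_)).trans (h3 a)⟩
  have := sz_le_of_le hi.le
  rw [sz_pair]; omega

/-- the same, when only the size of the index is bounded -/
theorem PB.sup_size {q : α → ℕ → ℕ} (h : PB (fun x : α × ℕ => q x.1 x.2)) {s : α → ℕ} (hs : PB s) :
    ∃ q' : α → ℕ, PT q' ∧ PB q' ∧ ∀ a i, i.size ≤ s a → q a i ≤ q' a := by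
  obtain ⟨Q, hQ⟩ := h
  obtain ⟨q', h1, h2, h3⟩ := PB.major (q := fun a => Q.eval (sz a + (4 * s a + 1) + 1))
    (PTime.PB.poly_eval Q (((PTime.PB.sz PTime.PT.id).add
      (((PTime.PB.const 4).mul hs).add (PTime.PB.const 1))).add (PTime.PB.const 1)))
  refine ⟨q', h1, h2, fun a i hi => ((hQ (a, i)).trans (eval_mono Q ?_)).trans (h3 a)⟩
  have := sz_le_of_lt (Nat.size_le.1 hi)
  rw [sz_pair]; omega

/-- a `PT` number is below `2 ^ poly` -/
theorem PT.exists_lt_pow {N : α → ℕ} (hN : PT N) :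
    ∃ q : α → ℕ, PT q ∧ PB q ∧ ∀ a, N a < 2 ^ q a :=
  ⟨fun a => (N a).size, hN.size, PTime.PB.size hN, fun a => Nat.lt_size_self (N a)⟩

/-- `b ^ i` is only computed when it is at most `w` -/
@[fun_prop] theorem PT.dig {b w i : α → ℕ} (hb : PT b) (hw : PT w) (hi : PT i) :
    PT (fun a => dig (b a) (w a) (i a)) := by
  have h : PT (fun a => w a / b a ^ (min (i a) (w a).size) % b a) :=
    (hw.div (hb.pow (hi.min hw.size) (PTime.PB.min_right (PTime.PB.size hw)))).mod hb
  refine h.congr fun a => ?_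
  unfold R316.dig
  rcases le_total (i a) (w a).size with h1 | h1
  · rw [min_eq_left h1]
  · rw [min_eq_right h1]
    rcases Nat.lt_or_ge (b a) 2 with h2 | h2
    · rcases (by omega : b a = 0 ∨ b a = 1) with h3 | h3
      · rw [h3]
        rcases Nat.eq_zero_or_pos (w a) with h4 | h4
        · rw [h4]; simp
        · have h5 : 0 < (w a).size := Nat.size_pos.2 h4
          rw [zero_pow (by omega), zero_pow (by omega)]
      · rw [h3, Nat.mod_one, Nat.mod_one]
    · have h3 : w a < b a ^ (w a).size :=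
        lt_of_lt_of_le (Nat.lt_size_self _) (Nat.pow_le_pow_left h2 _)
      have h4 : w a < b a ^ i a := lt_of_lt_of_le h3 (Nat.pow_le_pow_right (by omega) h1)
      rw [Nat.div_eq_of_lt h3, Nat.div_eq_of_lt h4]

theorem dig_lt {b : ℕ} (hb : 0 < b) (w i : ℕ) : dig b w i < b := Nat.mod_lt _ hb

theorem exists_dig (b m : ℕ) (k : ℕ → ℕ) (hk : ∀ i < m, k i < b) :
    ∃ w < b ^ m, ∀ i < m, dig b w i = k i :=
  ⟨_, DigA.sum_lt b m k hk, DigA.dig_sum b m k hk⟩

theorem dig_sum (b m : ℕ) (k : ℕ → ℕ) (hk : ∀ i < m, k i < b) :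
    ∀ i < m, dig b (∑ t ∈ range m, k t * b ^ t) i = k i :=
  DigA.dig_sum b m k hk

theorem sum_dig {M : Type*} [AddCommMonoid M] (b m : ℕ) (φ : (Fin m → ℕ) → M) :
    ∑ w ∈ range (b ^ m), φ (fun i => dig b w i) =
      ∑ k ∈ Fintype.piFinset (fun _ : Fin m => range b), φ k := by
  refine Finset.sum_bij (fun w _ => fun i : Fin m => dig b w i) ?_ ?_ ?_ (fun _ _ => rfl)
  · intro w hw
    refine Fintype.mem_piFinset.2 fun i => mem_range.2 (dig_lt ?_ _ _)
    rcases Nat.eq_zero_or_pos b with h | h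
    · have := mem_range.1 hw
      rw [h, zero_pow (by have := i.2; omega)] at this
      omega
    · exact h
  · intro w hw w' hw' h
    rw [DigA.eq_sum b m w (mem_range.1 hw), DigA.eq_sum b m w' (mem_range.1 hw')]
    exact Finset.sum_congr rfl fun t ht => by
      rw [show dig b w t = dig b w' t from congrFun h ⟨t, mem_range.1 ht⟩]
  · intro k hk
    obtain ⟨w, hw, h⟩ := exists_dig b m (fun i => if h : i < m then k ⟨i, h⟩ else 0) fun i hi => by
      rw [dif_pos hi]; exact mem_range.1 (Fintype.mem_piFinset.1 hk _)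
    refine ⟨w, mem_range.2 hw, funext fun i => ?_⟩
    rw [h i i.2, dif_pos i.2]

theorem cnt_congr {N : ℕ} {B B' : ℕ → Prop} (h : ∀ y < N, B y ↔ B' y) : cnt N B = cnt N B' := by
  unfold cnt
  congr 1
  ext y
  simp only [mem_filter, mem_range]
  exact and_congr_right (h y)

theorem cnt_le (N : ℕ) (B : ℕ → Prop) : cnt N B ≤ N := by
  unfold cnt
  exact (@card_filter_le _ _ _ (Classical.decPred B)).trans (card_range N).le

theorem cnt_eq_card (N : ℕ) (B : ℕ → Prop) [DecidablePred B] :
    cnt N B = ((range N).filter B).card := by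
  unfold cnt
  congr

theorem cnt_eq_sum (N : ℕ) (B : ℕ → Prop) [DecidablePred B] :
    cnt N B = ∑ y ∈ range N, if B y then 1 else 0 := by
  rw [cnt_eq_card, card_filter]

theorem cnt_add (M N : ℕ) (B : ℕ → Prop) :
    cnt (M + N) B = cnt M B + cnt N (fun y => B (M + y)) := by
  classical
  rw [cnt_eq_sum, cnt_eq_sum, cnt_eq_sum, sum_range_add]

theorem cnt_not (N : ℕ) (B : ℕ → Prop) : cnt N B + cnt N (fun y => ¬ B y) = N := by
  classical
  rw [cnt_eq_card, cnt_eq_card, card_filter_add_card_filter_not, card_range]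

theorem cnt_pos {N : ℕ} {B : ℕ → Prop} : 0 < cnt N B ↔ ∃ y < N, B y := by
  classical
  rw [cnt_eq_card, card_pos]
  simp [Finset.Nonempty]

theorem cnt_lt (N t : ℕ) : cnt N (fun y => y < t) = min N t := by
  rw [cnt_eq_card]
  have : (range N).filter (fun y => y < t) = range (min N t) := by
    ext y; simp
  rw [this, card_range]

/-- counting pairs `w = y * M + z` -/
theorem cnt_mul (N M : ℕ) (B : ℕ → ℕ → Prop) :
    cnt (N * M) (fun w => B (w / M) (w % M)) = ∑ y ∈ range N, cnt M (B y) := by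
  induction N with
  | zero => simp [cnt]
  | succ N ih =>
    rw [Nat.succ_mul, cnt_add, ih, sum_range_succ]
    congr 1
    refine cnt_congr fun y hy => ?_
    have h1 : (N * M + y) / M = N := by
      rw [Nat.add_comm, Nat.add_mul_div_right _ _ (by omega), Nat.div_eq_of_lt hy, Nat.zero_add]
    have h2 : (N * M + y) % M = y := by
      rw [Nat.add_comm, Nat.add_mul_mod_self_right, Nat.mod_eq_of_lt hy]
    rw [h1, h2]

theorem mcnt_eq_countP {β : Type*} (M : Multiset β) (p : β → Prop) [DecidablePred p] :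
    mcnt M p = M.countP p := by
  unfold mcnt
  congr

theorem mcnt_eq_count {β : Type*} [DecidableEq β] (M : Multiset β) (x : β) :
    mcnt M (fun z => z = x) = M.count x := by
  rw [mcnt_eq_countP, Multiset.count]
  exact Multiset.countP_congr rfl fun z _ => propext eq_comm

theorem mcnt_congr {β : Type*} {M : Multiset β} {p q : β → Prop} (h : ∀ z ∈ M, p z ↔ q z) :
    mcnt M p = mcnt M q := by
  classical
  rw [mcnt_eq_countP, mcnt_eq_countP]
  exact Multiset.countP_congr rfl fun z hz => propext (h z hz)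

theorem mcnt_eq_zero {β : Type*} {M : Multiset β} {p : β → Prop} :
    mcnt M p = 0 ↔ ∀ z ∈ M, ¬ p z := by
  classical
  rw [mcnt_eq_countP, Multiset.countP_eq_zero]

/-- an odd count contains an element of odd multiplicity -/
theorem exists_odd_mult {β : Type*} {M : Multiset β} {p : β → Prop} (h : Odd (mcnt M p)) :
    ∃ x ∈ M, p x ∧ Odd (mcnt M fun z => z = x) := by
  classical
  by_contra hcon
  push Not at hcon
  rw [mcnt_eq_countP, Multiset.countP_eq_card_filter, ← Multiset.toFinset_sum_count_eq] at h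
  refine (Nat.not_even_iff_odd.2 h) (Finset.even_sum _ fun x hx => ?_)
  have hx' := Multiset.mem_filter.1 (Multiset.mem_toFinset.1 hx)
  have := hcon x hx'.1 hx'.2
  rw [mcnt_eq_count] at this
  rw [Multiset.count_filter_of_pos hx'.2]
  exact Nat.not_odd_iff_even.1 this

end Crest.Agent.R316
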