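import Crest.Agent.R316.Defs
/-!
# Elementary symmetric functions from power sums (task R316-Newton)

Over `ℂ` let `P = ∏_{λ ∈ M} (1 + λ s)` (`coeff k = esymm k`, `Multiset.prod_one_add`/`Multiset.prod_X_add_C_coeff`-style, or induction on `M`),
`L = ∑_{j<D} (-1)^j p_{j+1} s^{j+1} / (j+1)` (`newtonL = D! • L`), `W = ∑_{i ≤ D} L^i / i!` (`newtonW = D!^(D+1) • W`).
`P' ≡ P L' (mod s^D)` (induction on `M`: `(1 + λ s) ∑_{j<D} (-1)^j λ^{j+1} s^j ≡ λ`), `W' = L' (W - L^D / D!) ≡ L' W (mod s^D)` as `s ∣ L`, and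
`P(0) = W(0) = 1`.  Uniqueness: if `Z(0) = 0` and `s^D ∣ Z' - Z L'` then the coefficients `0..D` of `Z` vanish (strong induction,
`coeff_derivative`, `coeff_mul`).
`sum_esymm_root`: `Multiset.prod_X_sub_C_coeff` / `Multiset.prod_X_sub_X_eq_sum_esymm`, times `z ^ (D - card)`; `esymm k = 0` for `k > card`.
-/
set_option autoImplicit false
namespace Crest.Agent.R316
open Finset

namespace NewtonA
open Polynomial

theorem esymm_zero (M : Multiset ℂ) : M.esymm 0 = 1 := by simp [Multiset.esymm]

theorem esymm_cons (a : ℂ) (M : Multiset ℂ) (k : ℕ) :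
    (a ::ₘ M).esymm (k + 1) = M.esymm (k + 1) + a * M.esymm k := by
  simp [Multiset.esymm, Multiset.sum_map_mul_left]

theorem esymm_big {M : Multiset ℂ} {k : ℕ} (h : M.card < k) : M.esymm k = 0 := by
  rw [Multiset.esymm, Multiset.powersetCard_eq_empty k h]; simp

noncomputable def P (M : Multiset ℂ) : ℂ[X] := (M.map fun r => 1 + C r * X).prod

theorem P_cons (a : ℂ) (M : Multiset ℂ) : P (a ::ₘ M) = (1 + C a * X) * P M := by simp [P]

theorem coeff_P (M : Multiset ℂ) : ∀ k, (P M).coeff k = M.esymm k := by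
  induction M using Multiset.induction with
  | empty =>
    intro k
    cases k with
    | zero => simp [P, esymm_zero]
    | succ k => rw [esymm_big (by simp)]; simp [P, coeff_one]
  | cons a M ih =>
    intro k
    rw [P_cons, add_mul, one_mul, mul_assoc, coeff_add, coeff_C_mul]
    cases k with
    | zero => simp [ih, esymm_zero]
    | succ k => rw [coeff_X_mul, ih, ih, esymm_cons]

noncomputable def Lp (D : ℕ) (p : ℕ → ℂ) : ℂ[X] :=
  ∑ j ∈ range D, C ((-1) ^ j * p (j + 1)) * X ^ j

noncomputable def L0 (D : ℕ) (p : ℕ → ℂ) : ℂ[X] :=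
  ∑ j ∈ range D, C ((-1) ^ j * p (j + 1) / ((j + 1 : ℕ) : ℂ)) * X ^ (j + 1)

noncomputable def W (D : ℕ) (p : ℕ → ℂ) : ℂ[X] :=
  ∑ i ∈ range (D + 1), C ((i.factorial : ℂ)⁻¹) * L0 D p ^ i

theorem der_L0 (D : ℕ) (p : ℕ → ℂ) : derivative (L0 D p) = Lp D p := by
  unfold L0 Lp
  rw [derivative_sum]
  refine Finset.sum_congr rfl fun j _ => ?_
  rw [derivative_C_mul_X_pow, div_mul_cancel₀ _ (Nat.cast_ne_zero.2 (Nat.succ_ne_zero j))]
  rfl

theorem X_dvd_L0 (D : ℕ) (p : ℕ → ℂ) : X ∣ L0 D p :=
  Finset.dvd_sum fun j _ => (dvd_pow_self X (Nat.succ_ne_zero j)).mul_left _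

theorem dvd_P (D : ℕ) (M : Multiset ℂ) :
    X ^ D ∣ derivative (P M) - P M * Lp D (fun j => (M.map (· ^ j)).sum) := by
  induction M using Multiset.induction with
  | empty => simp [P, Lp]
  | cons a M ih =>
    have e1 : Lp D (fun j => ((a ::ₘ M).map (· ^ j)).sum) =
        C a * ∑ j ∈ range D, (-(C a * X)) ^ j + Lp D (fun j => (M.map (· ^ j)).sum) := by
      unfold Lp
      rw [Finset.mul_sum, ← Finset.sum_add_distrib]
      refine Finset.sum_congr rfl fun j _ => ?_
      simp only [Multiset.map_cons, Multiset.sum_cons, mul_add, map_add, map_mul, map_pow, map_neg,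
        map_one]
      rw [neg_pow (C a * X)]
      ring
    have e2 := mul_neg_geom_sum (-(C a * X) : ℂ[X]) D
    have e3 : derivative (P (a ::ₘ M)) - P (a ::ₘ M) * Lp D (fun j => ((a ::ₘ M).map (· ^ j)).sum) =
        P M * C a * (-C a) ^ D * X ^ D + (1 + C a * X) *
          (derivative (P M) - P M * Lp D (fun j => (M.map (· ^ j)).sum)) := by
      rw [e1, P_cons, derivative_mul]
      simp only [derivative_add, derivative_one, derivative_C_mul, derivative_X]
      have e4 : (-(C a * X) : ℂ[X]) ^ D = (-C a) ^ D * X ^ D := by rw [← mul_pow, neg_mul]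
      rw [e4] at e2
      linear_combination (-(P M * C a)) * e2
    rw [e3]
    exact (dvd_mul_left _ _).add (ih.mul_left _)

theorem dvd_W (D : ℕ) (p : ℕ → ℂ) : X ^ D ∣ derivative (W D p) - W D p * Lp D p := by
  have e1 : derivative (W D p) = (∑ i ∈ range D, C ((i.factorial : ℂ)⁻¹) * L0 D p ^ i) * Lp D p := by
    unfold W
    rw [derivative_sum, Finset.sum_range_succ', Finset.sum_mul]
    simp only [pow_zero, mul_one, derivative_C, add_zero]
    refine Finset.sum_congr rfl fun i _ => ?_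
    rw [derivative_C_mul, derivative_pow_succ, der_L0, ← mul_assoc, ← mul_assoc, ← map_mul]
    congr 3
    rw [Nat.factorial_succ]
    have h1 : (i.factorial : ℂ) ≠ 0 := Nat.cast_ne_zero.2 i.factorial_ne_zero
    have h2 : ((i : ℂ) + 1) ≠ 0 := by exact_mod_cast Nat.succ_ne_zero i
    push_cast
    field_simp
  have e2 : derivative (W D p) - W D p * Lp D p =
      -(C ((D.factorial : ℂ)⁻¹) * Lp D p) * L0 D p ^ D := by
    rw [e1, W, Finset.sum_range_succ]
    ring
  rw [e2]
  exact (pow_dvd_pow_of_dvd (X_dvd_L0 D p) D).mul_left _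

theorem uniq {D : ℕ} {Z L : ℂ[X]} (h0 : Z.coeff 0 = 0) (h : X ^ D ∣ derivative Z - Z * L) :
    ∀ k ≤ D, Z.coeff k = 0 := by
  intro k
  induction k using Nat.strong_induction_on with
  | _ k ih =>
    intro hk
    cases k with
    | zero => exact h0
    | succ k =>
      have h1 := X_pow_dvd_iff.1 h k (by omega)
      rw [coeff_sub, coeff_derivative, coeff_mul, Finset.sum_eq_zero, sub_zero] at h1
      · have h2 : ((k : ℂ) + 1) ≠ 0 := by exact_mod_cast Nat.succ_ne_zero k
        exact (mul_eq_zero.1 h1).resolve_right h2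
      · intro x hx
        have := Finset.HasAntidiagonal.mem_antidiagonal.1 hx
        rw [ih x.1 (by omega) (by omega), zero_mul]

theorem W_zero (D : ℕ) (p : ℕ → ℂ) : (W D p).coeff 0 = 1 := by
  have h : (L0 D p).eval 0 = 0 := by
    rw [← coeff_zero_eq_eval_zero]; exact X_dvd_iff.1 (X_dvd_L0 D p)
  rw [coeff_zero_eq_eval_zero, W, eval_finsetSum, Finset.sum_range_succ']
  simp [h]

theorem prod_fact {R : Type*} [CommRing R] (D : ℕ) :
    ∏ t ∈ range D, ((t + 1 : ℕ) : R) = (D.factorial : R) := by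
  rw [← Nat.cast_prod, Finset.prod_range_add_one_eq_factorial]

theorem prod_skip {D j : ℕ} (hj : j < D) :
    (∏ t ∈ range D, if t = j then 1 else ((t + 1 : ℕ) : ℂ)) * ((j + 1 : ℕ) : ℂ) =
      (D.factorial : ℂ) := by
  have e : ((j + 1 : ℕ) : ℂ) = ∏ t ∈ range D, if t = j then ((t + 1 : ℕ) : ℂ) else 1 := by
    rw [Finset.prod_ite_eq', if_pos (mem_range.2 hj)]
  rw [e, ← Finset.prod_mul_distrib, ← prod_fact]
  exact Finset.prod_congr rfl fun t _ => by split_ifs <;> simp

theorem prod_skip' {D i : ℕ} (hi : i ≤ D) :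
    (∏ t ∈ range D, if t < i then 1 else ((t + 1 : ℕ) : ℂ)) * (i.factorial : ℂ) =
      (D.factorial : ℂ) := by
  have e : (i.factorial : ℂ) = ∏ t ∈ range D, if t < i then ((t + 1 : ℕ) : ℂ) else 1 := by
    rw [← Finset.prod_filter, ← prod_fact]
    refine Finset.prod_congr ?_ fun _ _ => rfl
    ext t
    simp only [mem_range, mem_filter]
    omega
  rw [e, ← Finset.prod_mul_distrib, ← prod_fact]
  exact Finset.prod_congr rfl fun t _ => by split_ifs <;> simp

theorem newtonL_eq (D : ℕ) (p : ℕ → ℂ) : newtonL D p = C (D.factorial : ℂ) * L0 D p := by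
  unfold newtonL L0
  rw [Finset.mul_sum]
  refine Finset.sum_congr rfl fun j hj => ?_
  rw [← mul_assoc, ← map_mul, ← prod_skip (mem_range.1 hj)]
  congr 2
  have h2 : ((j + 1 : ℕ) : ℂ) ≠ 0 := Nat.cast_ne_zero.2 (Nat.succ_ne_zero j)
  field_simp

theorem newtonW_eq (D : ℕ) (p : ℕ → ℂ) :
    newtonW D p = C ((D.factorial : ℂ) ^ (D + 1)) * W D p := by
  unfold newtonW W
  rw [Finset.mul_sum]
  refine Finset.sum_congr rfl fun i hi => ?_
  have hi' : i ≤ D := Nat.lt_succ_iff.1 (mem_range.1 hi)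
  rw [newtonL_eq, mul_pow, ← map_pow, ← mul_assoc, ← mul_assoc, ← map_mul, ← map_mul, prod_fact]
  congr 2
  have h1 : (i.factorial : ℂ) ≠ 0 := Nat.cast_ne_zero.2 i.factorial_ne_zero
  rw [mul_assoc, ← pow_add, Nat.sub_add_cancel hi', eq_mul_inv_iff_mul_eq₀ h1, mul_right_comm,
    prod_skip' hi', pow_succ']

end NewtonA

open NewtonA

theorem map_newton {R S : Type*} [CommRing R] [CommRing S] (φ : R →+* S) (D : ℕ) (p : ℕ → R) (k : ℕ) :
    φ (newton D p k) = newton D (fun j => φ (p j)) k := by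
  unfold newton
  rw [← Polynomial.coeff_map]
  congr 1
  simp only [newtonW, newtonL, Polynomial.map_sum, Polynomial.map_mul, Polynomial.map_pow,
    Polynomial.map_C, Polynomial.map_X, map_mul, map_pow, map_prod, map_neg, map_one,
    apply_ite φ, map_natCast, Polynomial.map_prod, Polynomial.map_neg, Polynomial.map_one,
    Polynomial.map_natCast]

theorem newton_zero {R : Type*} [CommRing R] (D : ℕ) (p : ℕ → R) :
    newton D p 0 = ((D.factorial ^ (D + 1) : ℕ) : R) := by
  have h : (newtonL D p).eval 0 = 0 := by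
    simp [newtonL, Polynomial.eval_finsetSum]
  rw [newton, Polynomial.coeff_zero_eq_eval_zero, newtonW, Polynomial.eval_finsetSum,
    Finset.sum_range_succ']
  simp only [Polynomial.eval_mul, Polynomial.eval_C, Polynomial.eval_pow, h, ne_eq,
    Nat.add_eq_zero_iff, one_ne_zero, and_false, not_false_eq_true, zero_pow, mul_zero,
    Finset.sum_const_zero, zero_add, not_lt_zero, if_false, pow_zero, mul_one, prod_fact,
    Nat.sub_zero]
  push_cast
  ring

theorem newton_congr {R : Type*} [CommRing R] {D : ℕ} {p p' : ℕ → R}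
    (h : ∀ j, 1 ≤ j → j ≤ D → p j = p' j) (k : ℕ) : newton D p k = newton D p' k := by
  have e : newtonL D p = newtonL D p' :=
    Finset.sum_congr rfl fun j hj => by rw [h (j + 1) (by omega) (mem_range.1 hj)]
  unfold newton newtonW
  rw [e]

theorem newton_eq {D : ℕ} {p : ℕ → ℂ} (M : Multiset ℂ)
    (h : ∀ j, 1 ≤ j → j ≤ D → p j = (M.map (· ^ j)).sum) {k : ℕ} (hk : k ≤ D) :
    newton D p k = ((D.factorial ^ (D + 1) : ℕ) : ℂ) * M.esymm k := by
  rw [newton_congr h, newton, newtonW_eq, Polynomial.coeff_C_mul, Nat.cast_pow, ← coeff_P]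
  congr 1
  refine sub_eq_zero.1 ?_
  rw [← Polynomial.coeff_sub]
  refine uniq (L := Lp D fun j => (M.map (· ^ j)).sum) ?_ ?_ k hk
  · rw [Polynomial.coeff_sub, W_zero, coeff_P, esymm_zero, sub_self]
  · have := (dvd_W D fun j => (M.map (· ^ j)).sum).sub (dvd_P D M)
    rw [Polynomial.derivative_sub]
    convert this using 1
    ring

theorem sum_esymm_root {D : ℕ} {M : Multiset ℂ} (hM : M.card ≤ D) {z : ℂ} (hz : z ∈ M) :
    ∑ k ∈ range (D + 1), (-1) ^ k * M.esymm k * z ^ (D - k) = 0 := by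
  have h1 : Polynomial.eval z (M.map fun t => Polynomial.X - Polynomial.C t).prod = 0 := by
    rw [Polynomial.eval_multiset_prod, Multiset.map_map]
    exact Multiset.prod_eq_zero (Multiset.mem_map.2 ⟨z, hz, by simp⟩)
  rw [Multiset.prod_X_sub_X_eq_sum_esymm, Polynomial.eval_finsetSum] at h1
  rw [← Finset.sum_subset (Finset.range_subset_range.2 (Nat.succ_le_succ hM)) fun k _ hk => by
    rw [esymm_big (by simpa using hk), mul_zero, zero_mul]]
  have h2 := congrArg (· * z ^ (D - M.card)) h1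
  simp only [zero_mul, Finset.sum_mul] at h2
  rw [← h2]
  refine Finset.sum_congr rfl fun k hk => ?_
  have hk' : k ≤ M.card := Nat.lt_succ_iff.1 (mem_range.1 hk)
  simp only [Polynomial.eval_mul, Polynomial.eval_pow, Polynomial.eval_neg, Polynomial.eval_one,
    Polynomial.eval_C, Polynomial.eval_X]
  rw [show D - k = (M.card - k) + (D - M.card) by omega, pow_add]
  ring

/-- the last nonzero elementary symmetric function is the product of the nonzero elements -/
theorem esymm_last (M : Multiset ℂ) :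
    M.esymm (M.filter (· ≠ 0)).card = (M.filter (· ≠ 0)).prod ∧
      ∀ k, (M.filter (· ≠ 0)).card < k → M.esymm k = 0 := by
  have key : ∀ k, M.esymm k = (M.filter (· ≠ 0)).esymm k := by
    induction M using Multiset.induction with
    | empty => simp
    | cons a M ih =>
      intro k
      cases k with
      | zero => rw [esymm_zero, esymm_zero]
      | succ k =>
        by_cases ha : a = 0
        · rw [Multiset.filter_cons_of_neg _ (by simpa using ha), esymm_cons, ha, zero_mul, add_zero,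
            ih]
        · rw [Multiset.filter_cons_of_pos _ (by simpa using ha), esymm_cons, esymm_cons, ih, ih]
  refine ⟨?_, fun k hk => by rw [key, esymm_big hk]⟩
  rw [key, Multiset.esymm, Multiset.powersetCard_self]
  simp

end Crest.Agent.R316
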