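import Crest.Agent.R316.Defs
/-!
# Power sums of the roots from the coefficients (task R316-Spow)

Over `ℂ`, `b = Δ ∏ (X - λ)`, `d = natDegree b`.  Let `B = ∑_{t ≤ d} coeff (d - t) s^t = Δ ∏ (1 - λ s)` and
`N = ∑_{k<d} (d-k) coeff (d-k) s^k`; `N = d B - s B'` coefficientwise, so `N = Δ ∑_λ ∏_{μ ≠ λ} (1 - μ s)` and, with
`S = ∑_{j ≤ a} p_j s^j` (`p_j` the power sums, `p_0 = d`), `s^(a+1) ∣ B S - N` (induction on the multiset of roots).
With `w = Δ - B` (divisible by `s`) and `G = ∑_{k ≤ a} Δ^(a-k) w^k`: `B G = Δ^(a+1) - w^(a+1)`.  Hence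
`N G ≡ S B G ≡ Δ^(a+1) S (mod s^(a+1))`; take the coefficient of `s^a`.
-/
set_option autoImplicit false
namespace Crest.Agent.R316
open Finset

namespace SpowA
open Polynomial

theorem reflect_prod (M : Multiset ℂ) :
    reflect M.card (M.map fun r => X - C r).prod = (M.map fun r => 1 - C r * X).prod := by
  induction M using Multiset.induction_on with
  | empty => simp
  | cons r M ih =>
    rw [Multiset.map_cons, Multiset.prod_cons, Multiset.map_cons, Multiset.prod_cons,
      Multiset.card_cons, add_comm, reflect_mul _ _ (natDegree_X_sub_C_le r)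
        (by rw [natDegree_multiset_prod_X_sub_C_eq_card]), ih]
    congr 1
    rw [reflect_sub, reflect_C]
    have := reflect_monomial 1 1 (R := ℂ)
    simp only [pow_one] at this ⊢
    rw [this]; simp

theorem dvd_aux (M : Multiset ℂ) (a : ℕ) :
    X ^ (a + 1) ∣ (M.map fun r => 1 - C r * X).prod *
        (M.map fun r => ∑ j ∈ range (a + 1), (C r * X) ^ j).sum -
      ((M.card : ℂ[X]) * (M.map fun r => 1 - C r * X).prod -
        X * derivative (M.map fun r => 1 - C r * X).prod) := by
  induction M using Multiset.induction_on with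
  | empty => simp
  | cons r M ih =>
    simp only [Multiset.map_cons, Multiset.prod_cons, Multiset.sum_cons, Multiset.card_cons]
    obtain ⟨q, hq⟩ := ih
    have hg := mul_neg_geom_sum (C r * X : ℂ[X]) (a + 1)
    generalize (M.map fun r => 1 - C r * X).prod = B at *
    generalize (M.map fun r => ∑ j ∈ range (a + 1), (C r * X) ^ j).sum = S at *
    generalize (∑ j ∈ range (a + 1), (C r * X) ^ j) = g at *
    refine ⟨(1 - C r * X) * q - B * C r ^ (a + 1), ?_⟩
    simp only [derivative_mul, derivative_sub, derivative_one, derivative_C, derivative_X]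
    rw [mul_pow] at hg
    push_cast
    linear_combination (1 - C r * X) * hq + B * hg

theorem coeff_S (M : Multiset ℂ) (a : ℕ) :
    ((M.map fun r => ∑ j ∈ range (a + 1), (C r * X) ^ j).sum).coeff a = (M.map (· ^ a)).sum := by
  induction M using Multiset.induction_on with
  | empty => simp
  | cons r M ih =>
    simp only [Multiset.map_cons, Multiset.sum_cons, coeff_add, ih]
    congr 1
    simp only [mul_pow, ← C_pow, finsetSum_coeff, coeff_C_mul_X_pow]
    rw [Finset.sum_ite_eq]
    simp

theorem reflect_eq (c : ℂ[X]) {d : ℕ} (hd : c.natDegree ≤ d) :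
    reflect d c = ∑ t ∈ range (d + 1), C (c.coeff (d - t)) * X ^ t := by
  ext k
  simp only [coeff_reflect, finsetSum_coeff, coeff_C_mul_X_pow]
  rw [Finset.sum_ite_eq]
  split_ifs with h
  · rw [revAt_le (by have := mem_range.1 h; omega)]
  · have h' : d < k := by simpa using h
    rw [revAt_eq_self_of_lt h']
    exact coeff_eq_zero_of_natDegree_lt (by omega)

theorem main (c : ℂ[X]) (a : ℕ) :
    ((∑ k ∈ range c.natDegree,
        C (((c.natDegree - k : ℕ) : ℂ) * c.coeff (c.natDegree - k)) * X ^ k) *
      ∑ k ∈ range (a + 1), C (c.coeff c.natDegree ^ (a - k)) *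
        (- ∑ t ∈ range c.natDegree, C (c.coeff (c.natDegree - (t + 1))) * X ^ (t + 1)) ^ k).coeff a =
      c.leadingCoeff ^ (a + 1) * (c.roots.map (· ^ a)).sum := by
  have hcard : c.roots.card = c.natDegree := IsAlgClosed.card_roots_eq_natDegree
  have hc := C_leadingCoeff_mul_prod_multiset_X_sub_C hcard
  have hB : reflect c.natDegree c =
      C c.leadingCoeff * (c.roots.map fun r => 1 - C r * X).prod := by
    rw [← reflect_prod, hcard, ← reflect_C_mul, hc]
  have hB' := reflect_eq c le_rfl
  have hw : (- ∑ t ∈ range c.natDegree, C (c.coeff (c.natDegree - (t + 1))) * X ^ (t + 1)) =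
      C c.leadingCoeff - reflect c.natDegree c := by
    rw [hB', sum_range_succ']
    simp
  have hwX : X ∣ C c.leadingCoeff - reflect c.natDegree c := by
    rw [← hw]
    exact (dvd_neg).2 (dvd_sum fun t _ => Dvd.dvd.mul_left (dvd_pow_self X (by omega)) _)
  have hN : (∑ k ∈ range c.natDegree,
        C (((c.natDegree - k : ℕ) : ℂ) * c.coeff (c.natDegree - k)) * X ^ k) =
      (c.natDegree : ℂ[X]) * reflect c.natDegree c - X * derivative (reflect c.natDegree c) := by
    rw [hB', derivative_sum, mul_sum, mul_sum, ← sum_sub_distrib, sum_range_succ]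
    have key : ∀ k ≤ c.natDegree, (c.natDegree : ℂ[X]) * (C (c.coeff (c.natDegree - k)) * X ^ k) -
        X * derivative (C (c.coeff (c.natDegree - k)) * X ^ k) =
        C (((c.natDegree - k : ℕ) : ℂ) * c.coeff (c.natDegree - k)) * X ^ k := by
      intro k hk
      rw [Nat.cast_sub hk, derivative_C_mul_X_pow]
      rcases k with _ | k
      · simp
      · simp only [map_mul, map_sub, map_natCast, Nat.add_sub_cancel]
        ring
    rw [key _ le_rfl, sum_congr rfl fun k hk => key k (mem_range.1 hk).le]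
    simp
  rw [hw, hN, coeff_natDegree]
  obtain ⟨q, hq⟩ := dvd_aux c.roots a
  obtain ⟨u, hu⟩ := hwX
  have hG := geom_sum₂_mul (C c.leadingCoeff - reflect c.natDegree c) (C c.leadingCoeff) (a + 1)
  have hG' : ∑ k ∈ range (a + 1), C (c.leadingCoeff ^ (a - k)) *
      (C c.leadingCoeff - reflect c.natDegree c) ^ k = ∑ i ∈ range (a + 1),
      (C c.leadingCoeff - reflect c.natDegree c) ^ i * C c.leadingCoeff ^ (a + 1 - 1 - i) := by
    refine sum_congr rfl fun k _ => ?_
    rw [C_pow, mul_comm, Nat.add_sub_cancel]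
  rw [hG', ← coeff_S, ← coeff_C_mul, ← sub_eq_zero, ← coeff_sub]
  refine X_pow_dvd_iff.1 (?_ : X ^ (a + 1) ∣ _) a (by omega)
  rw [hcard] at hq
  have hu' : (C c.leadingCoeff - reflect c.natDegree c) ^ (a + 1) = X ^ (a + 1) * u ^ (a + 1) := by
    rw [hu, mul_pow]
  rw [hu'] at hG
  generalize (∑ i ∈ range (a + 1),
      (C c.leadingCoeff - reflect c.natDegree c) ^ i * C c.leadingCoeff ^ (a + 1 - 1 - i)) = G at *
  rw [hB] at hG ⊢
  generalize (c.roots.map fun r => 1 - C r * X).prod = P at *
  generalize (c.roots.map fun r => ∑ j ∈ range (a + 1), (C r * X) ^ j).sum = S at *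
  refine ⟨- C c.leadingCoeff * q * G - S * u ^ (a + 1), ?_⟩
  rw [derivative_C_mul, C_pow]
  linear_combination (- C c.leadingCoeff * G) * hq - S * hG

end SpowA

theorem spowD_eq {b : Polynomial ℤ} (hb : b ≠ 0) (a : ℕ) :
    ((spowD b b.natDegree a : ℤ) : ℂ) =
      (b.leadingCoeff : ℂ) ^ (a + 1) * ((b.aroots ℂ).map (· ^ a)).sum := by
  have hinj : Function.Injective (Int.castRingHom ℂ) := Int.cast_injective
  have h := SpowA.main (b.map (Int.castRingHom ℂ)) a
  rw [Polynomial.natDegree_map_eq_of_injective hinj, Polynomial.leadingCoeff_map_of_injective hinj] at h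
  rw [Polynomial.aroots_def]
  refine Eq.trans ?_ h
  unfold spowD
  rw [← eq_intCast (Int.castRingHom ℂ), ← Polynomial.coeff_map]
  congr 1
  simp [Polynomial.map_sum, Polynomial.map_mul, Polynomial.map_pow]

end Crest.Agent.R316
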