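import Crest.Agent.R316.Uni
import Crest.Agent.R316.Spow
/-!
# `newton`, `spowD`, `cmp`, `pen` are `CHP` (task R316-NewtonCH)

`newton`: `CHP.coeff_up`, then `simp only [newtonW, newtonL, map_sum, map_mul, map_pow, up_C, up_X]`, `CHP.rename_succ` and
`fun_prop`.  `spowD`: `CHZ.coeff` and the `CHU` closure over the index `(a, d)`, then `CHZ.subst` with `CHF.natDegree`.
-/
set_option autoImplicit false
namespace Crest.Agent.R316
open Crest.Agent.PTime MvPolynomial Finset
variable {α : Type} [Enc α]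

theorem CHP.newtonL {p : α → ℕ → MP} {D : α → ℕ} (hD : PT D)
    (hp : CHP (fun x : α × ℕ => p x.1 x.2)) : CHP (fun a => up (newtonL (D a) (p a))) := by
  simp only [R316.newtonL, map_sum, map_mul, map_pow, up_C, up_X]
  have h1 : CHP (fun x : α × ℕ => p x.1 (x.2 + 1)) := hp.app₂ (by fun_prop) (by fun_prop)
  refine CHP.sum_range hD (CHP.mul (CHP.mul (CHP.mul ?_ (CHP.rename_succ ?_))
    (CHP.rename_succ h1)) ?_)
  · fun_prop
  · fun_prop
  · fun_prop

theorem CHP.cDen {u : α → MP} {E : α → ℕ} (hE : PT E) (hu : CHP u) :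
    CHP (fun a => cDen (E a) (u a)) := by
  unfold R316.cDen
  fun_prop

theorem CHP.cNum {u : α → MP} {E : α → ℕ} (hE : PT E) (hu : CHP u) :
    CHP (fun a => cNum (E a) (u a)) := by
  unfold R316.cNum
  fun_prop

theorem CHP.newton {p : α → ℕ → MP} {D k : α → ℕ} (hD : PT D) (hk : PT k)
    (hp : CHP (fun x : α × ℕ => p x.1 x.2)) : CHP (fun a => newton (D a) (p a) (k a)) := by
  refine CHP.coeff_up (g := fun a => newtonW (D a) (p a)) ?_ hk
  have hL := CHP.newtonL hD hp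
  simp only [newtonW, map_sum, map_mul, map_pow, up_C]
  refine CHP.sum_range (by fun_prop) (CHP.mul (CHP.mul (CHP.rename_succ ?_)
    (CHP.pow (CHP.rename_succ ?_) ?_)) (CHP.pow (hL.comp (PT.fst PT.id)) (PT.snd PT.id)))
  · fun_prop
  · fun_prop
  · fun_prop

theorem CHZ.spowD {b : α → Polynomial ℤ} {k : α → ℕ} (hb : CHU b) (hk : PT k) :
    CHZ (fun a => spowD (b a) (b a).natDegree (k a)) := by
  refine CHZ.subst (f := fun a d => R316.spowD (b a) d (k a)) ?_ (CHF.natDegree hb)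
  unfold R316.spowD
  refine CHZ.coeff (CHU.mul ?_ ?_) (by fun_prop)
  · fun_prop
  · fun_prop

theorem CHP.cmp {u : α → ℕ → MP} {E κ : α → ℕ} (hE : PT E) (hκ : PT κ)
    (hu : CHP (fun x : α × ℕ => u x.1 x.2)) : CHP (fun a => cmp (E a) (κ a) (u a)) := by
  have hE' : PT fun x : α × ℕ => E x.1 := by fun_prop
  have h1 : CHP (fun x : α × ℕ => R316.cDen (E x.1) (u x.1 x.2)) := CHP.cDen hE' hu
  have h2 : CHP (fun x : α × ℕ => R316.cNum (E x.1) (u x.1 x.2)) := CHP.cNum hE' hu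
  have h3 : CHP (fun x : (α × ℕ) × ℕ => R316.cDen (E x.1.1) (u x.1.1 x.2)) :=
    h1.comp (g := fun x : (α × ℕ) × ℕ => (x.1.1, x.2)) (by fun_prop)
  unfold R316.cmp
  refine CHP.sub' (CHP.sum_range hκ (CHP.mul (CHP.pow (CHP.sub' (CHP.mul (CHP.const _) h1) h2)
    (by fun_prop)) (CHP.prod_range (by fun_prop) (CHP.ite (by fun_prop) (CHP.const _)
      (CHP.pow h3 (by fun_prop))))))
    (CHP.mul (CHP.pow (CHP.const _) (by fun_prop)) (CHP.prod_range hκ (CHP.pow h1 (by fun_prop))))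

theorem CHP.pen {lo m d : α → ℕ} {T P : α → MP} (hlo : PT lo) (hm : PT m) (hd : PT d) (hT : CHP T)
    (hP : CHP P) : CHP (fun a => pen (lo a) (m a) (d a) (T a) (P a)) := by
  unfold R316.pen
  fun_prop

end Crest.Agent.R316
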