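import Crest.Agent.R316.Trace
import Crest.Agent.R316.Newton
import Crest.Agent.R316.NewtonCH
import Crest.Agent.R316.Det
/-!
# Elimination (task R316-Elim)

`D = d ^ m`, `J = det (pderiv (lo + j) (X (lo + i) ^ d - g i))` (`CHP.det`; write the variable index as `lo + min j m` to have `PB`),
`B` a `PT` bound for the degrees of `h ^ j * J`, `j ≤ D` (`CHP.deg₂`),
`p j = ∑ w < (B+1)^m, cf lo m (fun i => d * (dig (B+1) w i + 1) - 1) (h ^ j * J * ∏ i < m, g i ^ dig (B+1) w i)`,
`E k = (-1)^k * newton D p k`.  For a point `v`, with `v' = (↑) ∘ v` complex, `aeval v' (p j) = ellB d g' B (h'^j * jac d g')` where `' = blk lo m v'`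
(`sum_dig`, `coeff_blk`, `pderiv_blk`, `blk_X`, `AlgHom.map_det`, `totalDegree_blk`); apply `trace_formula` with `y i = v' (lo + i)` (`upd lo v' y = v'`,
`eval_blk`), `map_newton`, `newton_eq`, `sum_esymm_root`, `ofReal_aeval`.  Independence of the block: `map_newton` and `aeval_cf_congr`.
-/
set_option autoImplicit false
namespace Crest.Agent.R316
open Crest.Agent.PTime MvPolynomial Finset
variable {α : Type} [Enc α]

namespace ElimA

/-- the Jacobian -/
noncomputable def J (lo m d : ℕ) (g : ℕ → MP) : MP :=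
  (Matrix.of fun i j : Fin m => pderiv (lo + min (j : ℕ) m) (X (lo + i) ^ d - g i)).det

/-- the traces -/
noncomputable def tr (lo m d B : ℕ) (g : ℕ → MP) (u : MP) : MP :=
  ∑ w ∈ range ((B + 1) ^ m), cf lo m (fun i => d * (dig (B + 1) w i + 1) - 1)
    (u * ∏ i ∈ range m, g i ^ dig (B + 1) w i)

theorem blk_J (lo m d : ℕ) (g : ℕ → MP) (v : ℕ → ℂ) :
    blk lo m v (J lo m d g) = jac d fun i : Fin m => blk lo m v (g i) := by
  rw [J, AlgHom.map_det, jac]
  congr 1
  ext1 i j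
  simp only [AlgHom.mapMatrix_apply, Matrix.map_apply, Matrix.of_apply]
  rw [min_eq_left j.2.le, ← pderiv_blk, map_sub, map_pow, blk_X]

theorem aeval_tr (lo m d B : ℕ) (g : ℕ → MP) (u : MP) (v : ℕ → ℂ) :
    aeval v (tr lo m d B g u) = ellB d (fun i : Fin m => blk lo m v (g i)) B (blk lo m v u) := by
  rw [tr, ellB, ← sum_dig, map_sum]
  refine sum_congr rfl fun w _ => ?_
  rw [← coeff_blk, map_mul, map_prod, prod_range]
  simp only [map_pow]

theorem tr_congr (lo m d B : ℕ) (g : ℕ → MP) (u : MP) {v w : ℕ → ℝ}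
    (h : ∀ i, ¬ (lo ≤ i ∧ i < lo + m) → v i = w i) :
    aeval v (tr lo m d B g u) = aeval w (tr lo m d B g u) := by
  simp only [tr, map_sum]
  exact sum_congr rfl fun _ _ => aeval_cf_congr _ _ _ _ h

theorem aeval_newton {K : Type*} [CommRing K] (v : ℕ → K) (D : ℕ) (p : ℕ → MP) (k : ℕ) :
    aeval v (newton D p k) = newton D (fun j => aeval v (p j)) k :=
  map_newton (aeval v : MP →ₐ[ℤ] K).toRingHom D p k

theorem main {lo m d B : ℕ} {g : ℕ → MP} {h : MP} (hdeg : ∀ i < m, (g i).totalDegree < d)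
    (hB : ∀ j < d ^ m + 1, (h ^ j * J lo m d g).totalDegree ≤ B) (v : ℕ → ℝ)
    (hv : ∀ i < m, v (lo + i) ^ d = aeval v (g i)) :
    ∑ k ∈ range (d ^ m + 1), aeval v ((-1) ^ k * newton (d ^ m)
      (fun j => tr lo m d B g (h ^ j * J lo m d g)) k) * aeval v h ^ (d ^ m - k) = 0 := by
  let v' : ℕ → ℂ := fun i => (v i : ℂ)
  have hu : upd lo v' (fun i : Fin m => v' (lo + i)) = v' := by
    funext i
    unfold upd
    split_ifs with hi
    · simp only [Nat.add_sub_cancel' hi.1]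
    · rfl
  obtain ⟨M, h1, h2, h3⟩ := trace_formula (fun i : Fin m => blk lo m v' (g i))
    (fun i => (totalDegree_blk _ _ _ _).trans_lt (hdeg i i.2)) (blk lo m v' h)
  have hz := h3 (fun i : Fin m => v' (lo + i)) fun i => by
    rw [eval_blk, hu, ← ofReal_aeval, ← hv i i.2, Complex.ofReal_pow]
  rw [eval_blk, hu] at hz
  have hp : ∀ j, 1 ≤ j → j ≤ d ^ m →
      aeval v' (tr lo m d B g (h ^ j * J lo m d g)) = (M.map (· ^ j)).sum := by
    intro j _ hj
    have e : blk lo m v' (h ^ j * J lo m d g) =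
        blk lo m v' h ^ j * jac d fun i : Fin m => blk lo m v' (g i) := by
      rw [map_mul, map_pow, blk_J]
    rw [aeval_tr, e]
    refine h2 j B ?_
    rw [← e]
    exact (totalDegree_blk _ _ _ _).trans (hB j (by omega))
  have key := sum_esymm_root h1 hz
  apply Complex.ofReal_injective
  rw [Complex.ofReal_sum, Complex.ofReal_zero,
    ← mul_zero (((d ^ m).factorial ^ (d ^ m + 1) : ℕ) : ℂ), ← key, mul_sum]
  refine sum_congr rfl fun k hk => ?_
  rw [Complex.ofReal_mul, Complex.ofReal_pow, ofReal_aeval, ofReal_aeval, map_mul, aeval_newton,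
    newton_eq M hp (by have := mem_range.1 hk; omega)]
  simp only [map_pow, map_neg, map_one, v']
  ring

end ElimA
open ElimA

theorem elim {lo m d : α → ℕ} {g : α → ℕ → MP} {h : α → MP} (hlo : PT lo) (hlb : PB lo) (hm : PT m)
    (hmb : PB m) (hd : PT d) (hg : CHP (fun x : α × ℕ => g x.1 x.2)) (hh : CHP h)
    (hdeg : ∀ a, ∀ i < m a, (g a i).totalDegree < d a) :
    ∃ (D : α → ℕ) (E : α → ℕ → MP), PT D ∧ CHP (fun x : α × ℕ => E x.1 x.2) ∧ ∀ a,
      (∃ c : ℤ, c ≠ 0 ∧ E a 0 = C c) ∧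
      (∀ k (v w : ℕ → ℝ), (∀ i, ¬ (lo a ≤ i ∧ i < lo a + m a) → v i = w i) →
        aeval v (E a k) = aeval w (E a k)) ∧
      ∀ v : ℕ → ℝ, (∀ i < m a, v (lo a + i) ^ d a = aeval v (g a i)) →
        ∑ k ∈ range (D a + 1), aeval v (E a k) * aeval v (h a) ^ (D a - k) = 0 := by
  have hD : PT fun a => d a ^ m a := hd.pow hm hmb
  have hJ : CHP fun a => J (lo a) (m a) (d a) (g a) := by
    refine CHP.det (M := fun a i j => pderiv (lo a + min j (m a)) (X (lo a + i) ^ d a - g a i)) hm hmb ?_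
    refine CHP.pderiv (by fun_prop) ?_ ?_
    · exact (hlb.comp (by fun_prop)).add (PB.min_right (hmb.comp (by fun_prop)))
    · exact CHP.sub' (by fun_prop) (hg.app₂ (by fun_prop) (by fun_prop))
  have hu : CHP fun x : α × ℕ => h x.1 ^ x.2 * J (lo x.1) (m x.1) (d x.1) (g x.1) :=
    ((hh.comp (by fun_prop)).pow (by fun_prop)).mul (hJ.comp (by fun_prop))
  obtain ⟨B, hB, hB'⟩ := CHP.deg₂ (f := fun a j => h a ^ j * J (lo a) (m a) (d a) (g a)) hu
    (N := fun a => d a ^ m a + 1) (by fun_prop)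
  have hp : CHP fun x : α × ℕ => tr (lo x.1) (m x.1) (d x.1) (B x.1) (g x.1)
      (h x.1 ^ x.2 * J (lo x.1) (m x.1) (d x.1) (g x.1)) := by
    unfold ElimA.tr
    refine CHP.sum_range (PT.pow (by fun_prop) (by fun_prop) (hmb.comp (by fun_prop))) ?_
    refine CHP.cf (by fun_prop) (hlb.comp (by fun_prop)) (by fun_prop) (hmb.comp (by fun_prop))
      (by fun_prop) ?_
    refine CHP.mul (hu.comp (g := fun x : (α × ℕ) × ℕ => x.1) (by fun_prop)) ?_
    refine CHP.prod_range (by fun_prop) ?_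
    exact (hg.app₂ (by fun_prop) (by fun_prop)).pow (by fun_prop)
  refine ⟨fun a => d a ^ m a, fun a k => (-1) ^ k * newton (d a ^ m a)
    (fun j => tr (lo a) (m a) (d a) (B a) (g a) (h a ^ j * J (lo a) (m a) (d a) (g a))) k, hD, ?_,
    fun a => ⟨?_, ?_, ?_⟩⟩
  · refine CHP.mul (by fun_prop) ?_
    refine CHP.newton (p := fun (x : α × ℕ) j => tr (lo x.1) (m x.1) (d x.1) (B x.1) (g x.1)
      (h x.1 ^ j * J (lo x.1) (m x.1) (d x.1) (g x.1))) (hD.comp (by fun_prop)) (by fun_prop) ?_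
    exact hp.comp (g := fun x : (α × ℕ) × ℕ => (x.1.1, x.2)) (by fun_prop)
  · refine ⟨(((d a ^ m a).factorial ^ (d a ^ m a + 1) : ℕ) : ℤ), ?_, ?_⟩
    · exact_mod_cast (pow_pos (Nat.factorial_pos _) _).ne'
    · simp only [pow_zero, one_mul, newton_zero, map_natCast]
  · intro k v w hvw
    simp only [map_mul, aeval_newton, tr_congr _ _ _ _ _ _ hvw, map_pow, map_neg, map_one]
  · exact main (hdeg a) (hB' a)

end Crest.Agent.R316
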