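import Crest.Agent.R316.ProdMod
/-!
# Closure properties of `EvCH`, elementary operations (task R316-EvA)

Each proof gives the evaluator `e (a, p, l)` explicitly and adds the thresholds.  `C z`: `(z % p).toNat`
(`p ≥ 1`); `X i`: `l.getD i 0`; `-f`: `(p - 1) * e`; `f ^ n`: `powMod e n p`; `rename succ`: evaluate at `l.tail`;
`rename pred`: at `l.headD 0 :: l` (`aeval_rename`); `subst`: `CHF.subst`, thresholds by `PB.sup_size`.
-/
set_option autoImplicit false
namespace Crest.Agent.R316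
open Crest.Agent.PTime MvPolynomial Finset
variable {α β : Type} [Enc α] [Enc β]

theorem two_pow_le_left {a b p : ℕ} (h : 2 ^ (a + b) ≤ p) : 2 ^ a ≤ p :=
  (Nat.pow_le_pow_right (by norm_num) (Nat.le_add_right a b)).trans h

theorem two_pow_le_right {a b p : ℕ} (h : 2 ^ (a + b) ≤ p) : 2 ^ b ≤ p :=
  (Nat.pow_le_pow_right (by norm_num) (Nat.le_add_left b a)).trans h

theorem EvCH.comp {f : β → MP} {g : α → β} (hf : EvCH f) (hg : PT g) : EvCH (fun a => f (g a)) := by
  obtain ⟨q, e, hq, he, h⟩ := hf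
  exact ⟨fun a => q (g a), fun x => e (g x.1, x.2), hq.comp hg, he.comp (by fun_prop),
    fun a p l hp hle => h (g a) p l hp hle⟩

theorem EvCH.subst {f : α → ℕ → MP} {φ : α → ℕ} (hf : EvCH (fun x : α × ℕ => f x.1 x.2))
    (hφ : CHF φ) : EvCH (fun a => f a (φ a)) := by
  obtain ⟨q, e, hq, he, h⟩ := hf
  obtain ⟨q', _, h2, h3⟩ := PB.sup_size (q := fun a i => q (a, i)) hq hφ.1
  refine ⟨q', fun x => e ((x.1, φ x.1), x.2), h2, ?_, fun a p l hp hle => h (a, φ a) p l hp ?_⟩
  · exact CHF.subst (g := fun (x : α × ℕ × List ℕ) y => e ((x.1, y), x.2)) (f := fun x => φ x.1)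
      (he.comp (by fun_prop)) (hφ.comp (by fun_prop))
  · exact (Nat.pow_le_pow_right (by norm_num) (h3 a _ le_rfl)).trans hle

theorem EvCH.C_int {z : α → ℤ} (hz : PT z) : EvCH (fun a => (C (z a) : MP)) := by
  refine ⟨fun _ => 0, fun x => (z x.1 % (x.2.1 : ℤ)).toNat, PB.const _, CHF.of_PT (by fun_prop),
    fun a p l hp _ => ?_⟩
  have h0 : (0 : ℤ) ≤ z a % (p : ℤ) := Int.emod_nonneg _ (by exact_mod_cast hp.ne_zero)
  rw [← Int.cast_natCast, Int.toNat_of_nonneg h0, ZMod.intCast_mod, aeval_C]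
  simp

theorem EvCH.C_nat {z : α → ℕ} (hz : CHF z) : EvCH (fun a => (C (z a : ℤ) : MP)) := by
  refine ⟨fun _ => 0, fun x => z x.1, PB.const _, hz.comp (by fun_prop), fun a p l _ _ => ?_⟩
  rw [aeval_C]; simp

theorem EvCH.X {i : α → ℕ} (hi : PT i) : EvCH (fun a => (X (i a) : MP)) := by
  refine ⟨fun _ => 0, fun x => x.2.2.getD (i x.1) 0, PB.const _, CHF.of_PT (by fun_prop),
    fun a p l _ _ => ?_⟩
  rw [aeval_X]; rfl

theorem EvCH.neg {f : α → MP} (hf : EvCH f) : EvCH (fun a => - f a) := by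
  obtain ⟨q, e, hq, he, h⟩ := hf
  refine ⟨q, fun x => (x.2.1 - 1) * e x, hq, CHF.mul (CHF.of_PT (by fun_prop)) he,
    fun a p l hp hle => ?_⟩
  rw [map_neg, ← h a p l hp hle, Nat.cast_mul, Nat.cast_sub hp.one_le]
  simp

theorem EvCH.add {f g : α → MP} (hf : EvCH f) (hg : EvCH g) : EvCH (fun a => f a + g a) := by
  obtain ⟨q, e, hq, he, h⟩ := hf
  obtain ⟨q', e', hq', he', h'⟩ := hg
  refine ⟨fun a => q a + q' a, fun x => e x + e' x, hq.add hq', he.add he', fun a p l hp hle => ?_⟩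
  rw [map_add, ← h a p l hp (two_pow_le_left hle), ← h' a p l hp (two_pow_le_right hle), Nat.cast_add]

theorem EvCH.mul {f g : α → MP} (hf : EvCH f) (hg : EvCH g) : EvCH (fun a => f a * g a) := by
  obtain ⟨q, e, hq, he, h⟩ := hf
  obtain ⟨q', e', hq', he', h'⟩ := hg
  refine ⟨fun a => q a + q' a, fun x => e x * e' x, hq.add hq', he.mul he', fun a p l hp hle => ?_⟩
  rw [map_mul, ← h a p l hp (two_pow_le_left hle), ← h' a p l hp (two_pow_le_right hle), Nat.cast_mul]

theorem EvCH.pow {f : α → MP} {n : α → ℕ} (hf : EvCH f) (hn : PT n) :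
    EvCH (fun a => f a ^ n a) := by
  obtain ⟨q, e, hq, he, h⟩ := hf
  refine ⟨q, fun x => powMod (e x) (n x.1) x.2.1, hq,
    CHF.powMod he (CHF.of_PT (by fun_prop)) (by fun_prop), fun a p l hp hle => ?_⟩
  rw [map_pow, ← h a p l hp hle]
  exact cast_powMod _ _ hp.ne_zero

/-- a fixed polynomial (induction on it) -/
theorem EvCH.const (f : MP) : EvCH (fun _ : α => f) := by
  induction f using MvPolynomial.induction_on with
  | C c => exact EvCH.C_int (PT.const c)
  | add p q hp hq => exact hp.add hq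
  | mul_X p i hp => exact hp.mul (EvCH.X (PT.const i))

theorem EvCH.ite {c : α → Prop} [∀ a, Decidable (c a)] {f g : α → MP} (hc : CH c) (hf : EvCH f)
    (hg : EvCH g) : EvCH (fun a => if c a then f a else g a) := by
  obtain ⟨q, e, hq, he, h⟩ := hf
  obtain ⟨q', e', hq', he', h'⟩ := hg
  refine ⟨fun a => q a + q' a, fun x => if c x.1 then e x else e' x, hq.add hq',
    CHF.ite (hc.comp (by fun_prop)) he he', fun a p l hp hle => ?_⟩
  by_cases hca : c a
  · simp only [if_pos hca]; exact h a p l hp (two_pow_le_left hle)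
  · simp only [if_neg hca]; exact h' a p l hp (two_pow_le_right hle)

theorem EvCH.rename_succ {f : α → MP} (hf : EvCH f) : EvCH (fun a => rename Nat.succ (f a)) := by
  obtain ⟨q, e, hq, he, h⟩ := hf
  refine ⟨q, fun x => e (x.1, x.2.1, x.2.2.tail), hq, he.comp (by fun_prop), fun a p l hp hle => ?_⟩
  rw [aeval_rename, h a p l.tail hp hle]
  congr 2
  funext i
  cases l <;> simp [lpt]

theorem EvCH.rename_pred {f : α → MP} (hf : EvCH f) : EvCH (fun a => rename Nat.pred (f a)) := by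
  obtain ⟨q, e, hq, he, h⟩ := hf
  refine ⟨q, fun x => e (x.1, x.2.1, x.2.2.headD 0 :: x.2.2), hq, he.comp (by fun_prop),
    fun a p l hp hle => ?_⟩
  rw [aeval_rename, h a p (l.headD 0 :: l) hp hle]
  congr 2
  funext i
  cases i <;> cases l <;> simp [lpt]

end Crest.Agent.R316
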