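import Crest.Agent.R316.FormSem
import Crest.Agent.R316.CHP
/-!
# The polynomial of a sentence is `CHP` (task R316-FormCH)

`PT.sentence` gives the tokens.  `atoms φ` = number of tokens with tag `≤ 7`.
`Bd`: with `L = sz S`: the gate at position `t` has degree `≤ 2^t` and `l1 ≤ 2^(2^t * (L+1)) / 2`-like bounds (e.g. invariant `2 * l1 ≤ 2^(2^t (L+1))`, or `l1 ≤ 2^((L+1) 2^t - 1)`; constants are `< 2^L`); for formulas, by induction, degree
`≤ (2 * 2^L + 4) * length (toks φ)` and `l1 ≤ 2^(c * length (toks φ))` with `c = 2^(2L+4)` or so.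
`EvCH`: the evaluator is `PT` (`CHF.of_PT`), threshold `2^0 ≤ p`.  Evaluate gates on their `toNats` lists with values in `[0, p)` (`a - b` as `a + (p-1) b`), a `foldl` (`PT.foldl_bdd`);
evaluate the tokens from the right with state `(counter, stack of pairs)`: prove
`foldr step (k, st) (toks φ) = (k + atoms φ, r :: st)` with `r` representing `formP … φ k` in `ZMod p` (use `map_formP` for `aeval (lpt p l)`; `PT.idxOf` is in `R290/PTDefs.lean`).
-/
set_option autoImplicit false
namespace Crest.Agent.R316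
open Crest.Agent.PTime MvPolynomial Crest.RealEA

namespace FormCHA

theorem atoms_eq (φ : Form) : atoms φ = (toks φ).countP (fun k => decide (k.1 ≤ 7)) := by
  induction φ with
  | eqZero c => simp [atoms, toks]
  | pos c => simp [atoms, toks]
  | and φ ψ h1 h2 => simp [atoms, toks, h1, h2]
  | or φ ψ h1 h2 => simp [atoms, toks, h1, h2]
  | not φ h1 => simp [atoms, toks, h1]

theorem PT_vars {α : Type} [Enc α] (tag : ℕ) {t : α → List (ℕ × List (List ℕ))} (h : PT t) :
    PT (fun a => vars tag (t a)) := by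
  unfold vars; fun_prop

theorem PT_idxOf {α : Type} [Enc α] {x : α → ℕ} {l : α → List ℕ} (hx : PT x)
    (hl : PT l) : PT (fun a => (l a).idxOf (x a)) := by
  have h : PT (fun a => (l a).findIdx (fun y => y == x a)) := by fun_prop
  exact h.congr fun a => rfl

/-! ### bounds -/

/-- degree and height bound -/
def B (q : ℕ) (f : MP) : Prop := f.totalDegree ≤ 2 ^ q ∧ l1 f ≤ 2 ^ 2 ^ q

theorem B.mono {q q' : ℕ} {f : MP} (h : B q f) (hq : q ≤ q') : B q' f :=
  ⟨h.1.trans (d_mono hq), h.2.trans (dd_mono hq)⟩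

theorem B.zero (q : ℕ) : B q 0 := ⟨by simp, by simp [l1_zero]⟩

theorem B.one (q : ℕ) : B q 1 := ⟨by simp, by rw [l1_one]; exact Nat.one_le_two_pow⟩

theorem B.X (q i : ℕ) : B q (X i) :=
  ⟨by rw [totalDegree_X]; exact Nat.one_le_two_pow, by rw [l1_X]; exact Nat.one_le_two_pow⟩

theorem B.neg {q : ℕ} {f : MP} (h : B q f) : B q (-f) :=
  ⟨by rw [totalDegree_neg]; exact h.1, by rw [l1_neg]; exact h.2⟩

theorem B.mul {q : ℕ} {f g : MP} (hf : B q f) (hg : B q g) : B (q + 1) (f * g) := by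
  refine ⟨(totalDegree_mul f g).trans ?_, (l1_mul f g).trans ?_⟩
  · have := hf.1; have := hg.1; rw [pow_succ]; omega
  · rw [pow_succ, mul_two, pow_add]; exact Nat.mul_le_mul hf.2 hg.2

theorem B.add {q : ℕ} {f g : MP} (hf : B q f) (hg : B q g) : B (q + 1) (f + g) := by
  refine ⟨(totalDegree_add f g).trans ?_, (l1_add f g).trans ?_⟩
  · have := hf.1; have := hg.1; rw [pow_succ]; omega
  · have h1 := hf.2
    have h2 := hg.2
    have h3 : 2 ^ (2 ^ q + 1) ≤ 2 ^ 2 ^ (q + 1) := by
      refine d_mono ?_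
      have : 1 ≤ 2 ^ q := Nat.one_le_two_pow
      rw [pow_succ]; omega
    rw [pow_succ] at h3
    omega

theorem B.sub {q : ℕ} {f g : MP} (hf : B q f) (hg : B q g) : B (q + 1) (f - g) := by
  rw [sub_eq_add_neg]; exact hf.add hg.neg

theorem B.sq {q : ℕ} {f : MP} (hf : B q f) : B (q + 1) (f ^ 2) := by
  rw [pow_two]; exact hf.mul hf

theorem B.getD {q : ℕ} {l : List MP} (h : ∀ x ∈ l, B q x) (a : ℕ) : B q (l.getD a 0) := by
  by_cases ha : a < l.length
  · rw [List.getD_eq_getElem _ _ ha]; exact h _ (List.getElem_mem _)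
  · rw [List.getD_eq_default _ _ (not_lt.1 ha)]; exact B.zero q

theorem B_foldl {L : ℕ} {vx vy : ℕ → MP} (hx : ∀ i, B 0 (vx i)) (hy : ∀ i, B 0 (vy i))
    (c : List AGate) (hc : ∀ g ∈ c, sz g.toNats ≤ L) : ∀ (prev : List MP) (q : ℕ), L ≤ q →
    (∀ x ∈ prev, B q x) →
    ∀ x ∈ c.foldl (fun prev g => prev ++ [gateP vx vy prev g]) prev, B (q + c.length) x := by
  induction c with
  | nil => intro prev q _ h; simpa using h
  | cons g c ih =>
    intro prev q hq h
    rw [List.foldl_cons, List.length_cons, show q + (c.length + 1) = (q + 1) + c.length by omega]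
    refine ih (fun g' hg' => hc g' (List.mem_cons_of_mem _ hg')) _ _ (by omega) fun x hx' => ?_
    rcases List.mem_append.1 hx' with h1 | h1
    · exact (h x h1).mono (by omega)
    · rw [List.mem_singleton.1 h1]
      have hg := hc g List.mem_cons_self
      cases g with
      | const z =>
        have h2 : sz z.natAbs < sz (AGate.const z).toNats := sz_mem (by simp [AGate.toNats])
        have h3 := lt_two_pow_sz z.natAbs
        refine ⟨?_, ?_⟩
        · show (C z : MP).totalDegree ≤ _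
          rw [totalDegree_C]
          exact Nat.zero_le _
        · show l1 (C z : MP) ≤ _
          rw [l1_C]
          exact h3.le.trans ((d_mono (by omega)).trans (d_le_dd (q + 1)))
      | varX i => exact (hx i).mono (Nat.zero_le _)
      | varY i => exact (hy i).mono (Nat.zero_le _)
      | add a b => exact (B.getD h a).add (B.getD h b)
      | sub a b => exact (B.getD h a).sub (B.getD h b)
      | mul a b => exact (B.getD h a).mul (B.getD h b)

theorem B_circP {L : ℕ} {vx vy : ℕ → MP} (hx : ∀ i, B 0 (vx i)) (hy : ∀ i, B 0 (vy i))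
    (c : List AGate) (hc : sz (c.map AGate.toNats) ≤ L) : B (2 * L) (circP vx vy c) := by
  have h1 := B_foldl hx hy c (L := L)
    (fun g hg => (sz_mem (List.mem_map_of_mem hg)).le.trans hc) [] L le_rfl (by simp)
  have h2 : c.length ≤ L := by
    have := length_le_sz (c.map AGate.toNats)
    rw [List.length_map] at this
    omega
  unfold circP
  generalize c.foldl (fun prev g => prev ++ [gateP vx vy prev g]) [] = l at h1
  rcases List.eq_nil_or_concat l with rfl | ⟨l, x, rfl⟩
  · exact B.zero _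
  · rw [List.concat_eq_append, List.getLastD_concat]
    exact (h1 x (by simp)).mono (by omega)

theorem B_formP {L : ℕ} {vx vy vz : ℕ → MP} (hx : ∀ i, B 0 (vx i)) (hy : ∀ i, B 0 (vy i))
    (hz : ∀ i, B 0 (vz i)) (φ : Form) (hφ : ∀ k ∈ toks φ, sz k.2 ≤ L) : ∀ k,
    B (2 * L + 4 + (toks φ).length) (formP vx vy vz φ k).1 ∧
      B (2 * L + 4 + (toks φ).length) (formP vx vy vz φ k).2 := by
  induction φ with
  | eqZero c =>
    intro k
    have h := B_circP hx hy c (hφ _ List.mem_cons_self)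
    have h' := (hz k).mono (Nat.zero_le (2 * L))
    exact ⟨h.sq.mono (by omega), ((h'.mul h).sub (B.one _)).sq.mono (by omega)⟩
  | pos c =>
    intro k
    have h := (B_circP hx hy c (hφ _ List.mem_cons_self)).mono (Nat.le_succ _)
    have h' := ((hz k).mono (Nat.zero_le (2 * L))).sq
    exact ⟨((h'.mul h).sub (B.one _)).sq.mono (by omega), (h.add h').sq.mono (by omega)⟩
  | and φ ψ h1 h2 =>
    intro k
    have e : (toks (.and φ ψ)).length = (toks φ).length + (toks ψ).length + 1 := by simp [toks]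
    have a := h1 (fun t ht => hφ t (by simp [toks, ht])) (k + atoms ψ)
    have b := h2 (fun t ht => hφ t (by simp [toks, ht])) k
    rw [e, ← add_assoc]
    exact ⟨(a.1.mono (by omega)).add (b.1.mono (by omega)),
      (a.2.mono (by omega)).mul (b.2.mono (by omega))⟩
  | or φ ψ h1 h2 =>
    intro k
    have e : (toks (.or φ ψ)).length = (toks φ).length + (toks ψ).length + 1 := by simp [toks]
    have a := h1 (fun t ht => hφ t (by simp [toks, ht])) (k + atoms ψ)
    have b := h2 (fun t ht => hφ t (by simp [toks, ht])) k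
    rw [e, ← add_assoc]
    exact ⟨(a.1.mono (by omega)).mul (b.1.mono (by omega)),
      (a.2.mono (by omega)).add (b.2.mono (by omega))⟩
  | not φ h1 =>
    intro k
    have e : (toks (.not φ)).length = (toks φ).length + 1 := by simp [toks]
    have a := h1 (fun t ht => hφ t (by simp [toks, ht])) k
    rw [e]
    exact ⟨a.2.mono (by omega), a.1.mono (by omega)⟩

/-! ### evaluation modulo `n + 1` -/

/-- value of a gate -/
def gE (n : ℕ) (vx vy : ℕ → ℕ) (prev : List ℕ) (g : List ℕ) : ℕ :=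
  (if g.getD 0 0 = 0 then (if g.getD 1 0 = 0 then g.getD 2 0 else n * g.getD 2 0)
    else if g.getD 0 0 = 1 then vx (g.getD 1 0) else if g.getD 0 0 = 2 then vy (g.getD 1 0)
    else if g.getD 0 0 = 3 then prev.getD (g.getD 1 0) 0 + prev.getD (g.getD 2 0) 0
    else if g.getD 0 0 = 4 then prev.getD (g.getD 1 0) 0 + n * prev.getD (g.getD 2 0) 0
    else prev.getD (g.getD 1 0) 0 * prev.getD (g.getD 2 0) 0) % (n + 1)

/-- value of a circuit -/
def cE (n : ℕ) (vx vy : ℕ → ℕ) (c : List (List ℕ)) : ℕ :=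
  (c.foldl (fun prev g => prev ++ [gE n vx vy prev g]) []).getLast?.getD 0

theorem cast_n (n : ℕ) : ((n : ℕ) : ZMod (n + 1)) = -1 := by
  have : ((n + 1 : ℕ) : ZMod (n + 1)) = 0 := ZMod.natCast_self _
  rw [Nat.cast_add, Nat.cast_one] at this
  exact eq_neg_of_add_eq_zero_left this

theorem cast_getD (n : ℕ) (l : List ℕ) (a : ℕ) :
    ((l.getD a 0 : ℕ) : ZMod (n + 1)) = (l.map (Nat.cast : ℕ → ZMod (n + 1))).getD a 0 := by
  rw [← List.getD_map (f := (Nat.cast : ℕ → ZMod (n + 1))), Nat.cast_zero]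

theorem gE_cast (n : ℕ) (vx vy : ℕ → ℕ) (prev : List ℕ) (g : AGate) :
    ((gE n vx vy prev g.toNats : ℕ) : ZMod (n + 1)) =
      gateP (fun i => (vx i : ZMod (n + 1))) (fun i => (vy i : ZMod (n + 1)))
        (prev.map Nat.cast) g := by
  unfold gE
  rw [ZMod.natCast_mod]
  cases g with
  | const z =>
    by_cases h : z < 0
    · obtain ⟨k, rfl⟩ : ∃ k : ℕ, z = -k := ⟨z.natAbs, by omega⟩
      simp only [AGate.toNats, if_pos h, gateP]
      simp [cast_n]
    · obtain ⟨k, rfl⟩ : ∃ k : ℕ, z = k := ⟨z.natAbs, by omega⟩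
      simp [AGate.toNats, gateP]
  | varX i => simp [AGate.toNats, gateP]
  | varY i => simp [AGate.toNats, gateP]
  | add a b => simp only [gateP, ← cast_getD]; simp [AGate.toNats]
  | sub a b => simp only [gateP, ← cast_getD]; simp [AGate.toNats, cast_n, sub_eq_add_neg]
  | mul a b => simp only [gateP, ← cast_getD]; simp [AGate.toNats]

theorem cE_cast (n : ℕ) (vx vy : ℕ → ℕ) (c : List AGate) :
    ((cE n vx vy (c.map AGate.toNats) : ℕ) : ZMod (n + 1)) =
      circP (fun i => (vx i : ZMod (n + 1))) (fun i => (vy i : ZMod (n + 1))) c := by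
  have key : ∀ (c : List AGate) (prev : List ℕ),
      ((c.map AGate.toNats).foldl (fun prev g => prev ++ [gE n vx vy prev g]) prev).map
        (Nat.cast : ℕ → ZMod (n + 1)) =
      c.foldl (fun prev g => prev ++ [gateP (fun i => (vx i : ZMod (n + 1)))
        (fun i => (vy i : ZMod (n + 1))) prev g]) (prev.map Nat.cast) := by
    intro c
    induction c with
    | nil => intro prev; rfl
    | cons g c ih =>
      intro prev
      rw [List.map_cons, List.foldl_cons, List.foldl_cons, ih, List.map_append, List.map_singleton,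
        gE_cast]
  unfold cE circP
  have := key c []
  rw [List.map_nil] at this
  rw [← this, List.getLastD_eq_getLast?, List.getLast?_map]
  cases ((c.map AGate.toNats).foldl (fun prev g => prev ++ [gE n vx vy prev g]) []).getLast? <;> simp

theorem sz_mod (x n : ℕ) : sz (x % (n + 1)) ≤ 4 * sz n + 1 :=
  sz_le_of_le (Nat.lt_succ_iff.1 (Nat.mod_lt _ (Nat.succ_pos n)))

theorem PT_cE {α : Type} [Enc α] {n : α → ℕ} {vx vy : α → ℕ → ℕ} {c : α → List (List ℕ)}
    (hn : PT n) (hx : PT fun x : α × ℕ => vx x.1 x.2) (hy : PT fun x : α × ℕ => vy x.1 x.2)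
    (hc : PT c) : PT fun a => cE (n a) (vx a) (vy a) (c a) := by
  have h1 : PT fun p : α × List ℕ × List ℕ => vx p.1 (p.2.2.getD 1 0) :=
    hx.comp (g := fun p : α × List ℕ × List ℕ => (p.1, p.2.2.getD 1 0)) (by fun_prop)
  have h2 : PT fun p : α × List ℕ × List ℕ => vy p.1 (p.2.2.getD 1 0) :=
    hy.comp (g := fun p : α × List ℕ × List ℕ => (p.1, p.2.2.getD 1 0)) (by fun_prop)
  have h3 : PT fun p : α × List ℕ × List ℕ => gE (n p.1) (vx p.1) (vy p.1) p.2.1 p.2.2 := by
    unfold gE; fun_prop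
  have := PT.foldl_add (f := fun a (prev : List ℕ) g => prev ++ [gE (n a) (vx a) (vy a) prev g])
    (init := fun _ => []) (l := c) (by fun_prop) (PT.const _) hc
    (g := fun p => 4 * sz (n p.1) + 2) (by fun_prop) (fun a s b _ => by
      have h4 := sz_append s [gE (n a) (vx a) (vy a) s b]
      have h5 : sz (gE (n a) (vx a) (vy a) s b) ≤ 4 * sz (n a) + 1 := sz_mod _ _
      simp only [sz_cons, sz_nil] at h4 ⊢
      omega)
  exact this.getLast?.getD_option (PT.const _)

/-- the new top of the stack -/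
def tE (n v c : ℕ) (a b : ℕ × ℕ) (t : ℕ) : ℕ × ℕ :=
  if t = 6 then (c ^ 2, (v * c + n) ^ 2) else if t = 7 then ((v ^ 2 * c + n) ^ 2, (c + v ^ 2) ^ 2)
    else if t = 8 then (a.1 + b.1, a.2 * b.2) else if t = 9 then (a.1 * b.1, a.2 + b.2)
    else (a.2, a.1)

/-- one step of the evaluation of a formula -/
def sE (n : ℕ) (vx vy vz : ℕ → ℕ) (k : ℕ × List (List ℕ)) (s : List Unit × List (ℕ × ℕ)) :
    List Unit × List (ℕ × ℕ) :=
  (if k.1 ≤ 7 then () :: s.1 else s.1,
    ((tE n (vz s.1.length) (cE n vx vy k.2) (s.2.headD (0, 0)) (s.2.tail.headD (0, 0)) k.1).1 % (n + 1),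
      (tE n (vz s.1.length) (cE n vx vy k.2) (s.2.headD (0, 0)) (s.2.tail.headD (0, 0)) k.1).2 % (n + 1)) ::
      if k.1 ≤ 7 then s.2 else if k.1 ≤ 9 then s.2.tail.tail else s.2.tail)

theorem sE_toks (n : ℕ) (vx vy vz : ℕ → ℕ) (φ : Form) : ∀ (u : List Unit) (st : List (ℕ × ℕ)),
    ∃ (u' : List Unit) (r : ℕ × ℕ), (toks φ).foldr (sE n vx vy vz) (u, st) = (u', r :: st) ∧
      u'.length = u.length + atoms φ ∧ ((r.1 : ZMod (n + 1)), (r.2 : ZMod (n + 1))) =
        formP (fun i => (vx i : ZMod (n + 1))) (fun i => (vy i : ZMod (n + 1)))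
          (fun i => (vz i : ZMod (n + 1))) φ u.length := by
  induction φ with
  | eqZero c =>
    intro u st
    refine ⟨_, _, rfl, rfl, ?_⟩
    simp only [ZMod.natCast_mod, formP, ← cE_cast]
    simp [tE, cast_n, sub_eq_add_neg]
  | pos c =>
    intro u st
    refine ⟨_, _, rfl, rfl, ?_⟩
    simp only [ZMod.natCast_mod, formP, ← cE_cast]
    simp [tE, cast_n, sub_eq_add_neg]
  | and φ ψ h1 h2 =>
    intro u st
    obtain ⟨u1, r1, e1, l1, c1⟩ := h2 u st
    obtain ⟨u2, r2, e2, l2, c2⟩ := h1 u1 (r1 :: st)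
    rw [toks, List.foldr_cons, List.foldr_append, e1, e2]
    refine ⟨_, _, rfl, by simp [atoms]; omega, ?_⟩
    simp only [ZMod.natCast_mod, formP, ← l1, ← c1, ← c2]
    simp [tE]
  | or φ ψ h1 h2 =>
    intro u st
    obtain ⟨u1, r1, e1, l1, c1⟩ := h2 u st
    obtain ⟨u2, r2, e2, l2, c2⟩ := h1 u1 (r1 :: st)
    rw [toks, List.foldr_cons, List.foldr_append, e1, e2]
    refine ⟨_, _, rfl, by simp [atoms]; omega, ?_⟩
    simp only [ZMod.natCast_mod, formP, ← l1, ← c1, ← c2]
    simp [tE]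
  | not φ h1 =>
    intro u st
    obtain ⟨u1, r1, e1, l1, c1⟩ := h1 u st
    rw [toks, List.foldr_cons, e1]
    refine ⟨_, _, rfl, by simp [atoms]; omega, ?_⟩
    simp only [ZMod.natCast_mod, formP, ← c1]
    simp [tE]

theorem PT_sE {α : Type} [Enc α] {n : α → ℕ} {vx vy vz : α → ℕ → ℕ}
    {t : α → List (ℕ × List (List ℕ))} (hn : PT n) (hx : PT fun x : α × ℕ => vx x.1 x.2)
    (hy : PT fun x : α × ℕ => vy x.1 x.2) (hz : PT fun x : α × ℕ => vz x.1 x.2) (ht : PT t) :
    PT fun a => (t a).foldr (sE (n a) (vx a) (vy a) (vz a)) ([], []) := by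
  have h1 : PT fun p : α × (ℕ × List (List ℕ)) × List Unit × List (ℕ × ℕ) =>
      vz p.1 p.2.2.1.length :=
    hz.comp (g := fun p : α × (ℕ × List (List ℕ)) × List Unit × List (ℕ × ℕ) =>
      (p.1, p.2.2.1.length)) (by fun_prop)
  have h2 : PT fun p : α × (ℕ × List (List ℕ)) × List Unit × List (ℕ × ℕ) =>
      cE (n p.1) (vx p.1) (vy p.1) p.2.1.2 :=
    PT_cE (hn.comp PT.id.fst) (hx.comp (PT.id.fst.fst.pair PT.id.snd))
      (hy.comp (PT.id.fst.fst.pair PT.id.snd)) (by fun_prop)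
  have h3 : PT fun p : ℕ × ℕ × ℕ × (ℕ × ℕ) × (ℕ × ℕ) × ℕ =>
      tE p.1 p.2.1 p.2.2.1 p.2.2.2.1 p.2.2.2.2.1 p.2.2.2.2.2 := by
    unfold tE; fun_prop
  have h4 : PT fun p : α × (ℕ × List (List ℕ)) × List Unit × List (ℕ × ℕ) =>
      tE (n p.1) (vz p.1 p.2.2.1.length) (cE (n p.1) (vx p.1) (vy p.1) p.2.1.2)
        (p.2.2.2.headD (0, 0)) (p.2.2.2.tail.headD (0, 0)) p.2.1.1 :=
    h3.comp (g := fun p : α × (ℕ × List (List ℕ)) × List Unit × List (ℕ × ℕ) =>
      (n p.1, vz p.1 p.2.2.1.length, cE (n p.1) (vx p.1) (vy p.1) p.2.1.2,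
        p.2.2.2.headD (0, 0), p.2.2.2.tail.headD (0, 0), p.2.1.1))
      ((hn.comp PT.id.fst).pair (h1.pair (h2.pair
        (PT.pair (PT.id.snd.snd.snd.headD (PT.const _))
          (PT.pair (PT.id.snd.snd.snd.tail.headD (PT.const _)) PT.id.snd.fst.fst)))))
  have h5 : PT fun p : α × (ℕ × List (List ℕ)) × List Unit × List (ℕ × ℕ) => n p.1 + 1 := by
    fun_prop
  refine PT.foldr_add (f := fun a => sE (n a) (vx a) (vy a) (vz a)) ?_ (PT.const _) ht
    (g := fun p => 8 * sz (n p.1) + 6) (by fun_prop) fun a s b _ => ?_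
  · unfold sE
    exact PT.pair (by fun_prop) (PT.cons ((h4.fst.mod h5).pair (h4.snd.mod h5)) (by fun_prop))
  · unfold sE
    generalize tE (n a) (vz a s.1.length) (cE (n a) (vx a) (vy a) b.2) (s.2.headD (0, 0))
      (s.2.tail.headD (0, 0)) b.1 = r
    have k1 := sz_mod r.1 (n a)
    have k2 := sz_mod r.2 (n a)
    have k3 := sz_sublist (List.tail_sublist s.2)
    have k4 := sz_sublist (List.tail_sublist s.2.tail)
    rw [sz_prod s]
    split_ifs <;> simp only [sz_pair, sz_cons, sz_unit] <;> omega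

end FormCHA
open FormCHA

theorem nS_PT : PT nS ∧ PB nS ∧ PT mS ∧ PB mS := by
  have h3 := PT.sentence.snd.snd
  have h1 := PT_vars 1 h3
  have h2 := PT_vars 2 h3
  have e : ∀ S : Sentence, mS S = (vars 2 (toks S.body)).length +
      (toks S.body).countP (fun k => decide (k.1 ≤ 7)) := fun S => by rw [← atoms_eq]; rfl
  refine ⟨h1.length, PB.length h1, PT.congr ?_ e, PB.mono ?_ fun S => (e S).le⟩
  · exact h2.length.add (PT.countP (by fun_prop) h3)
  · exact (PB.length h2).add (PB.countP h3)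

theorem FS_Bd : Bd FS := by
  have h3 := PT.sentence.snd.snd
  refine ⟨fun S => 2 * sz (toks S.body) + 4 + (toks S.body).length,
    (((PB.const 2).mul (PB.sz h3)).add (PB.const 4)).add (PB.length h3), fun S => ?_⟩
  refine (B_formP (fun _ => B.X 0 _) (fun _ => B.X 0 _) (fun _ => B.X 0 _) S.body
    (fun k hk => ?_) 0).2
  have := sz_mem hk
  rw [sz_prod] at this
  omega

theorem FS_EvCH : EvCH FS := by
  have h3 : PT fun x : Sentence × ℕ × List ℕ => toks x.1.body :=
    PT.sentence.snd.snd.comp PT.id.fst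
  have h1 := PT_vars 1 h3
  have h2 := PT_vars 2 h3
  have h4 : PT fun x : Sentence × ℕ × List ℕ => nS x.1 := nS_PT.1.comp PT.id.fst
  have h5 := PT_sE (n := fun x : Sentence × ℕ × List ℕ => x.2.1 - 1)
    (vx := fun x i => x.2.2.getD ((vars 1 (toks x.1.body)).idxOf i) 0)
    (vy := fun x i => x.2.2.getD (nS x.1 + (vars 2 (toks x.1.body)).idxOf i) 0)
    (vz := fun x c => x.2.2.getD (nS x.1 + (vars 2 (toks x.1.body)).length + c) 0) (by fun_prop)
    (PT.getD (PT_idxOf PT.id.snd (h1.comp PT.id.fst)) (by fun_prop) (PT.const _))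
    (PT.getD ((h4.comp PT.id.fst).add (PT_idxOf PT.id.snd (h2.comp PT.id.fst))) (by fun_prop)
      (PT.const _))
    (PT.getD (((h4.comp PT.id.fst).add (h2.comp PT.id.fst).length).add PT.id.snd) (by fun_prop)
      (PT.const _)) h3
  refine ⟨fun _ => 0, _, PB.const 0, CHF.of_PT (h5.snd.headD (PT.const (0, 0))).snd,
    fun S p l hp _ => ?_⟩
  obtain ⟨n, rfl⟩ : ∃ n, p = n + 1 := ⟨p - 1, by have := hp.pos; omega⟩
  simp only [Nat.add_sub_cancel]
  obtain ⟨u, r, e, -, hr⟩ := sE_toks n (fun i => l.getD ((vars 1 (toks S.body)).idxOf i) 0)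
    (fun i => l.getD (nS S + (vars 2 (toks S.body)).idxOf i) 0)
    (fun c => l.getD (nS S + (vars 2 (toks S.body)).length + c) 0) S.body [] []
  rw [e]
  have h6 := congrArg Prod.snd (map_formP (aeval (lpt (n + 1) l) : MP →ₐ[ℤ] ZMod (n + 1)).toRingHom
    (fun i => (X ((vars 1 (toks S.body)).idxOf i) : MP))
    (fun i => X (nS S + (vars 2 (toks S.body)).idxOf i))
    (fun c => X (nS S + (vars 2 (toks S.body)).length + c)) S.body 0)
  simp only [AlgHom.toRingHom_eq_coe, RingHom.coe_coe, aeval_X] at h6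
  exact (congrArg Prod.snd hr).trans h6.symm

theorem good_FS : Good nS mS FS :=
  ⟨nS_PT.1, nS_PT.2.1, nS_PT.2.2.1, nS_PT.2.2.2, ⟨FS_Bd, FS_EvCH⟩, FS_nonneg, FS_dep⟩

end Crest.Agent.R316
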