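import Crest.Agent.R316.Defs
/-!
# Meaning of the polynomial of a sentence (task R316-FormSem)

* naturality: `φ (circP vx vy c) = circP (φ ∘ vx) (φ ∘ vy) c`, the same for `formP`; over `ℝ`, `circP = circuitValue`.
* `formP` over `ℝ`: both components are `≥ 0`, depend only on `vz k, …, vz (k + atoms φ - 1)` and on the `vx i`, `vy i` with `i ∈ vars 1 (toks φ)`, `i ∈ vars 2 (toks φ)`;
  `φ.Holds x y ↔ ∃ vz, (formP x y vz φ k).1 = 0` and `¬ φ.Holds x y ↔ ∃ vz, (formP x y vz φ k).2 = 0` (simultaneous induction, generalising `k`; glue witnesses at `k + atoms ψ`).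
* `isTrue_iff`: for a well-formed sentence the used indices are `< r`, `< s`, so assignments `Fin r → ℝ` and assignments of the used variables (through `idxOf`, injective on members) can be translated both ways.
-/
set_option autoImplicit false
namespace Crest.Agent.R316
open MvPolynomial Crest.RealEA

namespace FormSem

theorem map_gateP {R S : Type*} [CommRing R] [CommRing S] (φ : R →+* S) (vx vy : ℕ → R)
    (prev : List R) (g : AGate) :
    φ (gateP vx vy prev g) = gateP (fun i => φ (vx i)) (fun i => φ (vy i)) (prev.map φ) g := by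
  have h : ∀ a, (prev.map φ).getD a 0 = φ (prev.getD a 0) := fun a => by
    rw [← map_zero φ, List.getD_map]
  cases g <;> simp only [gateP, map_add, map_sub, map_mul, map_intCast, h]

theorem map_foldl {R S : Type*} [CommRing R] [CommRing S] (φ : R →+* S) (vx vy : ℕ → R)
    (c : List AGate) (acc : List R) :
    (c.foldl (fun prev g => prev ++ [gateP vx vy prev g]) acc).map φ =
      c.foldl (fun prev g => prev ++ [gateP (fun i => φ (vx i)) (fun i => φ (vy i)) prev g])
        (acc.map φ) := by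
  induction c generalizing acc with
  | nil => rfl
  | cons g c ih => rw [List.foldl_cons, List.foldl_cons, ih, List.map_append, List.map_singleton,
      map_gateP]

theorem circP_real (x y : ℕ → ℝ) (c : List AGate) : circP x y c = circuitValue x y c := by
  have : ∀ prev g, gateP x y prev g = g.value x y prev := fun prev g => by cases g <;> rfl
  simp only [circP, circuitValue, circuitValues, this]

theorem circP_congr {R : Type*} [CommRing R] {vx vy vx' vy' : ℕ → R} {c : List AGate}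
    (hx : ∀ i, AGate.varX i ∈ c → vx i = vx' i) (hy : ∀ i, AGate.varY i ∈ c → vy i = vy' i) :
    circP vx vy c = circP vx' vy' c := by
  unfold circP
  congr 1
  refine List.foldl_ext _ _ _ fun prev g hg => ?_
  congr 2
  cases g with
  | varX i => exact hx i hg
  | varY i => exact hy i hg
  | _ => rfl

theorem vars_append (tag : ℕ) (s t : List (ℕ × List (List ℕ))) :
    vars tag (s ++ t) = vars tag s ++ vars tag t := by simp [vars]

theorem vars_cons_nil (tag u : ℕ) (t : List (ℕ × List (List ℕ))) :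
    vars tag ((u, []) :: t) = vars tag t := by simp [vars]

theorem mem_vars_X (u i : ℕ) (c : List AGate) :
    i ∈ vars 1 [(u, c.map AGate.toNats)] ↔ AGate.varX i ∈ c := by
  simp only [vars, List.flatMap_cons, List.flatMap_nil, List.append_nil, List.mem_map,
    List.mem_filter]
  constructor
  · rintro ⟨_, ⟨⟨g, hg, rfl⟩, h1⟩, rfl⟩
    cases g <;> simp_all [AGate.toNats]
  · exact fun h => ⟨_, ⟨⟨_, h, rfl⟩, by simp [AGate.toNats]⟩, by simp [AGate.toNats]⟩

theorem mem_vars_Y (u i : ℕ) (c : List AGate) :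
    i ∈ vars 2 [(u, c.map AGate.toNats)] ↔ AGate.varY i ∈ c := by
  simp only [vars, List.flatMap_cons, List.flatMap_nil, List.append_nil, List.mem_map,
    List.mem_filter]
  constructor
  · rintro ⟨_, ⟨⟨g, hg, rfl⟩, h1⟩, rfl⟩
    cases g <;> simp_all [AGate.toNats]
  · exact fun h => ⟨_, ⟨⟨_, h, rfl⟩, by simp [AGate.toNats]⟩, by simp [AGate.toNats]⟩

theorem formP_congr {R : Type*} [CommRing R] {vx vy vz vx' vy' vz' : ℕ → R} (φ : Form) (k : ℕ)
    (hx : ∀ i ∈ vars 1 (toks φ), vx i = vx' i) (hy : ∀ i ∈ vars 2 (toks φ), vy i = vy' i)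
    (hz : ∀ c, k ≤ c → c < k + atoms φ → vz c = vz' c) :
    formP vx vy vz φ k = formP vx' vy' vz' φ k := by
  induction φ generalizing k with
  | eqZero c =>
    simp only [toks, mem_vars_X, mem_vars_Y, atoms] at hx hy hz
    simp only [formP, circP_congr hx hy, hz k le_rfl (by omega)]
  | pos c =>
    simp only [toks, mem_vars_X, mem_vars_Y, atoms] at hx hy hz
    simp only [formP, circP_congr hx hy, hz k le_rfl (by omega)]
  | and φ ψ ih1 ih2 =>
    simp only [toks, vars_cons_nil, vars_append, List.mem_append, atoms] at hx hy hz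
    simp only [formP]
    rw [ih1 _ (fun i hi => hx i (Or.inl hi)) (fun i hi => hy i (Or.inl hi))
        fun c h1 h2 => hz c (by omega) (by omega),
      ih2 _ (fun i hi => hx i (Or.inr hi)) (fun i hi => hy i (Or.inr hi))
        fun c h1 h2 => hz c (by omega) (by omega)]
  | or φ ψ ih1 ih2 =>
    simp only [toks, vars_cons_nil, vars_append, List.mem_append, atoms] at hx hy hz
    simp only [formP]
    rw [ih1 _ (fun i hi => hx i (Or.inl hi)) (fun i hi => hy i (Or.inl hi))
        fun c h1 h2 => hz c (by omega) (by omega),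
      ih2 _ (fun i hi => hx i (Or.inr hi)) (fun i hi => hy i (Or.inr hi))
        fun c h1 h2 => hz c (by omega) (by omega)]
  | not φ ih =>
    simp only [toks, vars_cons_nil, atoms] at hx hy hz
    simp only [formP]
    rw [ih _ hx hy hz]

theorem formP_nonneg (x y z : ℕ → ℝ) (φ : Form) (k : ℕ) :
    0 ≤ (formP x y z φ k).1 ∧ 0 ≤ (formP x y z φ k).2 := by
  induction φ generalizing k with
  | eqZero c => exact ⟨sq_nonneg _, sq_nonneg _⟩
  | pos c => exact ⟨sq_nonneg _, sq_nonneg _⟩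
  | and φ ψ ih1 ih2 => exact ⟨add_nonneg (ih1 _).1 (ih2 _).1, mul_nonneg (ih1 _).2 (ih2 _).2⟩
  | or φ ψ ih1 ih2 => exact ⟨mul_nonneg (ih1 _).1 (ih2 _).1, add_nonneg (ih1 _).2 (ih2 _).2⟩
  | not φ ih => exact ⟨(ih _).2, (ih _).1⟩

theorem glue (x y z z' : ℕ → ℝ) (φ ψ : Form) (k : ℕ) : ∃ w : ℕ → ℝ,
    formP x y w φ (k + atoms ψ) = formP x y z φ (k + atoms ψ) ∧
      formP x y w ψ k = formP x y z' ψ k :=
  ⟨fun c => if c < k + atoms ψ then z' c else z c,
    formP_congr _ _ (fun _ _ => rfl) (fun _ _ => rfl) fun c h _ => if_neg (by omega),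
    formP_congr _ _ (fun _ _ => rfl) (fun _ _ => rfl) fun c _ h => if_pos h⟩

theorem holds_iff (x y : ℕ → ℝ) (φ : Form) (k : ℕ) :
    (φ.Holds x y ↔ ∃ z, (formP x y z φ k).1 = 0) ∧
      (¬ φ.Holds x y ↔ ∃ z, (formP x y z φ k).2 = 0) := by
  induction φ generalizing k with
  | eqZero c =>
    simp only [Form.Holds, formP, circP_real, sq_eq_zero_iff, sub_eq_zero]
    exact ⟨⟨fun h => ⟨0, h⟩, fun ⟨_, h⟩ => h⟩,
      fun h => ⟨fun _ => (circuitValue x y c)⁻¹, inv_mul_cancel₀ h⟩,
      fun ⟨_, h⟩ => right_ne_zero_of_mul_eq_one h⟩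
  | pos c =>
    simp only [Form.Holds, formP, circP_real, sq_eq_zero_iff, sub_eq_zero, not_lt]
    refine ⟨⟨fun h => ⟨fun _ => √(circuitValue x y c)⁻¹, ?_⟩, fun ⟨z, h⟩ => ?_⟩,
      fun h => ⟨fun _ => √(-circuitValue x y c), ?_⟩, fun ⟨z, h⟩ => ?_⟩
    · rw [Real.sq_sqrt (inv_nonneg.2 h.le), inv_mul_cancel₀ h.ne']
    · by_contra h1
      nlinarith [mul_nonneg (sq_nonneg (z k)) (neg_nonneg.2 (not_lt.1 h1))]
    · rw [Real.sq_sqrt (neg_nonneg.2 h), add_neg_cancel]
    · nlinarith [sq_nonneg (z k)]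
  | and φ ψ ih1 ih2 =>
    simp only [Form.Holds, formP, not_and_or, mul_eq_zero, exists_or,
      add_eq_zero_iff_of_nonneg (formP_nonneg _ _ _ _ _).1 (formP_nonneg _ _ _ _ _).1]
    rw [(ih1 (k + atoms ψ)).2, (ih2 k).2, (ih1 (k + atoms ψ)).1, (ih2 k).1]
    refine ⟨⟨fun ⟨⟨z, h⟩, z', h'⟩ => ?_, fun ⟨z, h, h'⟩ => ⟨⟨z, h⟩, z, h'⟩⟩, Iff.rfl⟩
    obtain ⟨w, h1, h2⟩ := glue x y z z' φ ψ k
    exact ⟨w, h1 ▸ h, h2 ▸ h'⟩
  | or φ ψ ih1 ih2 =>
    simp only [Form.Holds, formP, not_or, mul_eq_zero, exists_or,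
      add_eq_zero_iff_of_nonneg (formP_nonneg _ _ _ _ _).2 (formP_nonneg _ _ _ _ _).2]
    rw [(ih1 (k + atoms ψ)).2, (ih2 k).2, (ih1 (k + atoms ψ)).1, (ih2 k).1]
    refine ⟨Iff.rfl, fun ⟨⟨z, h⟩, z', h'⟩ => ?_, fun ⟨z, h, h'⟩ => ⟨⟨z, h⟩, z, h'⟩⟩
    obtain ⟨w, h1, h2⟩ := glue x y z z' φ ψ k
    exact ⟨w, h1 ▸ h, h2 ▸ h'⟩
  | not φ ih =>
    simp only [Form.Holds, formP, not_not]
    exact ⟨(ih k).2, (ih k).1⟩

theorem circ_wf {r s : ℕ} {c : List AGate} (h : CircuitWF r s c) :
    (∀ i, AGate.varX i ∈ c → i < r) ∧ ∀ i, AGate.varY i ∈ c → i < s := by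
  constructor <;> intro i hi <;> obtain ⟨t, ht⟩ := List.get_of_mem hi <;> have := h.2 t <;>
    rw [ht] at this <;> exact this

theorem vars_lt {r s : ℕ} {φ : Form} (h : φ.WF r s) :
    (∀ i ∈ vars 1 (toks φ), i < r) ∧ ∀ i ∈ vars 2 (toks φ), i < s := by
  induction φ with
  | eqZero c => simpa only [toks, mem_vars_X, mem_vars_Y] using circ_wf h
  | pos c => simpa only [toks, mem_vars_X, mem_vars_Y] using circ_wf h
  | and φ ψ ih1 ih2 =>
    simp only [toks, vars_cons_nil, vars_append, List.mem_append]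
    exact ⟨fun i hi => hi.elim ((ih1 h.1).1 i) ((ih2 h.2).1 i),
      fun i hi => hi.elim ((ih1 h.1).2 i) ((ih2 h.2).2 i)⟩
  | or φ ψ ih1 ih2 =>
    simp only [toks, vars_cons_nil, vars_append, List.mem_append]
    exact ⟨fun i hi => hi.elim ((ih1 h.1).1 i) ((ih2 h.2).1 i),
      fun i hi => hi.elim ((ih1 h.1).2 i) ((ih2 h.2).2 i)⟩
  | not φ ih => simpa only [toks, vars_cons_nil] using ih h

theorem getD_idxOf {l : List ℕ} {i : ℕ} (h : i ∈ l) : l.getD (l.idxOf i) 0 = i := by
  rw [List.getD_eq_getElem _ _ (List.idxOf_lt_length_of_mem h), List.getElem_idxOf]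

end FormSem
open FormSem

theorem map_circP {R S : Type*} [CommRing R] [CommRing S] (φ : R →+* S) (vx vy : ℕ → R)
    (c : List AGate) : φ (circP vx vy c) = circP (fun i => φ (vx i)) (fun i => φ (vy i)) c := by
  have h := map_foldl φ vx vy c []
  rw [List.map_nil] at h
  unfold circP
  rw [← h, List.getLastD_eq_getLast?, List.getLastD_eq_getLast?, List.getLast?_map]
  cases (c.foldl (fun prev g => prev ++ [gateP vx vy prev g]) []).getLast? <;> simp

theorem map_formP {R S : Type*} [CommRing R] [CommRing S] (φ : R →+* S) (vx vy vz : ℕ → R)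
    (ψ : Form) (k : ℕ) : (φ (formP vx vy vz ψ k).1, φ (formP vx vy vz ψ k).2) =
      formP (fun i => φ (vx i)) (fun i => φ (vy i)) (fun i => φ (vz i)) ψ k := by
  induction ψ generalizing k with
  | eqZero c => simp only [formP, map_pow, map_sub, map_mul, map_one, map_circP]
  | pos c => simp only [formP, map_pow, map_sub, map_mul, map_add, map_one, map_circP]
  | and ψ χ ih1 ih2 => simp only [formP, map_mul, map_add, ← ih1, ← ih2]
  | or ψ χ ih1 ih2 => simp only [formP, map_mul, map_add, ← ih1, ← ih2]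
  | not ψ ih => simp only [formP, ← ih]

theorem FormSem.aeval_FS (S : Sentence) (v : ℕ → ℝ) : aeval v (FS S) =
    (formP (fun i => v ((vars 1 (toks S.body)).idxOf i))
      (fun i => v (nS S + (vars 2 (toks S.body)).idxOf i))
      (fun c => v (nS S + (vars 2 (toks S.body)).length + c)) S.body 0).2 := by
  have := congrArg Prod.snd (map_formP (aeval v : MP →ₐ[ℤ] ℝ).toRingHom
    (fun i => (X ((vars 1 (toks S.body)).idxOf i) : MP))
    (fun i => X (nS S + (vars 2 (toks S.body)).idxOf i))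
    (fun c => X (nS S + (vars 2 (toks S.body)).length + c)) S.body 0)
  simpa [FS] using this

theorem FS_nonneg (S : Sentence) (v : ℕ → ℝ) : 0 ≤ aeval v (FS S) := by
  rw [aeval_FS]; exact (formP_nonneg _ _ _ _ _).2

theorem FS_dep (S : Sentence) (v w : ℕ → ℝ) (h : ∀ i < nS S + mS S, v i = w i) :
    aeval v (FS S) = aeval w (FS S) := by
  rw [aeval_FS, aeval_FS]
  congr 1
  refine formP_congr _ _ (fun i hi => h _ ?_) (fun i hi => h _ ?_) fun c _ hc => h _ ?_
  · have := List.idxOf_lt_length_of_mem hi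
    unfold nS; omega
  · have := List.idxOf_lt_length_of_mem hi
    unfold mS; omega
  · unfold mS; omega

theorem isTrue_iff {S : Sentence} (h : S.WF) :
    S.IsTrue ↔ ∃ x, ¬ Solv (nS S) (mS S) (FS S) x := by
  obtain ⟨hr, hs⟩ := vars_lt h
  have h1 : ∀ (x : ℕ → ℝ) (y : Fin (mS S) → ℝ), ∀ i ∈ vars 1 (toks S.body),
      upd (nS S) x y ((vars 1 (toks S.body)).idxOf i) = x ((vars 1 (toks S.body)).idxOf i) :=
    fun x y i hi => upd_of_not_mem _ _ _ (by
      have := List.idxOf_lt_length_of_mem hi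
      unfold nS; omega)
  constructor
  · rintro ⟨x, hx⟩
    refine ⟨fun t => extend x ((vars 1 (toks S.body)).getD t 0), fun ⟨y, hy⟩ => ?_⟩
    rw [aeval_FS] at hy
    refine (holds_iff _ _ _ 0).2.2 ⟨_, Eq.trans (congrArg Prod.snd (formP_congr _ _ (fun i hi => ?_)
      (fun i hi => ?_) fun _ _ _ => rfl)) hy⟩
      (hx fun i => upd (nS S) (fun t => extend x ((vars 1 (toks S.body)).getD t 0)) y
        (nS S + (vars 2 (toks S.body)).idxOf (i : ℕ)))
    · rw [h1 _ _ i hi, getD_idxOf hi]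
    · rw [extend, dif_pos (hs i hi)]
  · rintro ⟨x, hx⟩
    refine ⟨fun i => x ((vars 1 (toks S.body)).idxOf (i : ℕ)), fun y => ?_⟩
    by_contra hy
    obtain ⟨z, hz⟩ := (holds_iff _ _ _ 0).2.1 hy
    refine hx ⟨fun t => if (t : ℕ) < (vars 2 (toks S.body)).length then
      extend y ((vars 2 (toks S.body)).getD t 0) else z (t - (vars 2 (toks S.body)).length), ?_⟩
    rw [aeval_FS]
    refine Eq.trans (congrArg Prod.snd (formP_congr _ _ (fun i hi => ?_)
      (fun i hi => ?_) fun c _ hc => ?_)) hz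
    · rw [h1 _ _ i hi, extend, dif_pos (hr i hi)]
    · have h2 := List.idxOf_lt_length_of_mem hi
      rw [upd, dif_pos ⟨by omega, by unfold mS; omega⟩]
      simp only [Nat.add_sub_cancel_left, h2, if_true, getD_idxOf hi]
    · rw [upd, dif_pos ⟨by omega, by unfold mS; omega⟩, if_neg (by simp only; omega)]
      congr 1
      simp only; omega

end Crest.Agent.R316
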