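import Crest.Agent.R316.Dig
/-!
# Grids (task R316-Grid)

Induction on `n` with `grid_succ`.  For `mcnt_grid`: `update z n r = z0 ↔ z = update z0 n 0 ∧ r = z0 n` for `z ∈ grid R n`.
-/
set_option autoImplicit false
namespace Crest.Agent.R316
open Finset
variable {K : Type*}

theorem mem_grid [Zero K] {R : ℕ → Multiset K} {n : ℕ} {z : ℕ → K} :
    z ∈ grid R n ↔ (∀ i < n, z i ∈ R i) ∧ ∀ i, n ≤ i → z i = 0 := by
  induction n generalizing z with
  | zero =>
    rw [grid_zero, Multiset.mem_singleton]
    constructor
    · rintro rfl
      exact ⟨fun i hi => absurd hi (Nat.not_lt_zero i), fun _ _ => rfl⟩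
    · rintro ⟨-, h⟩
      funext i
      exact h i (Nat.zero_le i)
  | succ n ih =>
    rw [grid_succ, Multiset.mem_bind]
    constructor
    · rintro ⟨w, hw, hz⟩
      obtain ⟨r, hr, rfl⟩ := Multiset.mem_map.1 hz
      obtain ⟨h1, h2⟩ := ih.1 hw
      refine ⟨fun i hi => ?_, fun i hi => ?_⟩
      · by_cases hin : i = n
        · subst hin; rwa [Function.update_self]
        · rw [Function.update_of_ne hin]; exact h1 i (by omega)
      · rw [Function.update_of_ne (by omega)]; exact h2 i (by omega)
    · rintro ⟨h1, h2⟩
      refine ⟨Function.update z n 0, ih.2 ⟨fun i hi => ?_, fun i hi => ?_⟩, ?_⟩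
      · rw [Function.update_of_ne (by omega)]; exact h1 i (by omega)
      · by_cases hin : i = n
        · subst hin; rw [Function.update_self]
        · rw [Function.update_of_ne hin]; exact h2 i (by omega)
      · refine Multiset.mem_map.2 ⟨z n, h1 n (by omega), ?_⟩
        rw [Function.update_idem, Function.update_eq_self]

theorem grid_congr [Zero K] {R R' : ℕ → Multiset K} {n : ℕ} (h : ∀ i < n, R i = R' i) :
    grid R n = grid R' n := by
  induction n with
  | zero => rfl
  | succ n ih =>
    rw [grid_succ, grid_succ, ih (fun i hi => h i (by omega)), h n (by omega)]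

theorem card_grid [Zero K] (R : ℕ → Multiset K) (n : ℕ) :
    (grid R n).card = ∏ i ∈ range n, (R i).card := by
  induction n with
  | zero => simp [grid_zero]
  | succ n ih =>
    rw [grid_succ, Multiset.card_bind, Finset.prod_range_succ, ← ih]
    simp

theorem mcnt_grid [Zero K] (R : ℕ → Multiset K) {n : ℕ} {z0 : ℕ → K} (h : ∀ i, n ≤ i → z0 i = 0) :
    mcnt (grid R n) (fun z => z = z0) = ∏ i ∈ range n, mcnt (R i) (fun r => r = z0 i) := by
  classical
  induction n generalizing z0 with
  | zero =>
    have : z0 = 0 := funext fun i => h i (Nat.zero_le i)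
    subst this
    rw [mcnt_eq_count, grid_zero]
    simp
  | succ n ih =>
    have h' : ∀ i, n ≤ i → Function.update z0 n 0 i = 0 := fun i hi => by
      by_cases hin : i = n
      · subst hin; rw [Function.update_self]
      · rw [Function.update_of_ne hin]; exact h i (by omega)
    have e1 : ∏ i ∈ range n, mcnt (R i) (fun r => r = z0 i) =
        ∏ i ∈ range n, mcnt (R i) (fun r => r = Function.update z0 n 0 i) :=
      Finset.prod_congr rfl fun i hi => by
        rw [Function.update_of_ne (by have := Finset.mem_range.1 hi; omega)]
    rw [Finset.prod_range_succ, e1, ← ih h', mcnt_eq_count, mcnt_eq_count, mcnt_eq_count, grid_succ,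
      Multiset.count_bind]
    have e2 : (grid R n).map (fun z => Multiset.count z0 ((R n).map fun r => Function.update z n r)) =
        (grid R n).map (fun z => if Function.update z0 n 0 = z then (R n).count (z0 n) else 0) := by
      refine Multiset.map_congr rfl fun z hz => ?_
      have hzn : z n = 0 := (mem_grid.1 hz).2 n le_rfl
      split_ifs with hz0
      · have : z0 = Function.update z n (z0 n) := by
          rw [← hz0, Function.update_idem, Function.update_eq_self]
        conv_lhs => rw [this]
        exact Multiset.count_map_eq_count' _ _ (Function.update_injective z n) _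
      · rw [Multiset.count_eq_zero]
        intro hm
        obtain ⟨r, -, hr⟩ := Multiset.mem_map.1 hm
        apply hz0
        rw [← hr, Function.update_idem, ← hzn, Function.update_eq_self]
    rw [e2]
    generalize grid R n = M
    induction M using Multiset.induction_on with
    | empty => simp
    | cons a M ihM =>
      rw [Multiset.map_cons, Multiset.sum_cons, ihM, Multiset.count_cons, add_mul]
      split_ifs <;> simp [add_comm]

theorem sum_grid_prod [CommSemiring K] (R : ℕ → Multiset K) (n : ℕ) (φ : ℕ → K → K) :
    ((grid R n).map fun z => ∏ i ∈ range n, φ i (z i)).sum =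
      ∏ i ∈ range n, ((R i).map (φ i)).sum := by
  induction n with
  | zero => simp [grid_zero]
  | succ n ih =>
    rw [grid_succ, Multiset.map_bind, Multiset.sum_bind, Finset.prod_range_succ, ← ih,
      ← Multiset.sum_map_mul_right]
    congr 1
    refine Multiset.map_congr rfl fun z _ => ?_
    rw [Multiset.map_map, ← Multiset.sum_map_mul_left]
    congr 1
    refine Multiset.map_congr rfl fun r _ => ?_
    simp only [Function.comp_apply]
    rw [Finset.prod_range_succ, Function.update_self]
    congr 1
    refine Finset.prod_congr rfl fun i hi => ?_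
    rw [Function.update_of_ne (by have := Finset.mem_range.1 hi; omega)]

theorem map_grid [Zero K] {L : Type*} [Zero L] (σ : K → L) (hσ : σ 0 = 0) (R : ℕ → Multiset K)
    (n : ℕ) : (grid R n).map (fun z i => σ (z i)) = grid (fun i => (R i).map σ) n := by
  induction n with
  | zero =>
    rw [grid_zero, grid_zero, Multiset.map_singleton]
    congr 1
    funext i
    exact hσ
  | succ n ih =>
    rw [grid_succ, grid_succ, ← ih, Multiset.map_bind, Multiset.bind_map]
    refine Multiset.bind_congr fun z _ => ?_
    rw [Multiset.map_map, Multiset.map_map]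
    refine Multiset.map_congr rfl fun r _ => ?_
    funext i
    simp only [Function.comp_apply]
    by_cases hin : i = n
    · subst hin; rw [Function.update_self, Function.update_self]
    · rw [Function.update_of_ne hin, Function.update_of_ne hin]

theorem filter_grid [Zero K] (p : K → Prop) [DecidablePred p] (R : ℕ → Multiset K) (n : ℕ) :
    (grid R n).filter (fun z : ℕ → K => ∀ i < n, p (z i)) = grid (fun i => (R i).filter p) n := by
  induction n with
  | zero =>
    rw [grid_zero, grid_zero, Multiset.filter_eq_self]
    intro z _ i hi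
    exact absurd hi (Nat.not_lt_zero i)
  | succ n ih =>
    rw [grid_succ, grid_succ, ← ih, Multiset.filter_bind, Multiset.bind_filter]
    refine Multiset.bind_congr fun z _ => ?_
    rw [Multiset.filter_map]
    have key : ∀ r, (∀ i < n + 1, p (Function.update z n r i)) ↔ (∀ i < n, p (z i)) ∧ p r := fun r => by
      constructor
      · intro hh
        refine ⟨fun i hi => ?_, ?_⟩
        · have := hh i (by omega)
          rwa [Function.update_of_ne (by omega)] at this
        · have := hh n (by omega)
          rwa [Function.update_self] at this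
      · rintro ⟨h1, h2⟩ i hi
        by_cases hin : i = n
        · subst hin; rwa [Function.update_self]
        · rw [Function.update_of_ne hin]; exact h1 i (by omega)
    split_ifs with hz
    · congr 1
      refine Multiset.filter_congr fun r _ => ?_
      simp only [Function.comp_apply]
      rw [key r]
      exact ⟨fun hh => hh.2, fun hh => ⟨hz, hh⟩⟩
    · rw [Multiset.map_eq_zero, Multiset.filter_eq_nil]
      intro r _ hh
      simp only [Function.comp_apply] at hh
      exact hz ((key r).1 hh).1

/-- the complex roots of an integer polynomial are invariant under conjugation -/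
theorem aroots_conj (b : Polynomial ℤ) : (b.aroots ℂ).map (starRingEnd ℂ) = b.aroots ℂ := by
  have hs : (b.map (algebraMap ℤ ℂ)).Splits := IsAlgClosed.splits _
  rw [Polynomial.aroots_def, ← hs.roots_map (starRingEnd ℂ), Polynomial.map_map]
  congr 2
  exact RingHom.ext_int _ _

/-- the real ones among the complex roots (compare root multiplicities: `Polynomial.eq_rootMultiplicity_map`) -/
theorem aroots_real (b : Polynomial ℤ) :
    (b.aroots ℂ).filter (fun r => r.im = 0) = (b.aroots ℝ).map Complex.ofReal := by
  classical
  ext r
  by_cases hr : r.im = 0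
  · have e : r = (r.re : ℂ) := Complex.ext (by simp) (by simp [hr])
    rw [Multiset.count_filter_of_pos (p := fun r : ℂ => r.im = 0) hr]
    conv_rhs => rw [e]
    rw [Multiset.count_map_eq_count' _ _ Complex.ofReal_injective, Polynomial.aroots_def,
      Polynomial.aroots_def, Polynomial.count_roots, Polynomial.count_roots,
      Polynomial.eq_rootMultiplicity_map (f := Complex.ofRealHom) Complex.ofReal_injective,
      Polynomial.map_map]
    have e2 : Complex.ofRealHom.comp (algebraMap ℤ ℝ) = algebraMap ℤ ℂ := RingHom.ext_int _ _
    rw [e2]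
    congr 1
  · rw [Multiset.count_filter_of_neg (p := fun r : ℂ => r.im = 0) hr, eq_comm, Multiset.count_eq_zero]
    intro hm
    obtain ⟨x, -, rfl⟩ := Multiset.mem_map.1 hm
    exact hr (Complex.ofReal_im x)

theorem gridC_conj (n : ℕ) (b : ℕ → Polynomial ℤ) :
    (gridC n b).map (fun z i => starRingEnd ℂ (z i)) = gridC n b := by
  unfold gridC
  rw [map_grid (starRingEnd ℂ) (map_zero _)]
  exact grid_congr fun i _ => aroots_conj (b i)

theorem gridC_real (n : ℕ) (b : ℕ → Polynomial ℤ) :
    (gridC n b).filter (fun z : ℕ → ℂ => ∀ i < n, (z i).im = 0) =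
      (gridR n b).map (fun z i => (z i : ℂ)) := by
  unfold gridC gridR
  rw [map_grid Complex.ofReal Complex.ofReal_zero]
  have := filter_grid (fun r : ℂ => r.im = 0) (fun i => (b i).aroots ℂ) n
  rw [← grid_congr fun i _ => aroots_real (b i), ← this]

theorem ofReal_mem_gridC {n : ℕ} {b : ℕ → Polynomial ℤ} {z : ℕ → ℝ} (hz : z ∈ gridR n b) :
    (fun i => (z i : ℂ)) ∈ gridC n b := by
  have : (fun i => (z i : ℂ)) ∈ (gridR n b).map (fun z i => (z i : ℂ)) :=
    Multiset.mem_map.2 ⟨z, hz, rfl⟩
  rw [← gridC_real] at this
  exact Multiset.mem_of_mem_filter this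

theorem card_gridC_le {n δ : ℕ} {b : ℕ → Polynomial ℤ} (h : ∀ i < n, (b i).natDegree ≤ δ) :
    (gridC n b).card ≤ δ ^ n := by
  unfold gridC
  rw [card_grid]
  calc ∏ i ∈ range n, ((b i).aroots ℂ).card ≤ ∏ _i ∈ range n, δ :=
        Finset.prod_le_prod' fun i hi => ((Polynomial.card_roots' _).trans
          Polynomial.natDegree_map_le).trans (h i (Finset.mem_range.1 hi))
    _ = δ ^ n := by simp

theorem card_gridR_le {n δ : ℕ} {b : ℕ → Polynomial ℤ} (h : ∀ i < n, (b i).natDegree ≤ δ) :
    (gridR n b).card ≤ δ ^ n := by
  unfold gridR
  rw [card_grid]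
  calc ∏ i ∈ range n, ((b i).aroots ℝ).card ≤ ∏ _i ∈ range n, δ :=
        Finset.prod_le_prod' fun i hi => ((Polynomial.card_roots' _).trans
          Polynomial.natDegree_map_le).trans (h i (Finset.mem_range.1 hi))
    _ = δ ^ n := by simp

theorem merge_zero [Zero K] {R : ℕ → Multiset K} {n : ℕ} {z : ℕ → K} (hz : z ∈ grid R n) :
    merge n z 0 = z := by
  funext i
  unfold merge
  split_ifs with hi
  · rfl
  · exact ((mem_grid.1 hz).2 i (by omega)).symm

end Crest.Agent.R316
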