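import Crest.Agent.R316.Grid
import Crest.Agent.R316.Newton
import Crest.Agent.R316.NewtonCH
/-!
# Elementary symmetric functions of the values of a polynomial on a grid (task R316-GridSym)

`δ0 ≥ deg h` (`CHP.deg`), `δ = 2 δ0 + 2` (even, `> deg h`), `Δ i = leadingCoeff (b i)`, `s = (∏ i<n, Δ i) ^ δ > 0`, `D = Dg ^ n` with `Dg ≥ natDegree (b i)` (`CHU.deg₂`).
For `j ≥ 1` let `B = j δ` (so `deg (h^j) ≤ B - 1`) and
`p j = ∑ w < B^n, cf 0 n (dig B w) (h^j) * C (∏ i<n, Δ i ^ (B - 1 - dig B w i) * spowD (b i) (natDegree) (dig B w i))`.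
By `expand` (with `upd 0 v (fun i : Fin n => z i) = merge n z v`, `δ + 1 := B`), `spowD_eq` and `sum_grid_prod`,
`aeval v (p j) = (∏ Δ i)^B ∑_{z ∈ gridC} h(merge z v)^j = ∑_z (s h(merge z v))^j`.  `E k = newton D p k`; `map_newton`, `newton_eq`.
-/
set_option autoImplicit false
namespace Crest.Agent.R316
open Crest.Agent.PTime MvPolynomial Finset
variable {α : Type} [Enc α]

namespace GridSymA

/-- scaled power sums -/
noncomputable def ps (n δ : ℕ) (b : ℕ → Polynomial ℤ) (h : MP) (j : ℕ) : MP :=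
  ∑ w ∈ range ((j * δ) ^ n), cf 0 n (dig (j * δ) w) (h ^ j) *
    C (∏ i ∈ range n, (b i).leadingCoeff ^ (j * δ - 1 - dig (j * δ) w i) *
      spowD (b i) (b i).natDegree (dig (j * δ) w i))

theorem upd_eq (n : ℕ) (z v : ℕ → ℂ) : upd 0 v (fun i : Fin n => z i) = merge n z v := by
  funext i
  unfold upd merge
  by_cases hi : i < n
  · rw [dif_pos ⟨Nat.zero_le _, by omega⟩, if_pos hi]; rfl
  · rw [dif_neg (by omega), if_neg hi]

theorem aeval_ps {n δ : ℕ} {b : ℕ → Polynomial ℤ} {h : MP} (hb : Valid n b)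
    (hδ : h.totalDegree < δ) {j : ℕ} (hj : 1 ≤ j) (v : ℕ → ℂ) :
    aeval v (ps n δ b h j) = (((gridC n b).map fun z =>
      (((∏ i ∈ range n, (b i).leadingCoeff) ^ δ : ℤ) : ℂ) * aeval (merge n z v) h).map (· ^ j)).sum := by
  obtain ⟨B, hB⟩ : ∃ B, j * δ = B + 1 := ⟨j * δ - 1, by
    have : 0 < j * δ := Nat.mul_pos hj (by omega)
    omega⟩
  have hdeg : (h ^ j).totalDegree ≤ B := by
    have h1 := totalDegree_pow h j
    have h2 : j * (h.totalDegree + 1) ≤ j * δ := Nat.mul_le_mul_left _ hδ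
    rw [mul_add, mul_one] at h2
    omega
  have e1 : ∀ z : ℕ → ℂ, ((((∏ i ∈ range n, (b i).leadingCoeff) ^ δ : ℤ) : ℂ) *
      aeval (merge n z v) h) ^ j = ∑ w ∈ range ((B + 1) ^ n),
        aeval v (cf 0 n (dig (B + 1) w) (h ^ j)) *
          ∏ i ∈ range n, (((b i).leadingCoeff : ℂ) ^ (B + 1) * z i ^ dig (B + 1) w i) := by
    intro z
    rw [mul_pow, ← map_pow, ← upd_eq, expand 0 n v _ hdeg, mul_sum]
    refine sum_congr rfl fun w _ => ?_
    rw [prod_mul_distrib, prod_pow, ← hB, prod_range fun i => z i ^ dig (j * δ) w i]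
    push_cast
    ring
  rw [Multiset.map_map]
  simp only [Function.comp_def, e1]
  rw [Multiset.sum_map_sum, ps, hB, map_sum]
  refine sum_congr rfl fun w _ => ?_
  rw [Multiset.sum_map_mul_left, gridC,
    sum_grid_prod _ _ fun i r => ((b i).leadingCoeff : ℂ) ^ (B + 1) * r ^ dig (B + 1) w i, map_mul,
    aeval_C]
  congr 1
  rw [eq_intCast, Int.cast_prod]
  refine prod_congr rfl fun i hi => ?_
  have hd : dig (B + 1) w i < B + 1 := dig_lt (by omega) _ _
  rw [Int.cast_mul, spowD_eq (hb i (mem_range.1 hi)), Multiset.sum_map_mul_left, Int.cast_pow,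
    ← mul_assoc, ← pow_add]
  congr 2
  omega

end GridSymA
open GridSymA

theorem gridSym {n : α → ℕ} {b : α → ℕ → Polynomial ℤ} (G : GridF n b) {h : α → MP} (hh : CHP h) :
    ∃ (D : α → ℕ) (E : α → ℕ → MP) (s : α → ℤ), PT D ∧ CHP (fun x : α × ℕ => E x.1 x.2) ∧ CHZ s ∧
      ∀ a, Valid (n a) (b a) → 0 < s a ∧ (gridC (n a) (b a)).card ≤ D a ∧
        ∀ k ≤ D a, ∀ v : ℕ → ℂ, aeval v (E a k) = (((D a).factorial ^ (D a + 1) : ℕ) : ℂ) *
          ((gridC (n a) (b a)).map fun z => (s a : ℂ) * aeval (merge (n a) z v) (h a)).esymm k := by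
  obtain ⟨δ0, hδ0, hδ0'⟩ := hh.deg
  obtain ⟨Dg, hDg, hDg'⟩ := CHU.deg₂ G.chu G.ptn
  have hn := G.ptn
  have hnb := G.pbn
  have hD : PT fun a => Dg a ^ n a := hDg.pow hn hnb
  have hlc : CHZ fun x : α × ℕ => (b x.1 x.2).leadingCoeff := CHZ.leadingCoeff G.chu
  have hp : CHP fun x : α × ℕ => ps (n x.1) (2 * δ0 x.1 + 2) (b x.1) (h x.1) x.2 := by
    unfold ps
    refine CHP.sum_range (PT.pow (by fun_prop) (by fun_prop) (hnb.comp (by fun_prop))) ?_
    refine CHP.mul ?_ (CHP.C ?_)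
    · refine CHP.cf (by fun_prop) (by fun_prop) (by fun_prop) (hnb.comp (by fun_prop))
        (by fun_prop) ?_
      exact (hh.comp (by fun_prop)).pow (by fun_prop)
    · refine CHZ.prod_range (by fun_prop) (CHZ.mul ?_ ?_)
      · exact (hlc.comp (g := fun x : ((α × ℕ) × ℕ) × ℕ => (x.1.1.1, x.2)) (by fun_prop)).pow
          (by fun_prop)
      · exact CHZ.spowD (G.chu.app₂ (by fun_prop) (by fun_prop)) (by fun_prop)
  refine ⟨fun a => Dg a ^ n a,
    fun a k => newton (Dg a ^ n a) (ps (n a) (2 * δ0 a + 2) (b a) (h a)) k,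
    fun a => (∏ i ∈ range (n a), (b a i).leadingCoeff) ^ (2 * δ0 a + 2), hD, ?_, ?_,
    fun a ha => ⟨?_, card_gridC_le (hDg' a), fun k hk v => ?_⟩⟩
  · refine CHP.newton (p := fun (x : α × ℕ) j => ps (n x.1) (2 * δ0 x.1 + 2) (b x.1) (h x.1) j)
      (hD.comp (by fun_prop)) (by fun_prop) ?_
    exact hp.comp (g := fun x : (α × ℕ) × ℕ => (x.1.1, x.2)) (by fun_prop)
  · exact (CHZ.prod_range (f := fun a i => (b a i).leadingCoeff) hn hlc).pow (by fun_prop)
  · refine Even.pow_pos ⟨δ0 a + 1, by ring⟩ (prod_ne_zero_iff.2 fun i hi => ?_)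
    exact Polynomial.leadingCoeff_ne_zero.2 (ha i (mem_range.1 hi))
  · refine (map_newton (aeval v : MP →ₐ[ℤ] ℂ).toRingHom _ _ _).trans ?_
    exact newton_eq _ (fun j hj _ => aeval_ps ha (by have := hδ0' a; omega) hj v) hk

end Crest.Agent.R316
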