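import Crest.Agent.R316.Dig
/-!
# A small family of `𝔽₂`-linear functionals separating many long vectors from `0` (task R316-Hash)

Arithmetic in `𝔽₂[X] / (X^κ - ρ)` on lists of `κ` Booleans: `mulX ρ v = zipWith xor (false :: v.dropLast) (if v.getLastD false then ρ else replicate κ false)`,
`mul ρ a b = b.reverse.foldl (fun acc bit => if bit then zipWith xor (mulX ρ acc) a else mulX ρ acc) (replicate κ false)`,
`pw ρ t = t.bits.reverse.foldl (fun acc bit => if bit then mulX ρ (mul ρ acc acc) else mul ρ acc acc) one`; all `PT` (`PT.foldl_bdd`, lengths stay `κ`).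
`Hb (κ, s, t, i) = (pw (bits of s) t).getD i false`.  Let `K = GaloisField 2 κ` (`κ ≠ 0`; for `κ = 0` the set `S` is empty), `τ_s(X) = ∑_{t<L, τ s t} X^t ≠ 0` in `K[X]`.  The product has degree
`≤ card S * L < 2^κ = card K`, so some `ω ∈ K` is a root of no `τ_s` (`Polynomial.exists_eval_ne_zero_of_natDegree_lt_card`).  `ω` is a root of a monic polynomial of degree exactly `κ` over `ZMod 2`
(`X^(κ - e) * minpoly`, `minpoly.natDegree_le`), so `ω^κ = val ρ` with `val v = ∑ i, v_i ω^i` (characteristic 2).  Then `val (mulX v) = ω val v`, `val (mul a b) = val a val b`, `val (pw t) = ω^t`.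
If all `κ` counts were even then `τ_s(ω) = ∑_t val (pw t) = ∑_i count_i ω^i = 0`.  (No linear independence is needed.)
-/
set_option autoImplicit false
namespace Crest.Agent.R316
open Crest.Agent.PTime Finset

namespace HashA

/-- multiplication by `X` -/
def mulX (ρ v : List Bool) : List Bool :=
  List.zipWith xor (false :: v).dropLast (ρ.map fun c => c && v.getLast?.getD false)

/-- one step of the multiplication -/
def mulS (ρ a acc : List Bool) (bit : Bool) : List Bool :=
  List.zipWith xor (mulX ρ acc) (a.map fun c => c && bit)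

/-- multiplication -/
def mul (ρ a b : List Bool) : List Bool := b.reverse.foldl (mulS ρ a) (ρ.map fun _ => false)

/-- one step of the exponentiation -/
def pwS (ρ acc : List Bool) (bit : Bool) : List Bool :=
  cond bit (mulX ρ (mul ρ acc acc)) (mul ρ acc acc)

/-- powers of `X` -/
def pw (ρ l : List Bool) : List Bool :=
  l.reverse.foldl (pwS ρ) (true :: ρ.map fun _ => false).dropLast

theorem len_mulX (ρ v : List Bool) : (mulX ρ v).length = min v.length ρ.length := by
  simp [mulX]

theorem len_mul_le (ρ a b : List Bool) : (mul ρ a b).length ≤ ρ.length := by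
  rw [mul, List.foldl_reverse]
  cases b with
  | nil => simp
  | cons x b => simp [mulS, len_mulX]

theorem len_mul {ρ a : List Bool} (h : a.length = ρ.length) (b : List Bool) :
    (mul ρ a b).length = ρ.length := by
  rw [mul, List.foldl_reverse]
  induction b with
  | nil => simp
  | cons x b ih =>
    rw [List.foldr_cons, mulS, List.length_zipWith, len_mulX, ih, List.length_map, h]; simp

theorem len_pw (ρ l : List Bool) : (pw ρ l).length = ρ.length := by
  rw [pw, List.foldl_reverse]
  induction l with
  | nil => simp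
  | cons x l ih =>
    rw [List.foldr_cons, pwS]
    cases x
    · exact len_mul ih _
    · rw [cond_true, len_mulX, len_mul ih, min_self]

variable {α : Type} [Enc α]

theorem pt_mulX {ρ v : α → List Bool} (h1 : PT ρ) (h2 : PT v) : PT fun a => mulX (ρ a) (v a) := by
  unfold mulX; fun_prop

theorem pt_mul {ρ x y : α → List Bool} (h1 : PT ρ) (h2 : PT x) (h3 : PT y) :
    PT fun a => mul (ρ a) (x a) (y a) := by
  refine PT.foldl_bdd (f := fun a => mulS (ρ a) (x a)) ?_ (by fun_prop) (by fun_prop)
    (B := fun a => 4 * (ρ a).length + 1) (by fun_prop) (fun a s => s.length ≤ (ρ a).length)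
    (fun a => by simp) (fun a s b _ _ => by simp [mulS, len_mulX]) fun a s hs => ?_
  · have := pt_mulX (α := α × List Bool × Bool) (ρ := fun p => ρ p.1) (v := fun p => p.2.1)
      (by fun_prop) (by fun_prop)
    unfold mulS; fun_prop
  · have := sz_bits_le s; omega

theorem pt_pw {ρ l : α → List Bool} (h1 : PT ρ) (h2 : PT l) : PT fun a => pw (ρ a) (l a) := by
  refine PT.foldl_bdd (f := fun a => pwS (ρ a)) ?_ (by fun_prop) (by fun_prop)
    (B := fun a => 4 * (ρ a).length + 1) (by fun_prop) (fun a s => s.length ≤ (ρ a).length)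
    (fun a => by simp) (fun a s b _ _ => ?_) fun a s hs => ?_
  · have h3 := pt_mul (α := α × List Bool × Bool) (ρ := fun p => ρ p.1) (x := fun p => p.2.1)
      (y := fun p => p.2.1) (by fun_prop) (by fun_prop) (by fun_prop)
    have h4 := pt_mulX (α := α × List Bool × Bool) (ρ := fun p => ρ p.1) (by fun_prop) h3
    exact PT.cond (by fun_prop) h4 h3
  · cases b
    · exact len_mul_le _ _ _
    · simp [pwS, len_mulX]
  · have := sz_bits_le s; omega

variable {K : Type} [CommRing K] [CharP K 2]

/-- value of a list of coefficients -/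
def val (ω : K) (v : List Bool) : K := v.foldr (fun b s => cond b 1 0 + ω * s) 0

omit [CharP K 2] in
@[simp] theorem val_nil (ω : K) : val ω [] = 0 := rfl

omit [CharP K 2] in
@[simp] theorem val_cons (ω : K) (b : Bool) (v : List Bool) :
    val ω (b :: v) = cond b 1 0 + ω * val ω v := rfl

theorem cond_xor (a b : Bool) : (cond (xor a b) 1 0 : K) = cond a 1 0 + cond b 1 0 := by
  cases a <;> cases b <;> simp [CharTwo.add_self_eq_zero]

theorem val_xor (ω : K) : ∀ a b : List Bool, a.length = b.length →
    val ω (List.zipWith xor a b) = val ω a + val ω b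
  | [], [], _ => by simp
  | [], _ :: _, h => by simp at h
  | _ :: _, [], h => by simp at h
  | x :: a, y :: b, h => by
    rw [List.zipWith_cons_cons, val_cons, val_cons, val_cons, cond_xor,
      val_xor ω a b (by simpa using h)]
    ring

omit [CharP K 2] in
theorem val_and (ω : K) (a : List Bool) (b : Bool) :
    val ω (a.map fun c => c && b) = cond b 1 0 * val ω a := by
  induction a with
  | nil => simp
  | cons x a ih => rw [List.map_cons, val_cons, val_cons, ih]; cases x <;> cases b <;> simp

omit [CharP K 2] in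
theorem val_false (ω : K) (a : List Bool) : val ω (a.map fun _ => false) = 0 := by
  simpa using val_and ω a false

omit [CharP K 2] in
theorem val_concat (ω : K) (l : List Bool) (b : Bool) :
    val ω (l ++ [b]) = val ω l + ω ^ l.length * cond b 1 0 := by
  induction l with
  | nil => simp
  | cons x l ih => rw [List.cons_append, val_cons, val_cons, ih, List.length_cons]; ring

omit [CharP K 2] in
theorem val_eq_sum (ω : K) (v : List Bool) :
    val ω v = ∑ i ∈ range v.length, cond (v.getD i false) 1 0 * ω ^ i := by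
  induction v with
  | nil => simp
  | cons x v ih =>
    rw [val_cons, ih, List.length_cons, sum_range_succ', mul_sum, add_comm]
    simp only [List.getD_cons_succ, List.getD_cons_zero, pow_zero, mul_one]
    congr 1
    exact sum_congr rfl fun i _ => by ring

theorem val_mulX {ω : K} {ρ v : List Bool} (h0 : ρ ≠ []) (hρ : ω ^ ρ.length = val ω ρ)
    (h : v.length = ρ.length) : val ω (mulX ρ v) = ω * val ω v := by
  have hv : v ≠ [] := by rintro rfl; exact h0 (List.length_eq_zero_iff.1 h.symm)
  obtain ⟨l, b, rfl⟩ : ∃ l b, v = l ++ [b] := ⟨_, _, (List.dropLast_append_getLast hv).symm⟩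
  rw [mulX, val_xor _ _ _ (by simpa using h), val_and, ← hρ, ← h, val_concat, ← List.cons_append,
    List.dropLast_concat]
  simp only [val_cons, List.getLast?_concat, Option.getD_some, List.length_append,
    List.length_singleton, cond_false]
  ring

theorem val_mul {ω : K} {ρ a : List Bool} (h0 : ρ ≠ []) (hρ : ω ^ ρ.length = val ω ρ)
    (h : a.length = ρ.length) (b : List Bool) : val ω (mul ρ a b) = val ω a * val ω b := by
  induction b with
  | nil => rw [mul, List.reverse_nil, List.foldl_nil, val_false, val_nil, mul_zero]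
  | cons x b ih =>
    have e : mul ρ a (x :: b) = mulS ρ a (mul ρ a b) x := by
      simp only [mul, List.foldl_reverse, List.foldr_cons]
    rw [e, mulS, val_xor _ _ _ (by simp [len_mulX, len_mul h, h]), val_mulX h0 hρ (len_mul h b), ih,
      val_and, val_cons]
    ring

theorem val_pw {ω : K} {ρ : List Bool} (h0 : ρ ≠ []) (hρ : ω ^ ρ.length = val ω ρ) (l : List Bool) :
    val ω (pw ρ l) = ω ^ ofBits l := by
  induction l with
  | nil =>
    obtain ⟨r, b, rfl⟩ : ∃ l b, ρ = l ++ [b] := ⟨_, _, (List.dropLast_append_getLast h0).symm⟩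
    simp only [pw, List.reverse_nil, List.foldl_nil, List.map_append, List.map_cons, List.map_nil,
      ← List.cons_append, List.dropLast_concat, val_cons, val_false]
    simp
  | cons x l ih =>
    have e : pw ρ (x :: l) = pwS ρ (pw ρ l) x := by
      simp only [pw, List.foldl_reverse, List.foldr_cons]
    have e2 : ofBits (x :: l) = Nat.bit x (ofBits l) := rfl
    rw [e, e2, pwS]
    cases x
    · rw [cond_false, val_mul h0 hρ (len_pw _ _), ih, Nat.bit_val, ← pow_add]
      congr 1; simp; ring
    · rw [cond_true, val_mulX h0 hρ (len_mul (len_pw _ _) _), val_mul h0 hρ (len_pw _ _), ih,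
        Nat.bit_val, ← pow_add, ← pow_succ']
      congr 1; simp; ring

/-- the list of the binary digits -/
def bitsOf (κ s : ℕ) : List Bool := (List.range κ).map fun i => dig 2 s i == 1

theorem exists_rho {κ : ℕ} (hκ : κ ≠ 0) (ω : GaloisField 2 κ) :
    ∃ s < 2 ^ κ, ω ^ κ = val ω (bitsOf κ s) := by
  set χ := (Algebra.lmul (ZMod 2) (GaloisField 2 κ) ω).charpoly with hχ
  have h1 : χ.natDegree = κ := by rw [hχ, LinearMap.charpoly_natDegree, GaloisField.finrank 2 hκ]
  have h2 : Polynomial.aeval ω χ = 0 := Algebra.aeval_self_charpoly_lmul ω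
  have h3 : χ.Monic := LinearMap.charpoly_monic _
  obtain ⟨s, hs, hd⟩ := exists_dig 2 κ (fun i => (χ.coeff i).val) fun i _ => ZMod.val_lt _
  refine ⟨s, hs, ?_⟩
  rw [h3.as_sum, h1] at h2
  simp only [map_add, map_pow, Polynomial.aeval_X, map_sum, map_mul, Polynomial.aeval_C] at h2
  rw [eq_neg_of_add_eq_zero_left h2, CharTwo.neg_eq, val_eq_sum]
  have hl : (bitsOf κ s).length = κ := by simp [bitsOf]
  rw [hl]
  refine sum_congr rfl fun i hi => ?_
  have hi' := mem_range.1 hi
  congr 1
  have e : (bitsOf κ s).getD i false = ((χ.coeff i).val == 1) := by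
    simp [bitsOf, List.getD_eq_getElem?_getD, hi', hd i hi']
  rw [e]
  generalize χ.coeff i = c
  fin_cases c
  · exact map_zero _
  · exact map_one _

end HashA
open HashA

theorem hash : ∃ Hb : U × ℕ × ℕ × ℕ → Prop, PT Hb ∧
    ∀ (κ L : ℕ) (ι : Type) (S : Finset ι) (τ : ι → ℕ → Prop), (∀ s ∈ S, ∃ t < L, τ s t) →
      S.card * L < 2 ^ κ →
      ∃ ρ < 2 ^ κ, ∀ s ∈ S, ∃ i < κ, Odd (cnt L fun t => τ s t ∧ Hb (⟨κ⟩, ρ, t, i)) := by
  classical
  refine ⟨fun x => (pw (bitsOf x.1.val x.2.1) x.2.2.1.bits).getD x.2.2.2 false = true, ?_, ?_⟩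
  · have h1 : PT fun x : U × ℕ × ℕ × ℕ => bitsOf x.1.val x.2.1 := by
      unfold bitsOf; fun_prop
    have h2 := pt_pw h1 (l := fun x : U × ℕ × ℕ × ℕ => x.2.2.1.bits) (by fun_prop)
    fun_prop
  intro κ L ι S τ hτ hcard
  rcases S.eq_empty_or_nonempty with rfl | ⟨s0, hs0⟩
  · exact ⟨0, by positivity, by simp⟩
  have hκ : κ ≠ 0 := by
    rintro rfl
    obtain ⟨t, ht, -⟩ := hτ s0 hs0
    have : 0 < S.card * L := Nat.mul_pos (card_pos.2 ⟨s0, hs0⟩) (by omega)
    omega
  let P : ι → Polynomial (GaloisField 2 κ) := fun s =>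
    ∑ t ∈ range L, if τ s t then Polynomial.X ^ t else 0
  have hP : ∀ s ∈ S, P s ≠ 0 := by
    intro s hs h
    obtain ⟨t, ht, hst⟩ := hτ s hs
    have := congrArg (Polynomial.coeff · t) h
    simp only [P, Polynomial.finsetSum_coeff, Polynomial.coeff_zero] at this
    rw [sum_eq_single_of_mem t (mem_range.2 ht)] at this
    · simp [hst] at this
    · intro b _ hb
      split_ifs
      · simp [Polynomial.coeff_X_pow, hb.symm]
      · simp
  have hdeg : (∏ s ∈ S, P s).natDegree ≤ S.card * L := by
    refine (Polynomial.natDegree_prod_le _ _).trans (sum_le_card_nsmul _ _ _ fun s _ => ?_)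
    refine Polynomial.natDegree_sum_le_of_forall_le _ _ fun t ht => ?_
    split_ifs
    · simpa using (mem_range.1 ht).le
    · simp
  obtain ⟨ω, hω⟩ := Polynomial.exists_eval_ne_zero_of_natDegree_lt_card (∏ s ∈ S, P s)
    (prod_ne_zero_iff.2 hP) (by
      rw [← Nat.cast_card, GaloisField.card 2 κ hκ]
      exact_mod_cast hdeg.trans_lt hcard)
  obtain ⟨ρ, hρ, hval⟩ := exists_rho hκ ω
  refine ⟨ρ, hρ, fun s hs => ?_⟩
  by_contra hcon
  push Not at hcon
  rw [Polynomial.eval_prod, prod_ne_zero_iff] at hω
  refine hω s hs ?_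
  have hl : (bitsOf κ ρ).length = κ := by simp [bitsOf]
  have h0 : bitsOf κ ρ ≠ [] := fun h => hκ (by rw [← hl, h]; rfl)
  have hp : ∀ t : ℕ, ω ^ t =
      ∑ i ∈ range κ, cond ((pw (bitsOf κ ρ) t.bits).getD i false) 1 0 * ω ^ i := by
    intro t
    have := val_pw h0 (by rw [hl]; exact hval) t.bits
    rw [ofBits_bits, val_eq_sum, len_pw, hl] at this
    exact this.symm
  have e : (P s).eval ω = ∑ i ∈ range κ, ((cnt L fun t => τ s t ∧
      (pw (bitsOf κ ρ) t.bits).getD i false = true : ℕ) : GaloisField 2 κ) * ω ^ i := by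
    simp only [P, Polynomial.eval_finsetSum, cnt_eq_sum, Nat.cast_sum, sum_mul]
    rw [sum_comm]
    refine sum_congr rfl fun t _ => ?_
    by_cases h : τ s t
    · rw [if_pos h, Polynomial.eval_pow, Polynomial.eval_X, hp t]
      refine sum_congr rfl fun i _ => ?_
      cases (pw (bitsOf κ ρ) t.bits).getD i false <;> simp [h]
    · simp [h]
  rw [e]
  refine sum_eq_zero fun i hi => ?_
  have := Nat.not_odd_iff_even.1 (hcon i (mem_range.1 hi))
  rw [(CharP.cast_eq_zero_iff _ 2 _).2 this.two_dvd, zero_mul]

end Crest.Agent.R316
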