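import Crest.Agent.R316.Elim
import Crest.Agent.R316.Crit
/-!
# The relation between the penalty `T` and the minimum value (task R316-InnerChi)

`exists_deg`: `CHP.deg₂` for `X τ * pderiv (min i N) F`, take `d = 2 δ + 1`.
`innerChi`: `τ = n + m`, `g i = - (X τ * pderiv (n + min i m) F)`, `h = pen n m d (X τ) F`; `elim` with `lo = n` gives `D`, `E`.  `Km` = a bound for the degrees of
`E k`, `k ≤ D`.  `A k j = sub n X (cf τ 1 (fun _ => k) (E (D - j)))`.  For `x`, `T`, a minimiser `y0` put `v = update (trunc n x) τ T`; by `dep`,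
`aeval (upd n v y) F = aeval (upd n x y) F`; `crit` gives the system at `upd n v y0`; `aeval (upd n v y0) (E k) = aeval v (E k) = ∑_l aeval v (cf τ 1 l (E k)) T^l`
(`expand_one`), and `aeval v (cf …) = aeval (trunc n x) (cf …)` (`aeval_cf_congr`).  Reindex `k ↦ D - k` (`Finset.sum_range_reflect`).  `cf_C_zero`.
-/
set_option autoImplicit false
namespace Crest.Agent.R316
open Crest.Agent.PTime MvPolynomial Finset
variable {α : Type} [Enc α]

theorem InnerChiA.deg_pderiv (i : ℕ) (f : MP) : (pderiv i f).totalDegree ≤ f.totalDegree := by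
  conv_lhs => rw [f.as_sum, map_sum]
  refine totalDegree_finsetSum_le fun β hβ => ?_
  rw [pderiv_monomial]
  refine (totalDegree_monomial_le _ _).trans (le_trans ?_ (le_totalDegree hβ))
  exact Finsupp.sum_le_sum_index tsub_le_self (fun _ _ => monotone_id) (fun _ _ => rfl)

theorem exists_deg {N : α → ℕ} {F : α → MP} (hN : PT N) (hb : PB N) (hF : CHP F) :
    ∃ d : α → ℕ, PT d ∧ ∀ a, Odd (d a) ∧
      ∀ i < N a, ∀ τ, (X τ * pderiv i (F a)).totalDegree < d a := by
  obtain ⟨δ, hδ, hδ'⟩ := hF.deg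
  refine ⟨fun a => 2 * δ a + 3, by fun_prop, fun a => ⟨⟨δ a + 1, by ring⟩, fun i _ τ => ?_⟩⟩
  have h1 : (pderiv i (F a)).totalDegree ≤ (F a).totalDegree := InnerChiA.deg_pderiv i (F a)
  have h2 := totalDegree_mul (X τ : MP) (pderiv i (F a))
  have h3 := hδ' a
  rw [totalDegree_X] at h2
  beta_reduce
  omega

theorem innerChi {n m : α → ℕ} {F : α → MP} (H : Good n m F) :
    ∃ (d Km D : α → ℕ) (A : α → ℕ → ℕ → MP), PT d ∧ PT Km ∧ PT D ∧
      CHP (fun x : (α × ℕ) × ℕ => A x.1.1 x.1.2 x.2) ∧ ∀ a, Odd (d a) ∧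
      (∀ i < n a + m a, ∀ τ, (X τ * pderiv i (F a)).totalDegree < d a) ∧
      (∀ k j (v w : ℕ → ℝ), (∀ i < n a, v i = w i) → aeval v (A a k j) = aeval w (A a k j)) ∧
      ∀ x : ℕ → ℝ, aeval x (A a 0 (D a)) ≠ 0 ∧
        Rel (d a) (fun y : Fin (m a) → ℝ => aeval (upd (n a) x y) (F a)) (Km a) (D a)
          (fun k j => aeval x (A a k j)) := by
  have hn := H.ptn
  have hm := H.ptm
  have hnb := H.pbn
  have hmb := H.pbm
  have hF := H.pos.chp
  obtain ⟨d, hd, hd'⟩ := exists_deg (hn.add hm) (hnb.add hmb) hF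
  have hg : CHP fun x : α × ℕ =>
      - (X (n x.1 + m x.1) * pderiv (n x.1 + min x.2 (m x.1)) (F x.1) : MP) := by
    refine (CHP.mul (by fun_prop) (CHP.pderiv (by fun_prop) ?_ (hF.comp (by fun_prop)))).neg
    exact (hnb.comp (by fun_prop)).add (PB.min_right (hmb.comp (by fun_prop)))
  have hh : CHP fun a => pen (n a) (m a) (d a) (X (n a + m a)) (F a) :=
    CHP.pen hn hm hd (by fun_prop) hF
  obtain ⟨D, E, hD, hE, H'⟩ := elim (lo := n) (m := m) (d := d)
    (g := fun a i => - (X (n a + m a) * pderiv (n a + min i (m a)) (F a) : MP)) hn hnb hm hmb hd hg hh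
    (fun a i hi => by
      rw [totalDegree_neg]
      exact (hd' a).2 _ (by rw [min_eq_left hi.le]; omega) _)
  obtain ⟨Km, hKm, hKm'⟩ := CHP.deg₂ hE (N := fun a => D a + 1) (by fun_prop)
  refine ⟨d, Km, D, fun a k j => sub (n a) X (cf (n a + m a) 1 (fun _ => k) (E a (D a - j))), hd, hKm,
    hD, ?_, fun a => ⟨(hd' a).1, (hd' a).2, fun k j v w hvw => ?_, fun x => ⟨?_, ?_⟩⟩⟩
  · refine CHP.trunc (by fun_prop) (hnb.comp (by fun_prop)) ?_
    refine CHP.cf (by fun_prop) ((hnb.comp (by fun_prop)).add (hmb.comp (by fun_prop))) (by fun_prop)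
      (by fun_prop) (by fun_prop) ?_
    exact hE.app₂ (by fun_prop) (by fun_prop)
  · rw [aeval_trunc, aeval_trunc]
    congr 2
    funext i
    unfold trunc
    split_ifs with hi
    · exact hvw i hi
    · rfl
  · obtain ⟨c, hc, hc'⟩ := (H' a).1
    beta_reduce
    rw [Nat.sub_self, hc', cf_C_zero, aeval_trunc, aeval_C]
    simpa using hc
  · intro T _ y0 hy0
    let v : ℕ → ℝ := Function.update (trunc (n a) x) (n a + m a) T
    have hv : ∀ y : Fin (m a) → ℝ, aeval (upd (n a) v y) (F a) = aeval (upd (n a) x y) (F a) := by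
      intro y
      refine H.pos.dep a _ _ fun i hi => ?_
      unfold upd
      split_ifs with h
      · rfl
      · have : i < n a := by omega
        simp only [v]
        rw [Function.update_of_ne (by omega), trunc, if_pos this]
    have hfun : (fun y : Fin (m a) → ℝ => aeval (upd (n a) v y) (F a)) =
        fun y => aeval (upd (n a) x y) (F a) := funext hv
    have hT : upd (n a) v y0 (n a + m a) = T := by
      rw [upd_of_not_mem _ _ _ (by omega)]
      simp [v]
    have hmin : IsLocalMin (penR (d a) T fun y => aeval (upd (n a) v y) (F a)) y0 := by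
      rw [hfun]
      exact Filter.Eventually.of_forall hy0
    have key := (H' a).2.2 (upd (n a) v y0) fun i hi => by
      have := crit (n a) (d a) T (F a) v hmin ⟨i, hi⟩
      rw [← upd_of_mem (n a) v y0 ⟨i, hi⟩] at this
      rw [this, min_eq_left hi.le, map_neg, map_mul, aeval_X, hT, neg_mul]
    rw [aeval_pen, aeval_X, hT, hfun, ← sum_range_reflect] at key
    rw [sum_comm, ← key]
    refine sum_congr rfl fun j hj => ?_
    have hj' := mem_range.1 hj
    have e1 : D a + 1 - 1 - j = D a - j := by omega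
    have e2 : D a - (D a - j) = j := by omega
    rw [e1, e2, (H' a).2.1 _ (upd (n a) v y0) v fun i hi => upd_of_not_mem _ _ _ hi,
      expand_one (n a + m a) v (hKm' a (D a - j) (by omega)), sum_mul]
    refine sum_congr rfl fun k _ => ?_
    have e3 : v (n a + m a) = T := by simp [v]
    beta_reduce
    rw [e3, aeval_trunc, aeval_cf_congr (n a + m a) 1 _ _ (v := v) (w := trunc (n a) x) fun i hi =>
      Function.update_of_ne (by omega) _ _]

end Crest.Agent.R316
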