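import Crest.Agent.R316.Crit
/-!
# Solvability is decided by one value of the penalty (task R316-InnerTest)

Let `μ T` be the minimum of `penR d T f` (`T ≥ 0`, `exists_min`); it is nondecreasing in `T`, and `Rel` holds at `(T, μ T)`.
(1) For `z ≥ R + 2`: `|∑_j a K j z^j| ≥ |a K e| (z^e - R ∑_{j<e} z^j) ≥ |a K e|` (geometric sum, `R ≤ z - 1`).
(2) For `T ≥ T0`: `∑_k ∑_j a k j T^k C^j ≠ 0`, since the terms `k < K` are at most `(Km+1)(D+1) R |a K e| C^D T^(K-1) < |a K e| T^K`.
(→) If `f y1 = 0` then `μ n ≤ ∑ y1^(d+1)` is bounded and monotone, with limit `μ∞`; `lead_limit` and (1) give `μ∞ < R + 2 ≤ C`;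
`μ T0 ≤ μ∞`.
(←) If `f` has no zero: on the compact set `S = {∑ y^(d+1) ≤ C}` we have `f ≥ η > 0`, so `μ T1 ≥ C` for a large `T1 ≥ T0`.  Suppose `μ T0 < C`.
`μ` is continuous on `[T0, T1]` (concave as an infimum of affine functions: `ConcaveOn.continuousOn_interior`/`ConcaveOn.continuousOn` on `Ioi 0`; or directly: the set
`{T ∈ [T0,T1] | μ T < C}` is open and, as `μ T ≠ C` by (2), equal to the closed set `{T | ∃ y ∈ S, penR T y ≤ C}`; connectedness), so `μ T = C` for some
`T ≥ T0`, contradicting (2).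
-/
set_option autoImplicit false
namespace Crest.Agent.R316
open Finset Filter Topology

namespace InnerTestA

theorem sum_cut {n k : ℕ} (hk : k ≤ n) (φ : ℕ → ℝ) (h : ∀ j ≤ n, k < j → φ j = 0) :
    ∑ j ∈ range (n + 1), φ j = ∑ j ∈ range k, φ j + φ k := by
  rw [← sum_range_succ]
  refine (sum_subset (range_subset_range.2 (by omega)) fun j h1 h2 => ?_).symm
  exact h j (by have := mem_range.1 h1; omega) (by simpa using h2)

variable {Km D K e : ℕ} {a : ℕ → ℕ → ℝ} {R : ℝ}

theorem one_le (hT : Top Km D K e a) (hb : ∀ k ≤ Km, ∀ j ≤ D, |a k j| ≤ R * |a K e|) : 1 ≤ R := by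
  have h1 := hb K hT.1 e hT.2.1
  have h2 : 0 < |a K e| := abs_pos.2 hT.2.2.1
  nlinarith

theorem lead (hT : Top Km D K e a) (hb : ∀ k ≤ Km, ∀ j ≤ D, |a k j| ≤ R * |a K e|) {z : ℝ}
    (hz : R + 2 ≤ z) : |a K e| ≤ |∑ j ∈ range (D + 1), a K j * z ^ j| := by
  have hR := one_le hT hb
  have hz0 : 0 < z := by linarith
  have h2 : 0 < |a K e| := abs_pos.2 hT.2.2.1
  rw [sum_cut hT.2.1 _ fun j hj hej => by rw [hT.2.2.2 K hT.1 j hj (Or.inr ⟨rfl, hej⟩), zero_mul]]
  have h3 : |∑ j ∈ range e, a K j * z ^ j| ≤ R * |a K e| * ∑ j ∈ range e, z ^ j := by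
    rw [mul_sum]
    refine (abs_sum_le_sum_abs _ _).trans (sum_le_sum fun j hj => ?_)
    rw [abs_mul, abs_of_pos (pow_pos hz0 j)]
    exact mul_le_mul_of_nonneg_right
      (hb K hT.1 j (by have := mem_range.1 hj; have := hT.2.1; omega)) (pow_pos hz0 j).le
  have h4 := geom_sum_mul z e
  have h5 : 0 ≤ ∑ j ∈ range e, z ^ j := sum_nonneg fun j _ => (pow_pos hz0 j).le
  have h6 : R * ∑ j ∈ range e, z ^ j ≤ z ^ e - 1 := by nlinarith
  have h7 : |a K e * z ^ e| = |a K e| * z ^ e := by rw [abs_mul, abs_of_pos (pow_pos hz0 e)]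
  have h8 := abs_sub_abs_le_abs_add (a K e * z ^ e) (∑ j ∈ range e, a K j * z ^ j)
  rw [add_comm] at h8
  nlinarith

theorem ne_zero (hT : Top Km D K e a) (hb : ∀ k ≤ Km, ∀ j ≤ D, |a k j| ≤ R * |a K e|) {C T : ℝ}
    (hC : R + 2 ≤ C) (hT0 : 1 + (Km + 1) * (D + 1) * R * C ^ D ≤ T) :
    ∑ k ∈ range (Km + 1), ∑ j ∈ range (D + 1), a k j * T ^ k * C ^ j ≠ 0 := by
  have hR := one_le hT hb
  have hC1 : 1 ≤ C := by linarith
  have h2 : 0 < |a K e| := abs_pos.2 hT.2.2.1
  have hq : 0 ≤ (Km + 1) * (D + 1) * R * C ^ D := by positivity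
  have hT1 : 1 ≤ T := by linarith
  rw [sum_cut hT.1 _ fun k hk hKk => sum_eq_zero fun j hj => by
    rw [hT.2.2.2 k hk j (by have := mem_range.1 hj; omega) (Or.inl hKk), zero_mul, zero_mul]]
  have h3 : |a K e| * T ^ K ≤ |∑ j ∈ range (D + 1), a K j * T ^ K * C ^ j| := by
    have : ∑ j ∈ range (D + 1), a K j * T ^ K * C ^ j =
        (∑ j ∈ range (D + 1), a K j * C ^ j) * T ^ K := by
      rw [sum_mul]; exact sum_congr rfl fun j _ => by ring
    rw [this, abs_mul, abs_of_pos (by positivity : 0 < T ^ K)]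
    exact mul_le_mul_of_nonneg_right (lead hT hb hC) (by positivity)
  have h4 : |∑ k ∈ range K, ∑ j ∈ range (D + 1), a k j * T ^ k * C ^ j| < |a K e| * T ^ K := by
    rcases Nat.eq_zero_or_pos K with h0 | h0
    · rw [h0] at h2 ⊢; simpa using h2
    have h5 : |∑ k ∈ range K, ∑ j ∈ range (D + 1), a k j * T ^ k * C ^ j| ≤
        K * ((D + 1 : ℕ) * (R * |a K e| * T ^ (K - 1) * C ^ D)) := by
      refine (abs_sum_le_sum_abs _ _).trans ?_
      refine (sum_le_card_nsmul _ _ ((D + 1 : ℕ) * (R * |a K e| * T ^ (K - 1) * C ^ D))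
        fun k hk => ?_).trans (by rw [card_range, nsmul_eq_mul])
      refine (abs_sum_le_sum_abs _ _).trans ?_
      refine (sum_le_card_nsmul _ _ (R * |a K e| * T ^ (K - 1) * C ^ D)
        fun j hj => ?_).trans (by rw [card_range, nsmul_eq_mul])
      have hk' := mem_range.1 hk
      have hj' := mem_range.1 hj
      rw [abs_mul, abs_mul, abs_of_pos (by positivity : 0 < T ^ k),
        abs_of_pos (by positivity : 0 < C ^ j)]
      have k1 := hb k (by have := hT.1; omega) j (by omega)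
      have k2 : T ^ k ≤ T ^ (K - 1) := pow_le_pow_right₀ hT1 (by omega)
      have k3 : C ^ j ≤ C ^ D := pow_le_pow_right₀ hC1 (by omega)
      gcongr
    refine h5.trans_lt ?_
    have h6 : T ^ K = T * T ^ (K - 1) := by rw [← pow_succ']; congr 1; omega
    have h7 : (K : ℝ) ≤ Km + 1 := by exact_mod_cast hT.1.trans (Nat.le_succ _)
    have h8 : 0 < |a K e| * T ^ (K - 1) := by positivity
    have h9 : (K : ℝ) * ((D + 1) * R * C ^ D) ≤ (Km + 1) * ((D + 1) * R * C ^ D) := by gcongr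
    rw [h6]
    push_cast
    nlinarith
  intro h
  rw [eq_neg_of_add_eq_zero_left h, abs_neg] at h4
  linarith

end InnerTestA
open InnerTestA

theorem inner_test {m d Km D K e : ℕ} (hd : Odd d) {f : (Fin m → ℝ) → ℝ} (hf : Continuous f)
    (h0 : ∀ y, 0 ≤ f y) {a : ℕ → ℕ → ℝ} (hR : Rel d f Km D a) (hT : Top Km D K e a) {R C T0 : ℝ}
    (hb : ∀ k ≤ Km, ∀ j ≤ D, |a k j| ≤ R * |a K e|) (hC : R + 2 ≤ C)
    (hT0 : 1 + (Km + 1) * (D + 1) * R * C ^ D ≤ T0) :
    (∃ y, f y = 0) ↔ ∃ y, penR d T0 f y < C := by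
  have hR1 := one_le hT hb
  have hC1 : 1 ≤ C := by linarith
  have hq : 0 ≤ (Km + 1) * (D + 1) * R * C ^ D := by positivity
  have hT1 : 1 ≤ T0 := by linarith
  have hd0 : (0 : ℝ) < ((d + 1 : ℕ) : ℝ) := by positivity
  constructor
  · rintro ⟨y1, hy1⟩
    by_contra hcon
    push Not at hcon
    choose y hy using fun n : ℕ => exists_min hd (T := T0 + n) (by positivity) hf h0
    have hmono : Monotone fun n : ℕ => penR d (T0 + n) f (y n) := by
      intro n k hnk
      refine (hy n (y k)).trans ?_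
      have h1 : (n : ℝ) ≤ k := by exact_mod_cast hnk
      have h2 := h0 (y k)
      unfold penR
      beta_reduce
      gcongr
    have hbdd : BddAbove (Set.range fun n : ℕ => penR d (T0 + n) f (y n)) := by
      refine ⟨∑ i, y1 i ^ (d + 1), ?_⟩
      rintro _ ⟨n, rfl⟩
      refine (hy n y1).trans ?_
      simp [penR, hy1]
    have hlim := lead_limit hT.1 (fun k hk j hj h => hT.2.2.2 k hk j hj (Or.inl h))
      (tendsto_atTop_add_const_left _ T0 tendsto_natCast_atTop_atTop)
      (tendsto_atTop_ciSup hmono hbdd) fun n => hR _ (by positivity) _ (hy n)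
    have h1 : C ≤ ⨆ n : ℕ, penR d (T0 + n) f (y n) := by
      refine le_trans ?_ (le_ciSup hbdd 0)
      simpa using hcon (y 0)
    have h2 := lead hT hb (hC.trans h1)
    rw [hlim, abs_zero] at h2
    exact hT.2.2.1 (abs_nonpos_iff.1 h2)
  · rintro ⟨y1, hy1⟩
    by_contra hcon
    push Not at hcon
    have hS := isCompact_sublevel (m := m) hd C
    set S := {y : Fin m → ℝ | ∑ i, y i ^ (d + 1) ≤ C} with hSdef
    have hy1S : y1 ∈ S := (sum_pow_le_penR (by linarith) h0 y1).trans hy1.le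
    obtain ⟨y2, -, hy2⟩ := hS.exists_isMinOn ⟨y1, hy1S⟩ hf.continuousOn
    have hη : 0 < f y2 := lt_of_le_of_ne (h0 y2) (hcon y2).symm
    have hcont : Continuous fun p : ℝ × (Fin m → ℝ) => penR d p.1 f p.2 := by
      unfold penR; fun_prop
    have hμ : Continuous fun T : ℝ => sInf ((fun y => penR d T f y) '' S) :=
      hS.continuous_sInf (f := fun T y => penR d T f y) hcont
    have hex : ∀ T : ℝ, ∃ y ∈ S, sInf ((fun y => penR d T f y) '' S) = penR d T f y ∧
        ∀ z ∈ S, penR d T f y ≤ penR d T f z := fun T =>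
      hS.exists_sInf_image_eq_and_le ⟨y1, hy1S⟩ (hcont.comp (Continuous.prodMk_right T)).continuousOn
    have hlt : T0 ≤ T0 + C / f y2 := by
      have : 0 ≤ C / f y2 := by positivity
      linarith
    obtain ⟨T, hTm, hTe⟩ := intermediate_value_Icc hlt hμ.continuousOn (show C ∈ _ by
      constructor
      · obtain ⟨y, -, e, h⟩ := hex T0
        exact e.le.trans ((h y1 hy1S).trans hy1.le)
      · obtain ⟨y, hy, e, -⟩ := hex (T0 + C / f y2)
        refine le_trans ?_ e.ge
        have k1 : f y2 ≤ f y := hy2 hy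
        have k2 : 0 ≤ ∑ i, y i ^ (d + 1) := sum_nonneg fun i _ => hd.add_one.pow_nonneg _
        have k3 : (1 : ℝ) ≤ ((d + 1 : ℕ) : ℝ) := by exact_mod_cast Nat.succ_pos d
        have k4 : C = 1 * (0 + C / f y2) * f y2 := by field_simp; ring
        have k5 : 1 * (0 + C / f y2) * f y2 ≤ ((d + 1 : ℕ) : ℝ) * (T0 + C / f y2) * f y := by
          gcongr; linarith
        unfold penR
        linarith)
    obtain ⟨y, -, e, h⟩ := hex T
    have hTpos : 0 ≤ T := by linarith [hTm.1]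
    have hval : penR d T f y = C := e.symm.trans hTe
    have := hR T hTpos y fun z => by
      by_cases hz : z ∈ S
      · exact h z hz
      · rw [hval]
        exact (not_le.1 hz).le.trans (sum_pow_le_penR hTpos h0 z)
    rw [hval] at this
    exact ne_zero hT hb hC (hT0.trans hTm.1) this

end Crest.Agent.R316
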