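import Crest.Agent.R316.Dig
/-!
# Thom's lemma, simple roots (task R316-Thom)

`thom`: suppose `r < r'`.  By downward induction on `j` (from `natDegree + 1`, where `f^(j) = 0`): the sign of `f^(j)` is constant on `[r, r']`.  Step: `f^(j+1)` has constant
sign on `[r, r']`, so `f^(j)` is monotone or antitone there (`monotoneOn_of_deriv_nonneg`), so its values lie between the values at the ends, which have the same sign.
For `j = 0`, `f` vanishes on `[r, r']`, so `f = 0` (`Polynomial.eq_zero_of_infinite_isRoot`).
`simple_root`: `μ = rootMultiplicity r (f.map) - 1`; `Polynomial.derivative_rootMultiplicity_of_root` repeatedly (or `Polynomial.rootMultiplicity_iterate_derivative…`),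
`Polynomial.count_roots`, `Polynomial.iterate_derivative_map`.
-/
set_option autoImplicit false
namespace Crest.Agent.R316
open Polynomial

namespace Thom

theorem step {a b : ℝ} (p : ℝ[X]) (hab : a ≤ b)
    (h' : ∀ x ∈ Set.Icc a b, SignType.sign (eval x (derivative p)) =
      SignType.sign (eval a (derivative p)))
    (h : SignType.sign (eval a p) = SignType.sign (eval b p)) :
    ∀ x ∈ Set.Icc a b, SignType.sign (eval x p) = SignType.sign (eval a p) := by
  intro x hx
  have ha : a ∈ Set.Icc a b := ⟨le_rfl, hab⟩
  have hb : b ∈ Set.Icc a b := ⟨hab, le_rfl⟩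
  rcases le_total 0 (eval a (derivative p)) with h0 | h0
  · have hm : MonotoneOn (fun t => eval t p) (Set.Icc a b) := by
      refine monotoneOn_of_deriv_nonneg (convex_Icc a b) p.continuous.continuousOn
        p.differentiable.differentiableOn fun y hy => ?_
      rw [Polynomial.deriv, ← sign_nonneg_iff, h' y (interior_subset hy), sign_nonneg_iff]
      exact h0
    refine le_antisymm ?_ (SignType.sign.monotone (hm ha hx hx.1))
    rw [h]; exact SignType.sign.monotone (hm hx hb hx.2)
  · have hm : AntitoneOn (fun t => eval t p) (Set.Icc a b) := by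
      refine antitoneOn_of_deriv_nonpos (convex_Icc a b) p.continuous.continuousOn
        p.differentiable.differentiableOn fun y hy => ?_
      rw [Polynomial.deriv, ← sign_nonpos_iff, h' y (interior_subset hy), sign_nonpos_iff]
      exact h0
    refine le_antisymm (SignType.sign.monotone (hm ha hx hx.1)) ?_
    rw [h]; exact SignType.sign.monotone (hm hx hb hx.2)

theorem real {p : ℝ[X]} (hp : p ≠ 0) {a b : ℝ} (hab : a < b) (ha : eval a p = 0)
    (h : ∀ j ≤ p.natDegree, SignType.sign (eval a (derivative^[j] p)) =
      SignType.sign (eval b (derivative^[j] p))) : False := by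
  have key : ∀ k j, j + k = p.natDegree + 1 → ∀ x ∈ Set.Icc a b,
      SignType.sign (eval x (derivative^[j] p)) = SignType.sign (eval a (derivative^[j] p)) := by
    intro k
    induction k with
    | zero =>
      intro j hj x _
      rw [iterate_derivative_eq_zero (by omega)]; simp
    | succ k ih =>
      intro j hj
      refine step _ hab.le ?_ (h j (by omega))
      rw [← Function.iterate_succ_apply' derivative]
      exact ih (j + 1) (by omega)
  have h0 := key _ 0 (zero_add _)
  refine hp (eq_zero_of_infinite_isRoot p ((Set.Icc_infinite hab).mono fun x hx => ?_))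
  have := h0 x hx
  simp only [Function.iterate_zero, id, ha, sign_zero, sign_eq_zero_iff] at this
  exact this

theorem aeval_iter (f : Polynomial ℤ) (j : ℕ) (r : ℝ) :
    aeval r (derivative^[j] f) = eval r (derivative^[j] (f.map (algebraMap ℤ ℝ))) := by
  rw [iterate_derivative_map, eval_map_algebraMap]

theorem mult (p : ℝ[X]) (r : ℝ) (k : ℕ) (hk : k ≤ rootMultiplicity r p) :
    rootMultiplicity r (derivative^[k] p) = rootMultiplicity r p - k := by
  induction k with
  | zero => simp
  | succ k ih =>
    have h1 := ih (by omega)
    have h2 : (derivative^[k] p).IsRoot r :=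
      ((rootMultiplicity_pos'.1 (by omega : 0 < rootMultiplicity r (derivative^[k] p))).2)
    rw [Function.iterate_succ_apply', derivative_rootMultiplicity_of_root h2, h1]
    omega

end Thom

theorem thom {f : Polynomial ℤ} (hf : f ≠ 0) {r r' : ℝ} (hr : aeval r f = 0) (hr' : aeval r' f = 0)
    (h : ∀ j ≤ f.natDegree, SignType.sign (aeval r (derivative^[j] f)) =
      SignType.sign (aeval r' (derivative^[j] f))) : r = r' := by
  have hinj : Function.Injective (algebraMap ℤ ℝ) := RingHom.injective_int _
  have hp : f.map (algebraMap ℤ ℝ) ≠ 0 := (Polynomial.map_ne_zero_iff hinj).2 hf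
  have hd : (f.map (algebraMap ℤ ℝ)).natDegree = f.natDegree := natDegree_map_eq_of_injective hinj f
  simp only [Thom.aeval_iter] at h
  rw [← eval_map_algebraMap] at hr hr'
  rcases lt_trichotomy r r' with h1 | h1 | h1
  · exact (Thom.real hp h1 hr fun j hj => h j (hd ▸ hj)).elim
  · exact h1
  · exact (Thom.real hp h1 hr' fun j hj => (h j (hd ▸ hj)).symm).elim

theorem simple_root {f : Polynomial ℤ} (hf : f ≠ 0) {r : ℝ} (hr : aeval r f = 0) :
    ∃ μ ≤ f.natDegree, derivative^[μ] f ≠ 0 ∧
      mcnt ((derivative^[μ] f).aroots ℝ) (fun t => t = r) = 1 := by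
  have hinj : Function.Injective (algebraMap ℤ ℝ) := RingHom.injective_int _
  set p := f.map (algebraMap ℤ ℝ) with hpdef
  have hp : p ≠ 0 := (Polynomial.map_ne_zero_iff hinj).2 hf
  have hd : p.natDegree = f.natDegree := natDegree_map_eq_of_injective hinj f
  rw [← eval_map_algebraMap] at hr
  have hpos : 0 < rootMultiplicity r p := (rootMultiplicity_pos hp).2 hr
  have hle : rootMultiplicity r p ≤ p.natDegree := by
    classical
    rw [← count_roots]
    exact (Multiset.count_le_card _ _).trans (card_roots' p)
  have h1 := Thom.mult p r (rootMultiplicity r p - 1) (by omega)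
  rw [show rootMultiplicity r p - (rootMultiplicity r p - 1) = 1 by omega, hpdef,
    iterate_derivative_map, ← hpdef] at h1
  refine ⟨rootMultiplicity r p - 1, by omega, fun h0 => ?_, ?_⟩
  · rw [h0] at h1; simp at h1
  · classical
    rw [mcnt_eq_count, aroots_def, count_roots, h1]

end Crest.Agent.R316
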