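import Crest.Agent.R316.Liouville
import Crest.Agent.R316.Thom
import Crest.Agent.R316.Hash
/-!
# Isolating a real grid point by sign conditions (task R316-Isolate)

`δ ≥ natDegree (b i)` (`CHU.deg₂`), `L0 = 2 (δ + 1)`, `L = n L0`.  For `t < L`: `i = t / L0`, `j = t % L0 / 2`, `w t = uni i (derivative^[j] (b i))`; `E` from `liouville₂` for `w`;
`u t = 2^(E+1) * w t + (if t % 2 = 0 then -1 else 1)`.  On real grid points `u t ≠ 0`, and the signs of `u t`, `u (t+1)` (`t` even) determine the sign of `w t`; by `thom` and `mem_grid`, two distinct real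
grid points differ in the sign of some `u t`.  `κ` with `δ^n * L < 2^κ` (`PT.exists_lt_pow`; `PT.toU`), `N = 2^κ * 2^κ`, seed `s = ρ * 2^κ + c`,
`U s i = (if dig 2 c i = 1 then -1 else 1) * ∏ t < L, if Hb (κ, ρ, t, i) then u t else 1` (classical `Decidable`).  Given `z0`, apply `hash` to `S = (gridR.toFinset).erase z0`,
`τ z t = ¬ (u t z < 0 ↔ u t z0 < 0)`, and choose the bits `c` (`exists_dig`) so that `U s i z0 > 0`.  The sign of a product of nonzero reals is `(-1)^(number of negative factors)`, so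
`U s i z * U s i z0 = ∏ t, (u t z * u t z0)` is negative when the count is odd.
-/
set_option autoImplicit false
namespace Crest.Agent.R316
open Crest.Agent.PTime MvPolynomial Finset
variable {α : Type} [Enc α]

namespace IsoA

theorem prod_sign (f : ℕ → ℝ) (L : ℕ) (hf : ∀ t < L, f t ≠ 0) :
    (Odd (cnt L fun t => f t < 0) → ∏ t ∈ range L, f t < 0) ∧
      (Even (cnt L fun t => f t < 0) → 0 < ∏ t ∈ range L, f t) := by
  classical
  induction L with
  | zero => simp [cnt]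
  | succ L ih =>
    obtain ⟨h1, h2⟩ := ih fun t ht => hf t (by omega)
    rw [cnt_eq_sum] at h1 h2
    rw [cnt_eq_sum, sum_range_succ, prod_range_succ]
    rcases (hf L (by omega)).lt_or_gt with h | h
    · rw [if_pos h, Nat.odd_add_one, Nat.even_add_one, Nat.not_odd_iff_even, Nat.not_even_iff_odd]
      exact ⟨fun e => mul_neg_of_pos_of_neg (h2 e) h, fun e => mul_pos_of_neg_of_neg (h1 e) h⟩
    · rw [if_neg h.not_gt, add_zero]
      exact ⟨fun e => mul_neg_of_neg_of_pos (h1 e) h, fun e => mul_pos (h2 e) h⟩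

theorem gap {x : ℝ} {E : ℕ} (h : x ≠ 0 → 1 ≤ 2 ^ E * |x|) :
    2 ^ (E + 1) * x + -1 ≠ 0 ∧ 2 ^ (E + 1) * x + 1 ≠ 0 ∧
      (2 ^ (E + 1) * x + -1 < 0 ↔ x ≤ 0) ∧ (2 ^ (E + 1) * x + 1 < 0 ↔ x < 0) := by
  have e : (2 : ℝ) ^ (E + 1) * x = 2 * (2 ^ E * x) := by ring
  rw [e]
  rcases lt_trichotomy x 0 with hx | rfl | hx
  · have := h hx.ne
    rw [abs_of_neg hx, mul_neg] at this
    refine ⟨by linarith, by linarith, ⟨fun _ => hx.le, fun _ => by linarith⟩,
      ⟨fun _ => hx, fun _ => by linarith⟩⟩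
  · norm_num
  · have := h hx.ne'
    rw [abs_of_pos hx] at this
    refine ⟨by linarith, by linarith, ⟨fun _ => by linarith, fun _ => by linarith⟩,
      ⟨fun _ => by linarith, fun _ => by linarith⟩⟩

theorem sign_eq {x y : ℝ} (h1 : x ≤ 0 ↔ y ≤ 0) (h2 : x < 0 ↔ y < 0) :
    SignType.sign x = SignType.sign y := by
  rcases lt_trichotomy x 0 with hx | rfl | hx
  · rw [sign_neg hx, sign_neg (h2.1 hx)]
  · have : y = 0 := le_antisymm (h1.1 le_rfl) (not_lt.1 fun h => lt_irrefl _ (h2.2 h))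
    rw [this]
  · rw [sign_pos hx, sign_pos (not_le.1 fun h => hx.not_ge (h1.2 h))]

/-- derivatives of the polynomials of the grid -/
noncomputable def w (δ : ℕ) (b : ℕ → Polynomial ℤ) (t : ℕ) : MP :=
  uni (t / (2 * (δ + 1))) (Polynomial.derivative^[t % (2 * (δ + 1)) / 2] (b (t / (2 * (δ + 1)))))

/-- shifted derivatives -/
noncomputable def u (δ E : ℕ) (b : ℕ → Polynomial ℤ) (t : ℕ) : MP :=
  2 ^ (E + 1) * w δ b t + if t % 2 = 0 then -1 else 1

theorem aeval_u (δ E : ℕ) (b : ℕ → Polynomial ℤ) (t : ℕ) (z : ℕ → ℝ) :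
    aeval z (u δ E b t) = 2 ^ (E + 1) * aeval z (w δ b t) + if t % 2 = 0 then -1 else 1 := by
  unfold u
  split_ifs <;> simp [map_ofNat]

theorem u_ne {δ E : ℕ} {b : ℕ → Polynomial ℤ} {t : ℕ} {z : ℕ → ℝ}
    (h : aeval z (w δ b t) ≠ 0 → 1 ≤ 2 ^ E * |aeval z (w δ b t)|) : aeval z (u δ E b t) ≠ 0 := by
  rw [aeval_u]
  split_ifs
  · exact (gap h).1
  · exact (gap h).2.1

theorem sep {n δ E : ℕ} {b : ℕ → Polynomial ℤ} (hb : Valid n b) (hδ : ∀ i < n, (b i).natDegree ≤ δ)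
    (hE : ∀ z ∈ gridR n b, ∀ t < n * (2 * (δ + 1)),
      aeval z (w δ b t) ≠ 0 → 1 ≤ 2 ^ E * |aeval z (w δ b t)|)
    {z z0 : ℕ → ℝ} (hz : z ∈ gridR n b) (hz0 : z0 ∈ gridR n b)
    (h : ∀ t < n * (2 * (δ + 1)), aeval z (u δ E b t) < 0 ↔ aeval z0 (u δ E b t) < 0) : z = z0 := by
  obtain ⟨h1, h2⟩ := mem_grid.1 hz
  obtain ⟨k1, k2⟩ := mem_grid.1 hz0
  funext i
  by_cases hi : i < n
  swap
  · rw [h2 i (by omega), k2 i (by omega)]
  refine thom (hb i hi) (Polynomial.mem_aroots.1 (h1 i hi)).2 (Polynomial.mem_aroots.1 (k1 i hi)).2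
    fun j hj => ?_
  have hj' : j ≤ δ := hj.trans (hδ i hi)
  have hw : ∀ r < 2, ∀ y : ℕ → ℝ, aeval y (w δ b (2 * j + r + (2 * (δ + 1)) * i)) =
      Polynomial.aeval (y i) (Polynomial.derivative^[j] (b i)) := by
    intro r hr y
    have e1 : (2 * j + r + (2 * (δ + 1)) * i) / (2 * (δ + 1)) = i := by
      rw [Nat.add_mul_div_left _ _ (by omega), Nat.div_eq_of_lt (by omega), zero_add]
    have e2 : (2 * j + r + (2 * (δ + 1)) * i) % (2 * (δ + 1)) / 2 = j := by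
      rw [Nat.add_mul_mod_self_left, Nat.mod_eq_of_lt (by omega)]; omega
    rw [w, e1, e2, aeval_uni]
  have hlt : ∀ r < 2, 2 * j + r + (2 * (δ + 1)) * i < n * (2 * (δ + 1)) := by
    intro r hr
    have : (i + 1) * (2 * (δ + 1)) ≤ n * (2 * (δ + 1)) := Nat.mul_le_mul_right _ hi
    rw [add_mul, mul_comm i] at this
    omega
  have hm : ∀ r < 2, (2 * j + r + (2 * (δ + 1)) * i) % 2 = r := by
    intro r hr
    rw [mul_assoc]; omega
  have a0 := h _ (hlt 0 (by omega))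
  have a1 := h _ (hlt 1 (by omega))
  rw [aeval_u, aeval_u, if_pos (hm 0 (by omega)), (gap (hE z hz _ (hlt 0 (by omega)))).2.2.1,
    (gap (hE z0 hz0 _ (hlt 0 (by omega)))).2.2.1, hw 0 (by omega), hw 0 (by omega)] at a0
  rw [aeval_u, aeval_u, if_neg (by rw [hm 1 (by omega)]; omega),
    (gap (hE z hz _ (hlt 1 (by omega)))).2.2.2,
    (gap (hE z0 hz0 _ (hlt 1 (by omega)))).2.2.2, hw 1 (by omega), hw 1 (by omega)] at a1
  exact sign_eq a0 a1

end IsoA
open IsoA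

theorem isolate {n : α → ℕ} {b : α → ℕ → Polynomial ℤ} (G : GridF n b) :
    ∃ (κ N : α → ℕ) (U : α → ℕ → ℕ → MP), PT κ ∧ PT N ∧
      CHP (fun x : (α × ℕ) × ℕ => U x.1.1 x.1.2 x.2) ∧
      ∀ a, Valid (n a) (b a) → ∀ z0 ∈ gridR (n a) (b a), ∃ s < N a, ∀ z ∈ gridR (n a) (b a),
        (∀ j < κ a, 0 < aeval z (U a s j)) ↔ z = z0 := by
  classical
  obtain ⟨δ, hδ, hδ'⟩ := CHU.deg₂ G.chu G.ptn
  have hn := G.ptn
  have hnb := G.pbn
  have hL : PT fun a => n a * (2 * (δ a + 1)) := by fun_prop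
  have hw : CHP fun x : α × ℕ => w (δ x.1) (b x.1) x.2 :=
    CHP.uni (by fun_prop) (CHU.iterate_derivative (G.chu.app₂ (by fun_prop) (by fun_prop))
      (by fun_prop))
  obtain ⟨E, hE, hE'⟩ := liouville₂ G (u := fun a t => w (δ a) (b a) t) hw hL
  have hu : CHP fun x : α × ℕ => u (δ x.1) (E x.1) (b x.1) x.2 :=
    (((CHP.const 2).pow (by fun_prop)).mul hw).add
      (CHP.ite (by fun_prop) (CHP.const _) (CHP.const _))
  obtain ⟨κ, hκ, hκb, hκ'⟩ := PT.exists_lt_pow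
    (N := fun a => δ a ^ n a * (n a * (2 * (δ a + 1)))) ((hδ.pow hn hnb).mul hL)
  obtain ⟨Hb, hHb, hH⟩ := hash
  have h2κ : PT fun a => 2 ^ κ a := (PT.const 2).pow hκ hκb
  have hκU : PT fun a => (⟨κ a⟩ : PTime.U) := hκ.toU hκb
  refine ⟨κ, fun a => 2 ^ κ a * 2 ^ κ a, fun a s i =>
    (if dig 2 (s % 2 ^ κ a) i = 1 then -1 else 1) * ∏ t ∈ range (n a * (2 * (δ a + 1))),
      if Hb (⟨κ a⟩, s / 2 ^ κ a, t, i) then u (δ a) (E a) (b a) t else 1, hκ, h2κ.mul h2κ, ?_,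
    fun a ha z0 hz0 => ?_⟩
  · have k1 : PT fun x : (α × ℕ) × ℕ => 2 ^ κ x.1.1 := h2κ.comp (by fun_prop)
    refine CHP.mul (CHP.ite (PT.eq (PT.dig (PT.const 2) (PT.mod (by fun_prop) k1) (by fun_prop))
      (PT.const 1)) (CHP.const _) (CHP.const _)) (CHP.prod_range (hL.comp (by fun_prop)) ?_)
    refine CHP.ite (hHb.comp ?_) (hu.comp (g := fun x : ((α × ℕ) × ℕ) × ℕ => (x.1.1.1, x.2))
      (by fun_prop)) (CHP.const _)
    exact (hκU.comp (by fun_prop)).pair ((PT.div (by fun_prop) (k1.comp (by fun_prop))).pair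
      (by fun_prop))
  have hEa : ∀ z ∈ gridR (n a) (b a), ∀ t < n a * (2 * (δ a + 1)),
      aeval z (w (δ a) (b a) t) ≠ 0 → 1 ≤ 2 ^ E a * |aeval z (w (δ a) (b a) t)| :=
    fun z hz t ht => (hE' a ha z hz t ht).2
  obtain ⟨ρ, hρ, hρ'⟩ := hH (κ a) (n a * (2 * (δ a + 1))) (ℕ → ℝ)
    ((gridR (n a) (b a)).toFinset.erase z0)
    (fun z t => ¬ (aeval z (u (δ a) (E a) (b a) t) < 0 ↔ aeval z0 (u (δ a) (E a) (b a) t) < 0))
    (fun z hz => by
      by_contra hcon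
      push Not at hcon
      obtain ⟨h1, h2⟩ := mem_erase.1 hz
      exact h1 (sep ha (hδ' a) hEa (Multiset.mem_toFinset.1 h2) hz0 hcon))
    (lt_of_le_of_lt (Nat.mul_le_mul_right _ (card_erase_le.trans
      ((Multiset.toFinset_card_le _).trans (card_gridR_le (hδ' a))))) (hκ' a))
  let V : ℕ → (ℕ → ℝ) → ℝ := fun i z => ∏ t ∈ range (n a * (2 * (δ a + 1))),
    if Hb (⟨κ a⟩, ρ, t, i) then aeval z (u (δ a) (E a) (b a) t) else 1
  obtain ⟨c, hc, hc'⟩ := exists_dig 2 (κ a) (fun i => if V i z0 < 0 then 1 else 0)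
    fun i _ => by split_ifs <;> omega
  have hpos : 0 < 2 ^ κ a := by positivity
  have e1 : (c + 2 ^ κ a * ρ) % 2 ^ κ a = c := by
    rw [Nat.add_mul_mod_self_left, Nat.mod_eq_of_lt hc]
  have e2 : (c + 2 ^ κ a * ρ) / 2 ^ κ a = ρ := by
    rw [Nat.add_mul_div_left _ _ hpos, Nat.div_eq_of_lt hc, zero_add]
  refine ⟨c + 2 ^ κ a * ρ, by nlinarith, fun z hz => ?_⟩
  have hU : ∀ j < κ a, ∀ y : ℕ → ℝ,
      aeval y ((if dig 2 ((c + 2 ^ κ a * ρ) % 2 ^ κ a) j = 1 then (-1 : MP) else 1) *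
        ∏ t ∈ range (n a * (2 * (δ a + 1))),
          if Hb (⟨κ a⟩, (c + 2 ^ κ a * ρ) / 2 ^ κ a, t, j) then u (δ a) (E a) (b a) t else 1) =
      (if V j z0 < 0 then -1 else 1) * V j y := by
    intro j hj y
    rw [e1, e2, hc' j hj, map_mul, map_prod]
    congr 1
    · split_ifs <;> simp_all
    · refine prod_congr rfl fun t _ => ?_
      split_ifs <;> simp
  have hV0 : ∀ j, V j z0 ≠ 0 := fun j => prod_ne_zero_iff.2 fun t ht => by
    split_ifs
    · exact u_ne (hEa z0 hz0 t (mem_range.1 ht))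
    · exact one_ne_zero
  have h0 : ∀ j, 0 < (if V j z0 < 0 then -1 else 1) * V j z0 := by
    intro j
    split_ifs with h
    · linarith
    · have := lt_of_le_of_ne (not_lt.1 h) (hV0 j).symm
      linarith
  constructor
  · intro h
    by_contra hne
    obtain ⟨i, hi, hodd⟩ := hρ' z (mem_erase.2 ⟨hne, Multiset.mem_toFinset.2 hz⟩)
    have h1 := h i hi
    rw [hU i hi] at h1
    have h2 : V i z * V i z0 < 0 := by
      simp only [V]
      rw [← prod_mul_distrib]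
      refine (prod_sign _ _ fun t ht => ?_).1 ?_
      · split_ifs
        · exact mul_ne_zero (u_ne (hEa z hz t ht)) (u_ne (hEa z0 hz0 t ht))
        · simp
      · rw [cnt_congr (B' := fun t => ¬ (aeval z (u (δ a) (E a) (b a) t) < 0 ↔
          aeval z0 (u (δ a) (E a) (b a) t) < 0) ∧ Hb (⟨κ a⟩, ρ, t, i))]
        · exact hodd
        · intro t ht
          have k1 := u_ne (hEa z hz t ht)
          have k2 := u_ne (hEa z0 hz0 t ht)
          split_ifs with hh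
          · rcases k1.lt_or_gt with k1 | k1 <;> rcases k2.lt_or_gt with k2 | k2 <;>
              simp [hh, mul_neg_iff, k1, k2, k1.not_gt, k2.not_gt]
          · simp [hh]
    have h3 := mul_pos h1 (h0 i)
    split_ifs at h3 <;> nlinarith
  · rintro rfl j hj
    rw [hU j hj]
    exact h0 j

end Crest.Agent.R316
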