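import Crest.Agent.R316.GridSym
/-!
# Upper and lower bounds for values at grid points (task R316-Liouville)

Upper bound, for all complex grid points: coordinates have norm `≤ l1 + 1` (`norm_root_le`, `Bd.major₂`), `norm_aeval_le`; so `‖u z‖ ≤ M` and
`‖s u z‖ ≤ M' = 2^2^q1` (`CHZ.bound`).  Lower bound: by `gridSym` at `v = 0` (`merge_zero`, `aeval_zero_eq`) and `esymm_last`, `c * ∏ (nonzero values s u(z))` is a nonzero
integer, `c = D!^(D+1) ≤ 2^(D * D * (D+1))`; so `1 ≤ c * M'^D * ‖s u z0‖` for each nonzero value (`M' ≥ 1`, at most `D` factors).  `D < 2^poly` (`PT.exists_lt_pow`).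
`liouville₂`: apply `liouville` to the index type `α × ℕ` (`GridF.comp`) and `PB.sup_lt`.
-/
set_option autoImplicit false
namespace Crest.Agent.R316
open Crest.Agent.PTime MvPolynomial Finset
variable {α : Type} [Enc α]

namespace LiouA

theorem norm_prod_le {M : Multiset ℂ} {R : ℝ} (hR : 0 ≤ R) (h : ∀ x ∈ M, ‖x‖ ≤ R) :
    ‖M.prod‖ ≤ R ^ M.card := by
  induction M using Multiset.induction_on with
  | empty => simp
  | cons x M ih =>
    rw [Multiset.prod_cons, Multiset.card_cons, norm_mul, pow_succ']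
    exact mul_le_mul (h x (Multiset.mem_cons_self _ _))
      (ih fun y hy => h y (Multiset.mem_cons_of_mem hy)) (norm_nonneg _) hR

theorem lower {M : Multiset ℂ} {R : ℝ} (hR : 1 ≤ R) (h : ∀ x ∈ M, ‖x‖ ≤ R) {D c : ℕ}
    (hD : M.card ≤ D) (hc : c ≠ 0) {z : ℤ} (hz : (z : ℂ) = (c : ℂ) * (M.filter (· ≠ 0)).prod)
    {x : ℂ} (hx : x ∈ M) (hx0 : x ≠ 0) : 1 ≤ c * R ^ D * ‖x‖ := by
  classical
  have hxF : x ∈ M.filter (· ≠ 0) := Multiset.mem_filter.2 ⟨hx, hx0⟩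
  have hne : (M.filter (· ≠ 0)).prod ≠ 0 := Multiset.prod_ne_zero fun h0 => by
    simpa using (Multiset.mem_filter.1 h0).2
  have hz0 : z ≠ 0 := by
    rintro rfl
    have : (c : ℂ) * (M.filter (· ≠ 0)).prod ≠ 0 := mul_ne_zero (by exact_mod_cast hc) hne
    exact this (by rw [← hz]; simp)
  have h1 : (1 : ℝ) ≤ ‖(z : ℂ)‖ := by
    rw [Complex.norm_intCast]
    exact_mod_cast Int.one_le_abs hz0
  rw [hz, ← Multiset.prod_erase hxF, norm_mul, norm_mul, Complex.norm_natCast] at h1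
  have h2 : ‖((M.filter (· ≠ 0)).erase x).prod‖ ≤ R ^ D := by
    refine (norm_prod_le (by linarith) fun y hy =>
      h y (Multiset.mem_of_mem_filter (Multiset.mem_of_mem_erase hy))).trans ?_
    refine pow_le_pow_right₀ hR ?_
    exact ((Multiset.card_le_card (Multiset.erase_le _ _)).trans
      (Multiset.card_le_card (Multiset.filter_le _ _))).trans hD
  calc (1 : ℝ) ≤ c * (‖x‖ * ‖((M.filter (· ≠ 0)).erase x).prod‖) := h1
    _ ≤ c * (‖x‖ * R ^ D) := by gcongr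
    _ = _ := by ring

theorem fact_le (D : ℕ) : D.factorial ^ (D + 1) ≤ 2 ^ (D * D * (D + 1)) := by
  rw [pow_mul 2 (D * D)]
  refine Nat.pow_le_pow_left ?_ _
  rw [pow_mul]
  exact (Nat.factorial_le_pow D).trans (Nat.pow_le_pow_left Nat.lt_two_pow_self.le _)

end LiouA

theorem liouville {n : α → ℕ} {b : α → ℕ → Polynomial ℤ} (G : GridF n b) {u : α → MP} (hu : CHP u) :
    ∃ E : α → ℕ, PT E ∧ ∀ a, Valid (n a) (b a) → ∀ z ∈ gridR (n a) (b a),
      |aeval z (u a)| ≤ 2 ^ E a ∧ (aeval z (u a) ≠ 0 → 1 ≤ 2 ^ E a * |aeval z (u a)|) := by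
  classical
  obtain ⟨D, E, s, hD, -, hs, H⟩ := gridSym G hu
  obtain ⟨qb, hqb1, hqb2, hqb⟩ := Bd.major₂ (f := fun a i => uni 0 (b a i)) G.chu.1 G.ptn
  obtain ⟨qu, hqu1, hqu2, hqu⟩ := hu.1.major
  obtain ⟨qs, hqs1, hqs2, hqs⟩ := hs.bound
  let e2 : α → ℕ := fun a => 2 ^ qu a + (2 ^ qb a + 1) * 2 ^ qu a
  have he2 : PT e2 := by simp only [e2]; fun_prop
  refine ⟨fun a => D a * D a * (D a + 1) + (2 ^ qs a + e2 a) * D a + 2 ^ qs a + e2 a,
    by fun_prop, fun a hV z hz => ?_⟩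
  obtain ⟨hs0, hcard, hE⟩ := H a hV
  -- upper bound at complex grid points
  have hup : ∀ w ∈ gridC (n a) (b a), ‖aeval w (u a)‖ ≤ 2 ^ e2 a := by
    intro w hw
    obtain ⟨hw1, hw2⟩ := mem_grid.1 hw
    have hM : (1 : ℝ) ≤ 2 ^ (2 ^ qb a + 1) := one_le_pow₀ (by norm_num)
    have hv : ∀ i, ‖w i‖ ≤ (2 : ℝ) ^ (2 ^ qb a + 1) := by
      intro i
      by_cases hi : i < n a
      · have hr := (Polynomial.mem_aroots.1 (hw1 i hi)).2
        refine (norm_root_le (hV i hi) hr).trans ?_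
        have h1 : ((l1 (uni 0 (b a i)) : ℕ) : ℝ) ≤ 2 ^ 2 ^ qb a := by exact_mod_cast (hqb a i hi).2
        have h2 : (1 : ℝ) ≤ 2 ^ 2 ^ qb a := one_le_pow₀ (by norm_num)
        rw [pow_succ]; linarith
      · rw [hw2 i (by omega), norm_zero]; positivity
    refine (norm_aeval_le hM hv (u a)).trans ?_
    have h1 : ((l1 (u a) : ℕ) : ℝ) ≤ 2 ^ 2 ^ qu a := by exact_mod_cast (hqu a).2
    have h2 : ((2 : ℝ) ^ (2 ^ qb a + 1)) ^ (u a).totalDegree ≤ (2 ^ (2 ^ qb a + 1)) ^ 2 ^ qu a :=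
      pow_le_pow_right₀ hM (hqu a).1
    simp only [e2]
    rw [pow_add 2 (2 ^ qu a), pow_mul]
    exact mul_le_mul h1 h2 (by positivity) (by positivity)
  have hsn : ‖((s a : ℤ) : ℂ)‖ ≤ 2 ^ 2 ^ qs a := by
    rw [Complex.norm_intCast, ← Int.cast_abs, Int.abs_eq_natAbs]
    exact_mod_cast hqs a
  have hzC := ofReal_mem_gridC hz
  have hnorm : ‖aeval (fun i => (z i : ℂ)) (u a)‖ = |aeval z (u a)| := by
    rw [← ofReal_aeval, Complex.norm_real, Real.norm_eq_abs]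
  refine ⟨?_, fun hne => ?_⟩
  · rw [← hnorm]
    exact (hup _ hzC).trans (pow_le_pow_right₀ (by norm_num) (Nat.le_add_left _ _))
  · set M : Multiset ℂ :=
      (gridC (n a) (b a)).map fun z => (s a : ℂ) * aeval (merge (n a) z 0) (u a) with hM
    have hMc : M.card ≤ D a := by rw [hM, Multiset.card_map]; exact hcard
    have hMb : ∀ x ∈ M, ‖x‖ ≤ (2 : ℝ) ^ (2 ^ qs a + e2 a) := by
      intro x hx
      obtain ⟨w, hw, rfl⟩ := Multiset.mem_map.1 hx
      rw [merge_zero hw, norm_mul, pow_add]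
      exact mul_le_mul hsn (hup w hw) (norm_nonneg _) (by positivity)
    have hk : (M.filter (· ≠ 0)).card ≤ D a :=
      (Multiset.card_le_card (Multiset.filter_le _ _)).trans hMc
    have h1 := hE _ hk 0
    rw [aeval_zero_eq, ← hM, (esymm_last M).1] at h1
    have hx : (s a : ℂ) * aeval (fun i => (z i : ℂ)) (u a) ∈ M :=
      Multiset.mem_map.2 ⟨_, hzC, by rw [merge_zero hzC]⟩
    have hx0 : (s a : ℂ) * aeval (fun i => (z i : ℂ)) (u a) ≠ 0 := by
      refine mul_ne_zero (by exact_mod_cast hs0.ne') ?_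
      rw [← ofReal_aeval]; exact_mod_cast hne
    have h2 := LiouA.lower (one_le_pow₀ (by norm_num)) hMb hMc
      (pow_ne_zero _ (Nat.factorial_ne_zero _)) h1 hx hx0
    rw [norm_mul, hnorm] at h2
    have h3 : (((D a).factorial ^ (D a + 1) : ℕ) : ℝ) ≤ 2 ^ (D a * D a * (D a + 1)) := by
      exact_mod_cast LiouA.fact_le (D a)
    have h4 : (1 : ℝ) ≤ 2 ^ e2 a := one_le_pow₀ (by norm_num)
    calc (1 : ℝ) ≤ _ := h2
      _ ≤ 2 ^ (D a * D a * (D a + 1)) * (2 ^ (2 ^ qs a + e2 a)) ^ D a *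
          (2 ^ 2 ^ qs a * |aeval z (u a)|) := by gcongr
      _ = 2 ^ (D a * D a * (D a + 1) + (2 ^ qs a + e2 a) * D a + 2 ^ qs a) * 1 *
          |aeval z (u a)| := by
          rw [pow_add _ _ (2 ^ qs a), pow_add _ (D a * D a * (D a + 1)), pow_mul 2 (2 ^ qs a + e2 a)]
          ring
      _ ≤ 2 ^ (D a * D a * (D a + 1) + (2 ^ qs a + e2 a) * D a + 2 ^ qs a) * 2 ^ e2 a *
          |aeval z (u a)| := by gcongr
      _ = _ := by rw [← pow_add]

theorem liouville₂ {n : α → ℕ} {b : α → ℕ → Polynomial ℤ} (G : GridF n b) {u : α → ℕ → MP}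
    (hu : CHP (fun x : α × ℕ => u x.1 x.2)) {N : α → ℕ} (hN : PT N) :
    ∃ E : α → ℕ, PT E ∧ ∀ a, Valid (n a) (b a) → ∀ z ∈ gridR (n a) (b a), ∀ i < N a,
      |aeval z (u a i)| ≤ 2 ^ E a ∧ (aeval z (u a i) ≠ 0 → 1 ≤ 2 ^ E a * |aeval z (u a i)|) := by
  obtain ⟨E, hE, H⟩ := liouville (G.comp (g := fun x : α × ℕ => x.1) (by fun_prop)) hu
  obtain ⟨q, -, hq2, hq⟩ := PT.exists_lt_pow hE
  obtain ⟨q', h1, h2, h3⟩ := PB.sup_lt (q := fun a i => q (a, i)) hq2 hN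
  refine ⟨fun a => 2 ^ q' a, by fun_prop, fun a hV z hz i hi => ?_⟩
  obtain ⟨H1, H2⟩ := H (a, i) hV z hz
  have hle : (2 : ℝ) ^ E (a, i) ≤ 2 ^ 2 ^ q' a :=
    pow_le_pow_right₀ (by norm_num) ((hq (a, i)).le.trans (d_mono (h3 a i hi)))
  exact ⟨H1.trans hle, fun h => (H2 h).trans (mul_le_mul_of_nonneg_right hle (abs_nonneg _))⟩

end Crest.Agent.R316
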