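import Crest.Agent.R316.InnerTest
/-!
# Solvability is locally constant on a stratum (task R316-LocConst)

Take `R` with `|a k j x0| < R |a K e x0|` for all `k ≤ Km`, `j ≤ D` (finitely many); these strict inequalities persist near `x0`.  Let `C = R + 2`,
`T0 = 1 + (Km+1)(D+1) R (C+1)^D`, good for both `C` and `C + 1`.  If `f x0` has a zero then `penR T0 (f x0) y < C` for some `y`, and this persists near `x0`.
If not, `inner_test` with `C + 1` gives `penR T0 (f x0) y ≥ C + 1` for all `y`; on the compact set `{∑ y^(d+1) ≤ C}` the inequality `> C` persists near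
`x0` uniformly (`IsCompact.eventually_forall_of_forall_eventually`), and outside it `penR ≥ ∑ y^(d+1) > C`.
-/
set_option autoImplicit false
namespace Crest.Agent.R316
open Finset Filter Topology

theorem loc_const {Y : Type*} [TopologicalSpace Y] {m d Km D K e : ℕ} (hd : Odd d)
    {f : Y → (Fin m → ℝ) → ℝ} (hf : Continuous fun p : Y × (Fin m → ℝ) => f p.1 p.2)
    (h0 : ∀ x y, 0 ≤ f x y) {a : Y → ℕ → ℕ → ℝ} (ha : ∀ k j, Continuous fun x => a x k j)
    (hR : ∀ x, Rel d (f x) Km D (a x)) {x0 : Y} (hT : Top Km D K e (a x0)) :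
    ∀ᶠ x in 𝓝 x0, Top Km D K e (a x) → ((∃ y, f x y = 0) ↔ ∃ y, f x0 y = 0) := by
  have hne : a x0 K e ≠ 0 := hT.2.2.1
  have hpos : 0 < |a x0 K e| := abs_pos.2 hne
  obtain ⟨R, hR0, hRb⟩ : ∃ R : ℝ, 0 ≤ R ∧ ∀ k ≤ Km, ∀ j ≤ D, |a x0 k j| < R * |a x0 K e| := by
    set S : ℝ := ∑ k ∈ range (Km + 1), ∑ j ∈ range (D + 1), |a x0 k j| with hS
    have hS0 : 0 ≤ S := Finset.sum_nonneg fun k _ => Finset.sum_nonneg fun j _ => abs_nonneg _
    refine ⟨(S + 1) / |a x0 K e|, by positivity, fun k hk j hj => ?_⟩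
    rw [div_mul_cancel₀ _ hpos.ne']
    have h1 : |a x0 k j| ≤ ∑ j ∈ range (D + 1), |a x0 k j| :=
      Finset.single_le_sum (f := fun j => |a x0 k j|) (fun _ _ => abs_nonneg _)
        (Finset.mem_range.2 (by omega))
    have h2 : ∑ j ∈ range (D + 1), |a x0 k j| ≤ S :=
      Finset.single_le_sum (f := fun k => ∑ j ∈ range (D + 1), |a x0 k j|)
        (fun _ _ => Finset.sum_nonneg fun j _ => abs_nonneg _) (Finset.mem_range.2 (by omega))
    linarith
  have hev : ∀ᶠ x in 𝓝 x0, ∀ k ≤ Km, ∀ j ≤ D, |a x k j| ≤ R * |a x K e| := by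
    have : ∀ᶠ x in 𝓝 x0, ∀ k ∈ range (Km + 1), ∀ j ∈ range (D + 1), |a x k j| < R * |a x K e| := by
      rw [Filter.eventually_all_finset]
      intro k hk
      rw [Filter.eventually_all_finset]
      intro j hj
      exact ((ha k j).abs.continuousAt).eventually_lt
        ((continuous_const.mul (ha K e).abs).continuousAt)
        (hRb k (by have := Finset.mem_range.1 hk; omega) j (by have := Finset.mem_range.1 hj; omega))
    filter_upwards [this] with x hx k hk j hj
    exact (hx k (Finset.mem_range.2 (by omega)) j (Finset.mem_range.2 (by omega))).le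
  set T0 : ℝ := 1 + (Km + 1) * (D + 1) * R * (R + 2 + 1) ^ D with hT0
  have hT0a : 1 + (Km + 1) * (D + 1) * R * (R + 2) ^ D ≤ T0 := by
    have : (R + 2) ^ D ≤ (R + 2 + 1) ^ D := pow_le_pow_left₀ (by positivity) (by linarith) D
    rw [hT0]
    gcongr
  have hT0p : 0 ≤ T0 := by positivity
  have hfx : ∀ x, Continuous (f x) := fun x => hf.comp (Continuous.prodMk_right x)
  have hpen := continuous_penR d T0 hf
  have test : ∀ x, (∀ k ≤ Km, ∀ j ≤ D, |a x k j| ≤ R * |a x K e|) → Top Km D K e (a x) →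
      ((∃ y, f x y = 0) ↔ ∃ y, penR d T0 (f x) y < R + 2) := fun x hx hTx =>
    inner_test hd (hfx x) (h0 x) (hR x) hTx hx le_rfl hT0a
  have hb0 : ∀ k ≤ Km, ∀ j ≤ D, |a x0 k j| ≤ R * |a x0 K e| := fun k hk j hj => (hRb k hk j hj).le
  by_cases hz : ∃ y, f x0 y = 0
  · obtain ⟨y, hy⟩ := (test x0 hb0 hT).1 hz
    have h1 : ∀ᶠ x in 𝓝 x0, penR d T0 (f x) y < R + 2 :=
      (hpen.comp (Continuous.prodMk_left y)).continuousAt.eventually_lt continuousAt_const hy
    filter_upwards [hev, h1] with x hx hx1 hTx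
    exact ⟨fun _ => hz, fun _ => (test x hx hTx).2 ⟨y, hx1⟩⟩
  · have h1 : ∀ y, R + 2 + 1 ≤ penR d T0 (f x0) y := fun y => by
      by_contra hlt
      exact hz ((inner_test hd (hfx x0) (h0 x0) (hR x0) hT hb0 (C := R + 2 + 1) (by linarith)
        le_rfl).2 ⟨y, not_le.1 hlt⟩)
    have h2 : ∀ᶠ x in 𝓝 x0, ∀ y ∈ {y : Fin m → ℝ | ∑ i, y i ^ (d + 1) ≤ R + 2},
        R + 2 < penR d T0 (f x) y := by
      refine (isCompact_sublevel hd (R + 2)).eventually_forall_of_forall_eventually fun y _ => ?_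
      exact continuousAt_const.eventually_lt hpen.continuousAt (by have := h1 y; simp only; linarith)
    filter_upwards [hev, h2] with x hx hx2 hTx
    refine ⟨fun hh => ?_, fun hh => absurd hh hz⟩
    obtain ⟨y, hy⟩ := (test x hx hTx).1 hh
    have h3 := sum_pow_le_penR (d := d) hT0p (h0 x) y
    have h4 := hx2 y (h3.trans hy.le)
    linarith

end Crest.Agent.R316
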