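import Crest.Agent.R316.Grid
import Crest.Agent.R316.Newton
/-!
# Parity of the number of real grid points with a negative value (task R316-SignLem)

Let `vals = map (fun z => s * u z) gridC`, `k0` the number of nonzero values, `Π` their product; by `esymm_last` the right side says `Π.re < 0`
(`esymm k0 = Π ≠ 0`, later ones vanish, `k0 ≤ D`).  Split `gridC` into real points (`gridC_real`) and non-real points `Z`; `Z` is invariant under the fixed-point-free involution
`conj ∘ ·` (`gridC_conj`), and `u (conj z) = conj (u z)` (`map_aeval'`).  Lemma: if a multiset `Z` is invariant under an involution `σ` without fixed points on `Z`, and `φ (σ z) = conj (φ z)`,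
`φ z ≠ 0`, then `(Z.map φ).prod` is a positive real (strong induction on the cardinality: remove `z` and `σ z`).  The product of the nonzero real values has the sign
`(-1)^(number of negative ones)`.
-/
set_option autoImplicit false
namespace Crest.Agent.R316
open MvPolynomial Finset

namespace SignLemA

/-- a product invariant under a fixed-point-free involution acting by conjugation is positive -/
theorem pos_prod {β : Type*} (σ : β → β) (hσ : ∀ z, σ (σ z) = z) (φ : β → ℂ)
    (hφ : ∀ z, φ (σ z) = starRingEnd ℂ (φ z)) (h0 : ∀ z, φ z ≠ 0) :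
    ∀ (N : ℕ) (Z : Multiset β), Z.card = N → Z.map σ = Z → (∀ z ∈ Z, σ z ≠ z) →
      ∃ r : ℝ, 0 < r ∧ (Z.map φ).prod = r := by
  classical
  intro N
  induction N using Nat.strong_induction_on with
  | _ N ih =>
    intro Z hN hZ hne
    rcases Multiset.empty_or_exists_mem Z with rfl | ⟨z, hz⟩
    · exact ⟨1, one_pos, by simp⟩
    · have hz' : σ z ∈ Z := by
        rw [← hZ]; exact Multiset.mem_map_of_mem σ hz
      obtain ⟨Z1, rfl⟩ := Multiset.exists_cons_of_mem hz
      have hz1 : σ z ∈ Z1 := by
        rcases Multiset.mem_cons.1 hz' with h | h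
        · exact absurd h (hne z hz)
        · exact h
      obtain ⟨Z2, rfl⟩ := Multiset.exists_cons_of_mem hz1
      have hZ2 : Z2.map σ = Z2 := by
        rw [Multiset.map_cons, Multiset.map_cons, hσ, Multiset.cons_swap] at hZ
        exact (Multiset.cons_inj_right _).1 ((Multiset.cons_inj_right _).1 hZ)
      obtain ⟨r, hr, e⟩ := ih Z2.card (by rw [← hN]; simp only [Multiset.card_cons]; omega) Z2 rfl hZ2
        (fun w hw => hne w (Multiset.mem_cons_of_mem (Multiset.mem_cons_of_mem hw)))
      refine ⟨Complex.normSq (φ z) * r, mul_pos (Complex.normSq_pos.2 (h0 z)) hr, ?_⟩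
      rw [Multiset.map_cons, Multiset.map_cons, Multiset.prod_cons, Multiset.prod_cons, e, hφ,
        ← mul_assoc, Complex.mul_conj]
      push_cast
      rfl

/-- the sign of a product of nonzero reals -/
theorem sign_prod {β : Type*} (f : β → ℝ) (h0 : ∀ z, f z ≠ 0) (M : Multiset β) :
    ∃ r : ℝ, 0 < r ∧ (M.map f).prod = (-1) ^ (mcnt M fun z => f z < 0) * r := by
  classical
  simp only [mcnt_eq_countP]
  induction M using Multiset.induction_on with
  | empty => exact ⟨1, one_pos, by simp⟩
  | cons a M ih =>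
    obtain ⟨r, hr, e⟩ := ih
    rw [Multiset.map_cons, Multiset.prod_cons, e]
    by_cases ha : f a < 0
    · refine ⟨-f a * r, mul_pos (by linarith) hr, ?_⟩
      rw [Multiset.countP_cons_of_pos (p := fun z => f z < 0) _ ha, pow_succ]
      ring
    · have : 0 < f a := lt_of_le_of_ne (not_lt.1 ha) (h0 a).symm
      refine ⟨f a * r, mul_pos this hr, ?_⟩
      rw [Multiset.countP_cons_of_neg (p := fun z => f z < 0) _ ha]
      ring

theorem prod_filter_ne (M : Multiset ℂ) :
    (M.filter (· ≠ 0)).prod = (M.map fun a => if a = 0 then 1 else a).prod := by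
  induction M using Multiset.induction_on with
  | empty => simp
  | cons a M ih =>
    by_cases ha : a = 0
    · rw [Multiset.filter_cons_of_neg _ (by simpa using ha), ih, Multiset.map_cons,
        Multiset.prod_cons, if_pos ha, one_mul]
    · rw [Multiset.filter_cons_of_pos _ (by simpa using ha), Multiset.prod_cons, ih,
        Multiset.map_cons, Multiset.prod_cons, if_neg ha]

theorem rhs_iff (M : Multiset ℂ) {D : ℕ} (hD : M.card ≤ D) :
    (∃ k ≤ D, (M.esymm k).re < 0 ∧ ∀ k' ≤ D, k < k' → M.esymm k' = 0) ↔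
      (M.filter (· ≠ 0)).prod.re < 0 := by
  obtain ⟨h1, h2⟩ := esymm_last M
  have hk0 : (M.filter (· ≠ 0)).card ≤ D := (Multiset.card_le_card (Multiset.filter_le _ _)).trans hD
  constructor
  · rintro ⟨k, -, hk, hl⟩
    have hne : (M.filter (· ≠ 0)).prod ≠ 0 := by
      refine Multiset.prod_ne_zero fun h => ?_
      exact (Multiset.mem_filter.1 h).2 rfl
    rcases lt_trichotomy k (M.filter (· ≠ 0)).card with h | h | h
    · exact absurd (h1 ▸ hl _ hk0 h) hne
    · rw [← h1, ← h]; exact hk
    · rw [h2 k h] at hk; simp at hk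
  · intro h
    exact ⟨_, hk0, by rw [h1]; exact h, fun k' _ hk' => h2 k' hk'⟩

end SignLemA

theorem sign_lemma (n : ℕ) (b : ℕ → Polynomial ℤ) (u : MP) {s : ℤ} (hs : 0 < s) {D : ℕ}
    (hD : (gridC n b).card ≤ D) :
    Odd (mcnt (gridR n b) fun z => aeval z u < 0) ↔
      ∃ k ≤ D, (((gridC n b).map fun z => (s : ℂ) * aeval z u).esymm k).re < 0 ∧
        ∀ k' ≤ D, k < k' → ((gridC n b).map fun z => (s : ℂ) * aeval z u).esymm k' = 0 := by
  classical
  rw [SignLemA.rhs_iff _ (by rw [Multiset.card_map]; exact hD), SignLemA.prod_filter_ne,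
    Multiset.map_map]
  set φ : (ℕ → ℂ) → ℂ := (fun a : ℂ => if a = 0 then 1 else a) ∘ fun z => (s : ℂ) * aeval z u with hφ
  set f : (ℕ → ℝ) → ℝ := fun z => if (s : ℝ) * aeval z u = 0 then 1 else (s : ℝ) * aeval z u with hf
  have hs' : (0 : ℝ) < s := by exact_mod_cast hs
  have hφ0 : ∀ z, φ z ≠ 0 := fun z => by
    simp only [hφ, Function.comp_apply]
    split_ifs with h
    · exact one_ne_zero
    · exact h
  have hf0 : ∀ z, f z ≠ 0 := fun z => by
    simp only [hf]
    split_ifs with h
    · exact one_ne_zero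
    · exact h
  have hconj : ∀ z : ℕ → ℂ, φ (fun i => starRingEnd ℂ (z i)) = starRingEnd ℂ (φ z) := fun z => by
    have e : (s : ℂ) * aeval (fun i => starRingEnd ℂ (z i)) u =
        starRingEnd ℂ ((s : ℂ) * aeval z u) := by
      rw [map_mul, map_intCast, map_aeval']
    simp only [hφ, Function.comp_apply]
    rw [e]
    by_cases h : (s : ℂ) * aeval z u = 0
    · rw [h]; simp
    · rw [if_neg h, if_neg ((map_ne_zero _).2 h)]
  have hreal : ∀ z : ℕ → ℝ, φ (fun i => (z i : ℂ)) = (f z : ℂ) := fun z => by
    have e : (s : ℂ) * aeval (fun i => (z i : ℂ)) u = (((s : ℝ) * aeval z u : ℝ) : ℂ) := by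
      rw [Complex.ofReal_mul, ofReal_aeval, Complex.ofReal_intCast]
    simp only [hφ, hf, Function.comp_apply]
    rw [e]
    by_cases h : (s : ℝ) * aeval z u = 0
    · rw [h]; simp
    · rw [if_neg h, if_neg (Complex.ofReal_ne_zero.2 h)]
  have hsplit := Multiset.filter_add_not (fun z : ℕ → ℂ => ∀ i < n, (z i).im = 0) (gridC n b)
  obtain ⟨r1, hr1, e1⟩ := SignLemA.pos_prod (fun (z : ℕ → ℂ) i => starRingEnd ℂ (z i))
    (fun z => by funext i; simp) φ hconj hφ0 _
    ((gridC n b).filter fun z : ℕ → ℂ => ¬ ∀ i < n, (z i).im = 0) rfl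
    (by
      conv_rhs => rw [← gridC_conj, Multiset.filter_map]
      congr 1
      refine Multiset.filter_congr fun z _ => ?_
      simp)
    (fun z hz h => by
      apply (Multiset.mem_filter.1 hz).2
      intro i _
      exact Complex.conj_eq_iff_im.1 (congrFun h i))
  obtain ⟨r2, hr2, e2⟩ := SignLemA.sign_prod f hf0 (gridR n b)
  have e3 : mcnt (gridR n b) (fun z => f z < 0) = mcnt (gridR n b) fun z => aeval z u < 0 := by
    refine mcnt_congr fun z _ => ?_
    simp only [hf]
    split_ifs with h
    · have : aeval z u = 0 := (mul_eq_zero.1 h).resolve_left hs'.ne'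
      rw [this]; norm_num
    · exact ⟨fun h' => by by_contra hh; nlinarith [mul_nonneg hs'.le (not_lt.1 hh)],
        fun h' => mul_neg_of_pos_of_neg hs' h'⟩
  have e4 : (((gridR n b).map (fun z i => (z i : ℂ))).map φ).prod =
      ((((gridR n b).map f).prod : ℝ) : ℂ) := by
    rw [Multiset.map_map, ← Complex.ofRealHom_eq_coe, map_multiset_prod, Multiset.map_map]
    congr 1
    exact Multiset.map_congr rfl fun z _ => hreal z
  rw [← hsplit, Multiset.map_add, Multiset.prod_add, e1, gridC_real, e4, e2, e3,
    ← Complex.ofReal_mul, Complex.ofReal_re]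
  rcases Nat.even_or_odd (mcnt (gridR n b) fun z => aeval z u < 0) with h | h
  · rw [h.neg_one_pow]
    exact ⟨fun h' => absurd h' (Nat.not_odd_iff_even.2 h),
      fun h' => absurd h' (not_lt.2 (by positivity))⟩
  · rw [h.neg_one_pow]
    exact ⟨fun _ => by nlinarith [mul_pos hr2 hr1], fun _ => h⟩

end Crest.Agent.R316
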