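import Crest.Agent.R316.Liouville
import Crest.Agent.R316.SignLem
import Crest.Agent.R316.Compress
/-!
# Parity counting of real grid points is in `CH` (task R316-Parity)

`E` from `liouville₂`; `h = cmp (2E) κ (fun j => 2^E * U j)` (`CHP.cmp`); on real grid points `h < 0 ↔ ∀ j < κ, 0 < U j` (`map_cmp`, `cmp_neg_iff`), `mcnt_congr`.
`gridSym` for `h` at `v = 0`: `constantCoeff (E' k) = c * esymm k` with `c > 0` (`aeval_zero_eq`, `merge_zero`, `Multiset.map_congr`).  By `sign_lemma` the predicate is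
`Valid ∧ ∃ k ≤ D, constantCoeff (E' k) < 0 ∧ ∀ k' ≤ D, k < k' → constantCoeff (E' k') = 0`; `GridF.valid`, `CHZ.neg'`, `CHZ.eq_zero`.
-/
set_option autoImplicit false
namespace Crest.Agent.R316
open Crest.Agent.PTime MvPolynomial Finset
variable {α : Type} [Enc α]

theorem parity {n : α → ℕ} {b : α → ℕ → Polynomial ℤ} (G : GridF n b) {κ : α → ℕ} (hκ : PT κ)
    {U : α → ℕ → MP} (hU : CHP (fun x : α × ℕ => U x.1 x.2)) :
    CH (fun a => Valid (n a) (b a) ∧
      Odd (mcnt (gridR (n a) (b a)) fun z => ∀ j < κ a, 0 < aeval z (U a j))) := by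
  obtain ⟨E, hE, hE'⟩ := liouville₂ G hU hκ
  have hh : CHP fun a => cmp (2 * E a) (κ a) fun j => (2 : MP) ^ E a * U a j :=
    CHP.cmp (u := fun a j => (2 : MP) ^ E a * U a j) (by fun_prop) hκ
      (((CHP.const 2).pow (by fun_prop)).mul hU)
  obtain ⟨D, E', s, hD, hE2, -, H⟩ := gridSym G hh
  have hz : CHZ fun x : α × ℕ => constantCoeff (E' x.1 x.2) := CHZ.constantCoeff hE2
  have hP : CH fun a => ∃ k ≤ D a, constantCoeff (E' a k) < 0 ∧
      ∀ k' ≤ D a, k < k' → constantCoeff (E' a k') = 0 := by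
    refine CH.exists_le (B := fun a k => constantCoeff (E' a k) < 0 ∧
      ∀ k' ≤ D a, k < k' → constantCoeff (E' a k') = 0) hD (hz.neg'.and ?_)
    refine CH.forall_le (B := fun (x : α × ℕ) k' => x.2 < k' → constantCoeff (E' x.1 k') = 0)
      (hD.comp PT.id.fst) (CH.imp (CH.of_PT (by fun_prop)) ?_)
    exact (hz.comp (g := fun x : (α × ℕ) × ℕ => (x.1.1, x.2)) (by fun_prop)).eq_zero
  refine (G.valid.and hP).congr fun a => and_congr_right fun ha => ?_
  obtain ⟨hs, hc, hk⟩ := H a ha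
  set h := cmp (2 * E a) (κ a) fun j => (2 : MP) ^ E a * U a j with hdef
  have e1 : ∀ z ∈ gridR (n a) (b a), (∀ j < κ a, 0 < aeval z (U a j)) ↔ aeval z h < 0 := by
    intro z hz
    have e : aeval z h = cmp (2 * E a) (κ a) fun j => (2 : ℝ) ^ E a * aeval z (U a j) := by
      refine (map_cmp (aeval z : MP →ₐ[ℤ] ℝ).toRingHom _ _ _).trans ?_
      congr 1
      funext j
      simp [map_ofNat]
    have hp : (0 : ℝ) < 2 ^ E a := by positivity
    rw [e, cmp_neg_iff]
    · exact forall₂_congr fun j _ => (mul_pos_iff_of_pos_left hp).symm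
    · intro j hj h0
      have h1 := (mul_pos_iff_of_pos_left hp).1 h0
      obtain ⟨k1, k2⟩ := hE' a ha z hz j hj
      rw [abs_of_pos h1] at k1 k2
      refine ⟨k2 h1.ne', ?_⟩
      rw [two_mul, pow_add]
      exact mul_le_mul_of_nonneg_left k1 hp.le
  rw [mcnt_congr e1, sign_lemma _ _ h hs hc]
  have hc0 : 0 < (D a).factorial ^ (D a + 1) := pow_pos (Nat.factorial_pos _) _
  have e2 : ∀ k ≤ D a, ((constantCoeff (E' a k) : ℤ) : ℂ) = (((D a).factorial ^ (D a + 1) : ℕ) : ℂ) *
      ((gridC (n a) (b a)).map fun z => (s a : ℂ) * aeval z h).esymm k := by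
    intro k hkD
    rw [← aeval_zero_eq, hk k hkD 0]
    congr 2
    exact Multiset.map_congr rfl fun z hz => by rw [merge_zero hz]
  refine exists_congr fun k => and_congr_right fun hkD => and_congr ?_
    (forall₂_congr fun k' hk' => imp_congr_right fun _ => ?_)
  · have := congrArg Complex.re (e2 k hkD)
    rw [Complex.intCast_re, ← Complex.ofReal_natCast, Complex.re_ofReal_mul] at this
    rw [← Int.cast_lt_zero (R := ℝ), this]
    have h0 : (0 : ℝ) < (((D a).factorial ^ (D a + 1) : ℕ) : ℝ) := by exact_mod_cast hc0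
    exact ⟨fun h => mul_neg_of_pos_of_neg h0 h, fun h => neg_of_mul_neg_right h h0.le⟩
  · rw [← Int.cast_eq_zero (α := ℂ), e2 k' hk', mul_eq_zero]
    have h0 : (((D a).factorial ^ (D a + 1) : ℕ) : ℂ) ≠ 0 := by exact_mod_cast hc0.ne'
    exact ⟨Or.inr, fun h => h.resolve_left h0⟩

end Crest.Agent.R316
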