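import Crest.Agent.R316.GridSym
/-!
# A univariate polynomial vanishing at the roots of `χ(x, ·)` for all grid points `x` (task R316-NormPoly)

`χ = ∑ k ≤ D, sub n X (E k) * X n ^ (D - k)`; `gridSym` for `χ` gives `D', E', s`; `N = D' + 1`, `β (a, k) = tou n (E' k)`; take `k = card gridC`.  For `t : ℂ`, by `aeval_tou`,
`β(t) = c * ∏_{z ∈ gridC} s * χ(merge n z (single n t))` (`esymm card = prod`), and `χ(merge …) = ∑ k, E k (z) t^(D-k)` (`aeval_trunc`, `mem_grid`) is the value at `t` of a nonzero complex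
polynomial (coefficient `c ≠ 0` at `D`); the product of these polynomials is nonzero, so it does not vanish at some `t`: `β ≠ 0`.  For a real grid point use `ofReal_mem_gridC`, `ofReal_aeval`.
-/
set_option autoImplicit false
namespace Crest.Agent.R316
open Crest.Agent.PTime MvPolynomial Finset
variable {α : Type} [Enc α]

namespace NormPolyA

theorem esymm_card (M : Multiset ℂ) : M.esymm M.card = M.prod := by
  simp [Multiset.esymm]

/-- the polynomial in the variables `< n` and `X n` -/
noncomputable def chi (n D : ℕ) (E : ℕ → MP) : MP :=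
  ∑ k ∈ range (D + 1), sub n X (E k) * X n ^ (D - k)

theorem aeval_chi {n D : ℕ} {E : ℕ → MP} {z : ℕ → ℂ} (hz : ∀ i, n ≤ i → z i = 0) (t : ℂ) :
    aeval (merge n z fun i => if i = n then t else 0) (chi n D E) =
      ∑ k ∈ range (D + 1), aeval z (E k) * t ^ (D - k) := by
  have h1 : trunc n (merge n z fun i => if i = n then t else 0) = z := by
    funext i
    unfold trunc merge
    split_ifs with h
    · rfl
    · exact (hz i (by omega)).symm
  unfold chi
  rw [map_sum]
  refine sum_congr rfl fun k _ => ?_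
  rw [map_mul, map_pow, aeval_X, aeval_trunc, h1]
  simp [merge]

/-- the complex polynomial attached to a point -/
noncomputable def pz (D : ℕ) (E : ℕ → MP) (z : ℕ → ℂ) : Polynomial ℂ :=
  ∑ k ∈ range (D + 1), Polynomial.C (aeval z (E k)) * Polynomial.X ^ (D - k)

theorem eval_pz (D : ℕ) (E : ℕ → MP) (z : ℕ → ℂ) (t : ℂ) :
    (pz D E z).eval t = ∑ k ∈ range (D + 1), aeval z (E k) * t ^ (D - k) := by
  simp only [pz, Polynomial.eval_finsetSum, Polynomial.eval_mul, Polynomial.eval_C,
    Polynomial.eval_pow, Polynomial.eval_X]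

theorem pz_ne_zero {D : ℕ} {E : ℕ → MP} {c : ℤ} (hc : c ≠ 0) (h : E 0 = C c) (z : ℕ → ℂ) :
    pz D E z ≠ 0 := by
  intro h0
  have h1 := congrArg (fun p => Polynomial.coeff p D) h0
  simp only [pz, Polynomial.finsetSum_coeff, Polynomial.coeff_C_mul_X_pow, Polynomial.coeff_zero] at h1
  rw [sum_eq_single 0, if_pos (by omega), h] at h1
  · exact hc (by simpa using h1)
  · intro k hk hk0
    have := mem_range.1 hk
    exact if_neg (by omega)
  · simp

end NormPolyA
open NormPolyA

theorem normPoly {n : α → ℕ} {b : α → ℕ → Polynomial ℤ} (G : GridF n b) {D : α → ℕ}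
    {E : α → ℕ → MP} (hD : PT D) (hE : CHP (fun x : α × ℕ => E x.1 x.2))
    (h0 : ∀ a, ∃ c : ℤ, c ≠ 0 ∧ E a 0 = C c) :
    ∃ (N : α → ℕ) (β : α × ℕ → Polynomial ℤ), PT N ∧ CHU β ∧ ∀ a, Valid (n a) (b a) →
      ∃ k < N a, β (a, k) ≠ 0 ∧ ∀ x ∈ gridR (n a) (b a), ∀ t : ℝ,
        ∑ k ∈ range (D a + 1), aeval x (E a k) * t ^ (D a - k) = 0 →
          Polynomial.aeval t (β (a, k)) = 0 := by
  have hχ : CHP fun a => chi (n a) (D a) (E a) := by
    unfold chi
    refine CHP.sum_range (f := fun a k => sub (n a) X (E a k) * X (n a) ^ (D a - k))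
      (hD.add (PT.const 1)) (CHP.mul ?_ ?_)
    · exact CHP.trunc (G.ptn.comp PT.id.fst) (G.pbn.comp PT.id.fst) hE
    · exact (CHP.X (G.ptn.comp PT.id.fst)).pow ((hD.comp PT.id.fst).sub PT.id.snd)
  obtain ⟨D', E', s, hD', hE', -, h⟩ := gridSym G hχ
  refine ⟨fun a => D' a + 1, fun x => tou (n x.1) (E' x.1 x.2), hD'.add (PT.const 1),
    CHU.tou (G.ptn.comp PT.id.fst) (G.pbn.comp PT.id.fst) hE', fun a ha => ?_⟩
  obtain ⟨hs, hcard, hE⟩ := h a ha
  obtain ⟨c, hc, hc'⟩ := h0 a
  have key : ∀ t : ℂ, Polynomial.aeval t (tou (n a) (E' a (gridC (n a) (b a)).card)) =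
      (((D' a).factorial ^ (D' a + 1) : ℕ) : ℂ) *
        (((gridC (n a) (b a)).map fun z => Polynomial.C (s a : ℂ) * pz (D a) (E a) z).prod).eval t := by
    intro t
    rw [aeval_tou, hE _ hcard, Polynomial.eval_multiset_prod, Multiset.map_map]
    congr 1
    rw [← esymm_card, Multiset.card_map]
    congr 1
    refine Multiset.map_congr rfl fun z hz => ?_
    rw [aeval_chi (mem_grid.1 hz).2, Function.comp_apply, Polynomial.eval_mul, Polynomial.eval_C,
      eval_pz]
  refine ⟨(gridC (n a) (b a)).card, Nat.lt_succ_of_le hcard, fun hβ => ?_, fun x hx t ht => ?_⟩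
  · have hne : ((gridC (n a) (b a)).map fun z =>
        Polynomial.C (s a : ℂ) * pz (D a) (E a) z).prod ≠ 0 := by
      refine Multiset.prod_ne_zero fun h => ?_
      obtain ⟨z, -, hz⟩ := Multiset.mem_map.1 h
      exact mul_ne_zero (Polynomial.C_ne_zero.2 (by exact_mod_cast hs.ne')) (pz_ne_zero hc hc' z) hz
    refine hne (Polynomial.funext fun t => ?_)
    have h1 := key t
    simp only at hβ
    rw [hβ, map_zero] at h1
    rw [Polynomial.eval_zero]
    refine (mul_eq_zero.1 h1.symm).resolve_left ?_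
    exact_mod_cast (pow_pos (Nat.factorial_pos _) _).ne'
  · apply Complex.ofReal_injective
    have h1 : ((Polynomial.aeval t (tou (n a) (E' a (gridC (n a) (b a)).card)) : ℝ) : ℂ) =
        Polynomial.aeval (t : ℂ) (tou (n a) (E' a (gridC (n a) (b a)).card)) := by
      rw [aeval_tou, aeval_tou, ofReal_aeval]
      congr 2
      funext i
      split_ifs <;> simp
    refine h1.trans ?_
    rw [key, Polynomial.eval_multiset_prod, Multiset.map_map, Complex.ofReal_zero]
    refine mul_eq_zero_of_right _ (Multiset.prod_eq_zero ?_)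
    refine Multiset.mem_map.2 ⟨_, ofReal_mem_gridC hx, ?_⟩
    rw [Function.comp_apply, Polynomial.eval_mul, eval_pz]
    refine mul_eq_zero_of_right _ ?_
    have h2 := congrArg (fun r : ℝ => (r : ℂ)) ht
    simp only [Complex.ofReal_sum, Complex.ofReal_mul, Complex.ofReal_pow, ofReal_aeval,
      Complex.ofReal_zero] at h2
    exact h2

end Crest.Agent.R316
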