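import Crest.Agent.R316.TestW
import Crest.Agent.R316.NormPoly
import Crest.Agent.R316.Thom
/-!
# A grid of `y`-points witnessing solvability (task R316-Test)

`d, T0, C0` from `testW`; `W = C C0 - pen n m d (C T0) F` (`aeval_pen`).  `τ = n + m`.  `elim` on the index `(a, j)` with `lo = n`, `g i = - (X τ * pderiv (n + min i m) F)`, `h = X (n + j)`
gives `D, E`.  Put `E' k = sub (τ + 1) (fun i => if i < n then X i else if i = τ then C T0 else 0) (E k)` (still `E' 0 = C c`); `normPoly` on the index `(a, j)` (`GridF.comp`) gives `N', β`.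
A guess `g < M ^ (2 m)` codes `k_j = dig M g (2j)`, `μ_j = dig M g (2j+1)`, `M` above all `N' (a,j)` and all degrees of `β ((a,j),k)`, `j < m`, `k < N'` (bound `N'` by `2^q`, then `CHU.deg₂` twice or `PB.sup_lt`);
`c (a,g) j = derivative^[μ_j] (β ((a,j),k_j))`.  If `x` is solvable, the global minimiser `y0` (`exists_min`) has `penR < C0`; by `crit` and `dep` the point
`upd n v y0`, `v = update x τ T0`, solves the system; `aeval (upd n v y0) (E k) = aeval v (E k) = aeval x (E' k)` (`aeval_sub`, `mem_grid`).  `simple_root`, `choose`, `exists_dig`.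
-/
set_option autoImplicit false
namespace Crest.Agent.R316
open Crest.Agent.PTime MvPolynomial Finset
variable {α : Type} [Enc α]

theorem test {n m : α → ℕ} {F : α → MP} (H : Good n m F) {b : α → ℕ → Polynomial ℤ}
    (G : GridF n b) :
    ∃ (N : α → ℕ) (c : α × ℕ → ℕ → Polynomial ℤ) (W : α → MP), PT N ∧
      GridF (fun x : α × ℕ => m x.1) c ∧ CHP W ∧
      ∀ a, Valid (n a) (b a) → ∀ x ∈ gridR (n a) (b a),
        (¬ Solv (n a) (m a) (F a) x → ∀ y : Fin (m a) → ℝ, ¬ 0 < aeval (upd (n a) x y) (W a)) ∧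
        (Solv (n a) (m a) (F a) x → ∃ g < N a, Valid (m a) (c (a, g)) ∧ ∃ y : Fin (m a) → ℝ,
          0 < aeval (upd (n a) x y) (W a) ∧
          ∀ j : Fin (m a), mcnt ((c (a, g) j).aroots ℝ) (fun t => t = y j) = 1) := by
  have hn := H.ptn
  have hnb := H.pbn
  have hm := H.ptm
  have hmb := H.pbm
  have hF := H.pos.chp
  obtain ⟨d, T0, C0, hd, hT0, hC0, hW⟩ := testW H G
  obtain ⟨D, E, hD, hE, hel⟩ := elim (α := α × ℕ) (lo := fun x => n x.1) (m := fun x => m x.1)
    (d := fun x => d x.1)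
    (g := fun x i => - (X (n x.1 + m x.1) * pderiv (n x.1 + min i (m x.1)) (F x.1)))
    (h := fun x => X (n x.1 + x.2)) (by fun_prop) (hnb.comp (by fun_prop)) (by fun_prop)
    (hmb.comp (by fun_prop)) (by fun_prop)
    (CHP.neg (CHP.mul (CHP.X (by fun_prop)) (CHP.pderiv (by fun_prop)
      ((hnb.comp (by fun_prop)).add (PB.min_right (hmb.comp (by fun_prop))))
      (hF.comp (by fun_prop)))))
    (CHP.X (by fun_prop))
    (fun x i hi => by
      rw [totalDegree_neg, min_eq_left hi.le]; exact (hW x.1).2.2.1 _ (by omega) _)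
  let σ : α → ℕ → MP := fun a i => if i < n a then X i else if i = n a + m a then C (T0 a) else 0
  have hσ : CHP (fun x : α × ℕ => σ x.1 x.2) :=
    CHP.ite (c := fun x : α × ℕ => x.2 < n x.1) (by fun_prop) (CHP.X (by fun_prop))
      (CHP.ite (c := fun x : α × ℕ => x.2 = n x.1 + m x.1) (by fun_prop)
        (CHP.C (hT0.comp (by fun_prop))) (CHP.const _))
  obtain ⟨N', β, hN', hβ, hnp⟩ := normPoly (α := α × ℕ)
    (G.comp (g := fun x : α × ℕ => x.1) (by fun_prop)) (D := D)
    (E := fun x k => sub (n x.1 + m x.1 + 1) (σ x.1) (E x k)) hD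
    (CHP.sub (g := fun y : (α × ℕ) × ℕ => σ y.1.1) (by fun_prop)
      (((hnb.comp (by fun_prop)).add (hmb.comp (by fun_prop))).add (PB.const 1))
      (hσ.app₂ (by fun_prop) (by fun_prop)) hE)
    (fun x => by
      obtain ⟨c, hc, h⟩ := (hel x).1
      exact ⟨c, hc, by rw [h, sub, bind₁_C_right]⟩)
  obtain ⟨δ, hδ, hδ'⟩ := CHU.deg₂ (b := fun x k => β (x, k)) hβ hN'
  obtain ⟨q, -, hq, hq'⟩ := PT.exists_lt_pow (N := fun x => δ x + N' x) (by fun_prop)
  obtain ⟨s, hs, hsb, hs'⟩ := PB.sup_lt (q := fun a i => q (a, i)) hq hm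
  have hM : PT fun a => 2 ^ s a := by fun_prop
  refine ⟨fun a => (2 ^ s a) ^ (m a + m a), fun x j =>
    Polynomial.derivative^[dig (2 ^ s x.1) x.2 (m x.1 + j)] (β ((x.1, j), dig (2 ^ s x.1) x.2 j)),
    fun a => C (C0 a) - pen (n a) (m a) (d a) (C (T0 a)) (F a),
    hM.pow (hm.add hm) (hmb.add hmb), ⟨by fun_prop, hmb.comp (by fun_prop), ?_⟩,
    CHP.sub' (CHP.C hC0) (CHP.pen hn hm hd (CHP.C hT0) hF), fun a hV x hx => ?_⟩
  · have hM' : PT fun y : (α × ℕ) × ℕ => 2 ^ s y.1.1 := hM.comp (by fun_prop)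
    refine CHU.iterate_derivative ?_ (PT.dig hM' (by fun_prop) (by fun_prop))
    exact hβ.comp (g := fun y : (α × ℕ) × ℕ => ((y.1.1, y.2), dig (2 ^ s y.1.1) y.1.2 y.2))
      ((PT.id.fst.fst.pair PT.id.snd).pair (PT.dig hM' (by fun_prop) (by fun_prop)))
  obtain ⟨hodd, hT, -, hiff⟩ := hW a
  have hiff := hiff hV x hx
  have hev : ∀ y : Fin (m a) → ℝ,
      aeval (upd (n a) x y) (C (C0 a) - pen (n a) (m a) (d a) (C (T0 a)) (F a)) =
        C0 a - penR (d a) (T0 a) (fun y : Fin (m a) → ℝ => aeval (upd (n a) x y) (F a)) y := by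
    intro y
    rw [map_sub, aeval_pen]
    simp
  refine ⟨fun hns y hy => hns (hiff.2 ⟨y, ?_⟩), fun hs0 => ?_⟩
  · rw [hev] at hy; linarith
  obtain ⟨y1, hy1⟩ := hiff.1 hs0
  have hc0 : ∀ i, Continuous fun w : Fin (m a) → ℝ => upd (n a) x w i :=
    continuous_upd (n a) (v := fun _ => x) (y := fun w => w) (fun _ => continuous_const)
      continuous_id
  obtain ⟨y0, hy0⟩ := exists_min (m := m a) hodd (T := T0 a) (by exact_mod_cast hT)
    (f := fun y => aeval (upd (n a) x y) (F a)) (continuous_aeval_of hc0 _)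
    (fun _ => H.pos.nonneg a _)
  let v : ℕ → ℝ := Function.update x (n a + m a) (T0 a)
  have hfun : (fun y : Fin (m a) → ℝ => aeval (upd (n a) v y) (F a)) =
      fun y => aeval (upd (n a) x y) (F a) := funext fun y =>
    H.pos.dep a _ _ fun t ht => by
      unfold upd
      split_ifs
      · rfl
      · exact Function.update_of_ne (by omega) _ _
  have hmin : IsLocalMin (penR (d a) (T0 a) fun y : Fin (m a) → ℝ =>
      aeval (upd (n a) v y) (F a)) y0 := by
    rw [hfun]
    exact Filter.Eventually.of_forall hy0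
  have hτ : upd (n a) v y0 (n a + m a) = T0 a := by
    rw [upd_of_not_mem _ _ _ (by omega)]; simp [v]
  have key : ∀ j : ℕ, ∃ k μ : ℕ, ∀ hj : j < m a, k < 2 ^ s a ∧ μ < 2 ^ s a ∧
      Polynomial.derivative^[μ] (β ((a, j), k)) ≠ 0 ∧
      mcnt ((Polynomial.derivative^[μ] (β ((a, j), k))).aroots ℝ) (fun t => t = y0 ⟨j, hj⟩) = 1 := by
    intro j
    by_cases hj : j < m a
    swap
    · exact ⟨0, 0, fun h => absurd h hj⟩
    obtain ⟨-, e1, e2⟩ := hel (a, j)
    obtain ⟨k, hk, hk0, hroot⟩ := hnp (a, j) hV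
    have h3 := e2 (upd (n a) v y0) fun t ht => by
      have h4 := crit (n a) (d a) (T0 a) (F a) v hmin ⟨t, ht⟩
      have h5 := upd_of_mem (n a) v y0 ⟨t, ht⟩
      simp only at h4 h5 ht ⊢
      rw [h5, h4, min_eq_left ht.le, map_neg, map_mul, aeval_X, hτ, neg_mul]
    have h6 := hroot x hx (y0 ⟨j, hj⟩) (by
      rw [← h3]
      refine Finset.sum_congr rfl fun l _ => ?_
      have h5 := upd_of_mem (n a) v y0 ⟨j, hj⟩
      simp only at h5 ⊢
      rw [aeval_X, h5, aeval_sub]
      congr 1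
      refine e1 l _ _ fun t ht => ?_
      simp only at ht
      rw [upd_of_not_mem _ _ _ ht]
      have hx0 := (mem_grid.1 hx).2
      simp only [trunc, σ, v]
      by_cases h7 : t < n a
      · rw [if_pos (by omega), if_pos h7, aeval_X, Function.update_of_ne (by omega)]
      · by_cases h8 : t = n a + m a
        · rw [if_pos (by omega), if_neg h7, if_pos h8, h8]; simp
        · rw [if_neg (by omega), Function.update_of_ne h8, hx0 t (by omega)])
    obtain ⟨μ, hμ, h1, h2⟩ := simple_root hk0 h6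
    have h7 := hδ' (a, j) k hk
    have h8 := (hq' (a, j)).trans_le (Nat.pow_le_pow_right (by norm_num) (hs' a j hj))
    exact ⟨k, μ, fun _ => ⟨by omega, by omega, h1, h2⟩⟩
  choose k μ hkμ using key
  obtain ⟨g, hg, hdig⟩ := exists_dig (2 ^ s a) (m a + m a)
    (fun i => if i < m a then k i else μ (i - m a)) fun i hi => by
      split_ifs with h
      · exact (hkμ i h).1
      · exact (hkμ _ (by omega)).2.1
  have hc : ∀ j < m a, dig (2 ^ s a) g (m a + j) = μ j ∧ dig (2 ^ s a) g j = k j := fun j hj => by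
    rw [hdig _ (by omega), hdig _ (by omega), if_neg (by omega), if_pos hj, Nat.add_sub_cancel_left]
    exact ⟨rfl, rfl⟩
  refine ⟨g, hg, fun j hj => ?_, y0, ?_, fun j => ?_⟩
  · simp only [(hc j hj).1, (hc j hj).2]
    exact (hkμ j hj).2.2.1
  · rw [hev]
    have := hy0 y1
    linarith
  · simp only [(hc j j.2).1, (hc j j.2).2]
    exact (hkμ j j.2).2.2.2

end Crest.Agent.R316
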