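import Crest.Agent.R316.Sample
import Crest.Agent.R316.Test
import Crest.Agent.R316.Isolate
import Crest.Agent.R316.Parity
/-!
# Assembly (task R316-Main)

`sample`: `N1, b` on `α₁ = α × ℕ`.  `isolate` for `b`: `κ, N2, U`.  `test` for `b` (with `H.comp`): `N3, c, W` (`c` on `α₁ × ℕ`).  The pair grid on `α₁ × ℕ` has `n + m` coordinates,
`bc i = if i < n then b i else c (i - n)`; `isolate` for it: `κ', N4, U'`.  The formula is
`∃ g1 < N1, ∃ s < N2, (Valid b ∧ Odd #{z ∈ gridR b | ∀ j < κ, 0 < U s j z}) ∧ ∀ g2 < N3, ∀ s' < N4, ¬ (Valid bc ∧ Odd #{z ∈ gridR bc | ∀ j < κ + κ' + 1, 0 < V j z})`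
with `V j = if j < κ then sub n X (U s j) else if j < κ + κ' then U' s' (j - κ) else W`; it is `CH` by `parity` (on suitable index types), `CH.exists_lt`, `CH.forall_lt`.
For `z ∈ gridR (n+m) bc`: `trunc n z ∈ gridR n b` and `z = upd n (trunc n z) (fun j => z (n + j))` (`mem_grid`).
(→) `x` from `sample`, `s` isolates `x`: the first count is `1` (`mcnt_congr`); the second is `0` (`mcnt_eq_zero`; `trunc n z = x`, and `W > 0` is impossible).
(←) `exists_odd_mult` gives `x0` with the `U`-conditions and odd multiplicity.  If `x0` were solvable, take `g2, y` from `test`, `z0 = upd n x0 y ∈ gridR bc`, `s'` isolating `z0`; the second count is the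
multiplicity of `z0`, by `mcnt_grid` and `prod_range_add` the multiplicity of `x0` times `1`: odd, contradiction.
-/
set_option autoImplicit false
namespace Crest.Agent.R316
open Crest.Agent.PTime MvPolynomial Finset
variable {α : Type} [Enc α]

namespace MainA

/-- the pair grid -/
def bc (n : ℕ) (b c : ℕ → Polynomial ℤ) : ℕ → Polynomial ℤ :=
  fun i => if i < n then b i else c (i - n)

/-- the conditions on the pair grid -/
noncomputable def V (n κ κ' : ℕ) (U U' : ℕ → MP) (W : MP) : ℕ → MP :=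
  fun j => if j < κ then sub n X (U j) else if j < κ + κ' then U' (j - κ) else W

theorem bc_lt {n i : ℕ} (b c : ℕ → Polynomial ℤ) (h : i < n) : bc n b c i = b i := if_pos h

theorem bc_add (n i : ℕ) (b c : ℕ → Polynomial ℤ) : bc n b c (n + i) = c i := by
  unfold bc
  rw [if_neg (by omega), Nat.add_sub_cancel_left]

theorem valid_bc {n m : ℕ} {b c : ℕ → Polynomial ℤ} (hb : Valid n b) (hc : Valid m c) :
    Valid (n + m) (bc n b c) := by
  intro i hi
  unfold bc
  split_ifs with h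
  · exact hb i h
  · exact hc _ (by omega)

theorem trunc_mem {n m : ℕ} {b c : ℕ → Polynomial ℤ} {z : ℕ → ℝ}
    (hz : z ∈ gridR (n + m) (bc n b c)) : trunc n z ∈ gridR n b := by
  obtain ⟨h1, -⟩ := mem_grid.1 hz
  refine mem_grid.2 ⟨fun i hi => ?_, fun i hi => if_neg (by omega)⟩
  have := h1 i (by omega)
  rw [bc_lt b c hi] at this
  unfold trunc
  rwa [if_pos hi]

theorem eq_upd {n m : ℕ} {b c : ℕ → Polynomial ℤ} {z : ℕ → ℝ}
    (hz : z ∈ gridR (n + m) (bc n b c)) :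
    z = upd n (trunc n z) (fun j : Fin m => z (n + j)) := by
  obtain ⟨-, h2⟩ := mem_grid.1 hz
  funext i
  unfold upd trunc
  split_ifs with h h'
  · simp only
    congr 1
    omega
  · rfl
  · exact h2 i (by omega)

theorem trunc_upd {n m : ℕ} {b : ℕ → Polynomial ℤ} {x : ℕ → ℝ} (hx : x ∈ gridR n b)
    (y : Fin m → ℝ) : trunc n (upd n x y) = x := by
  funext i
  unfold trunc
  split_ifs with h
  · exact upd_of_not_mem _ _ _ (by omega)
  · exact ((mem_grid.1 hx).2 i (by omega)).symm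

theorem mcnt_upd {n m : ℕ} {b c : ℕ → Polynomial ℤ} {x : ℕ → ℝ} (hx : x ∈ gridR n b)
    {y : Fin m → ℝ} (hy : ∀ j : Fin m, mcnt ((c j).aroots ℝ) (fun t => t = y j) = 1) :
    mcnt (gridR (n + m) (bc n b c)) (fun z => z = upd n x y) = mcnt (gridR n b) fun z => z = x := by
  have h0 := (mem_grid.1 hx).2
  unfold gridR
  rw [mcnt_grid _ h0, mcnt_grid, Finset.prod_range_add, Finset.prod_range (n := m),
    Finset.prod_eq_one (s := univ), mul_one]
  · refine Finset.prod_congr rfl fun i hi => ?_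
    have hi' := Finset.mem_range.1 hi
    rw [bc_lt b c hi', upd_of_not_mem _ _ _ (by omega)]
  · intro j _
    rw [bc_add, upd_of_mem]
    exact hy j
  · intro i hi
    rw [upd_of_not_mem _ _ _ (by omega)]
    exact h0 i (by omega)

theorem V_iff (n κ κ' : ℕ) (U U' : ℕ → MP) (W : MP) (z : ℕ → ℝ) :
    (∀ j < κ + κ' + 1, 0 < aeval z (V n κ κ' U U' W j)) ↔
      (∀ j < κ, 0 < aeval (trunc n z) (U j)) ∧ (∀ j < κ', 0 < aeval z (U' j)) ∧ 0 < aeval z W := by
  constructor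
  · intro h
    refine ⟨fun j hj => ?_, fun j hj => ?_, ?_⟩
    · have := h j (by omega)
      unfold V at this
      rwa [if_pos hj, aeval_trunc] at this
    · have := h (κ + j) (by omega)
      unfold V at this
      rwa [if_neg (by omega), if_pos (by omega), Nat.add_sub_cancel_left] at this
    · have := h (κ + κ') (by omega)
      unfold V at this
      rwa [if_neg (by omega), if_neg (by omega)] at this
  · rintro ⟨h1, h2, h3⟩ j hj
    unfold V
    split_ifs with h h'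
    · rw [aeval_trunc]; exact h1 j h
    · exact h2 _ (by omega)
    · exact h3

theorem mem_of_odd {β : Type*} {M : Multiset β} {x : β} (h : Odd (mcnt M fun z => z = x)) : x ∈ M := by
  obtain ⟨y, hy, rfl, -⟩ := exists_odd_mult h
  exact hy

end MainA
open MainA

theorem main {n m : α → ℕ} {F : α → MP} (H : Good n m F) :
    CH (fun a => ∃ x, ¬ Solv (n a) (m a) (F a) x) := by
  obtain ⟨N1, b, hN1, G, hs⟩ := sample H
  obtain ⟨κ, N2, U, hκ, hN2, hU, hi⟩ := isolate G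
  obtain ⟨N3, c, W, hN3, Gc, hW, ht⟩ := test (H.comp (g := fun x : α × ℕ => x.1) PT.id.fst) G
  have hn := H.ptn
  have hm := H.ptm
  have hnb := H.pbn
  have hmb := H.pbm
  have G2 : GridF (fun y : (α × ℕ) × ℕ => n y.1.1 + m y.1.1)
      (fun y => bc (n y.1.1) (b y.1) (c y)) := by
    refine ⟨by fun_prop, (hnb.comp PT.id.fst.fst).add (hmb.comp PT.id.fst.fst), ?_⟩
    unfold bc
    exact CHU.ite (by fun_prop) (G.chu.app₂ PT.id.fst.fst PT.id.snd)
      (Gc.chu.app₂ PT.id.fst (by fun_prop))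
  obtain ⟨κ', N4, U', hκ', hN4, hU', hi'⟩ := isolate G2
  have P1 := parity (G.comp (g := fun y : (α × ℕ) × ℕ => y.1) PT.id.fst)
    (κ := fun y => κ y.1) (by fun_prop) (U := fun y => U y.1 y.2) hU
  have P2 := parity (G2.comp (g := fun y : (((α × ℕ) × ℕ) × ℕ) × ℕ => (y.1.1.1, y.1.2))
    (by fun_prop)) (κ := fun y => κ y.1.1.1 + κ' (y.1.1.1, y.1.2) + 1) (by fun_prop)
    (U := fun y => V (n y.1.1.1.1) (κ y.1.1.1) (κ' (y.1.1.1, y.1.2)) (U y.1.1.1 y.1.1.2)
      (U' (y.1.1.1, y.1.2) y.2) (W y.1.1.1)) (by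
      unfold V
      refine CHP.ite (by fun_prop) (CHP.trunc (by fun_prop) (hnb.comp (by fun_prop)) ?_)
        (CHP.ite (by fun_prop) ?_ (hW.comp (by fun_prop)))
      · exact hU.app₃ (by fun_prop) (by fun_prop) (by fun_prop)
      · exact hU'.app₃ (by fun_prop) (by fun_prop) (by fun_prop))
  have P3 := CH.forall_lt (α := ((α × ℕ) × ℕ) × ℕ) (N := fun y => N4 (y.1.1, y.2))
    (B := fun y s' => ¬ (Valid (n y.1.1.1 + m y.1.1.1) (bc (n y.1.1.1) (b y.1.1) (c (y.1.1, y.2))) ∧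
      Odd (mcnt (gridR (n y.1.1.1 + m y.1.1.1) (bc (n y.1.1.1) (b y.1.1) (c (y.1.1, y.2))))
        fun z => ∀ j < κ y.1.1 + κ' (y.1.1, y.2) + 1,
          0 < aeval z (V (n y.1.1.1) (κ y.1.1) (κ' (y.1.1, y.2)) (U y.1.1 y.1.2)
            (U' (y.1.1, y.2) s') (W y.1.1) j)))) (by fun_prop) P2.not
  have P4 := CH.forall_lt (α := (α × ℕ) × ℕ) (N := fun y => N3 y.1)
    (B := fun y g2 => ∀ s' < N4 (y.1, g2),
      ¬ (Valid (n y.1.1 + m y.1.1) (bc (n y.1.1) (b y.1) (c (y.1, g2))) ∧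
      Odd (mcnt (gridR (n y.1.1 + m y.1.1) (bc (n y.1.1) (b y.1) (c (y.1, g2))))
        fun z => ∀ j < κ y.1 + κ' (y.1, g2) + 1,
          0 < aeval z (V (n y.1.1) (κ y.1) (κ' (y.1, g2)) (U y.1 y.2)
            (U' (y.1, g2) s') (W y.1) j)))) (by fun_prop) P3
  have P5 := CH.exists_lt (α := α × ℕ) (N := N2)
    (B := fun x s => (Valid (n x.1) (b x) ∧
      Odd (mcnt (gridR (n x.1) (b x)) fun z => ∀ j < κ x, 0 < aeval z (U x s j))) ∧
      ∀ g2 < N3 x, ∀ s' < N4 (x, g2),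
      ¬ (Valid (n x.1 + m x.1) (bc (n x.1) (b x) (c (x, g2))) ∧
      Odd (mcnt (gridR (n x.1 + m x.1) (bc (n x.1) (b x) (c (x, g2))))
        fun z => ∀ j < κ x + κ' (x, g2) + 1,
          0 < aeval z (V (n x.1) (κ x) (κ' (x, g2)) (U x s) (U' (x, g2) s') (W x) j))))
    hN2 (P1.and P4)
  have P6 := CH.exists_lt (α := α) (N := N1)
    (B := fun a g1 => ∃ s < N2 (a, g1), (Valid (n a) (b (a, g1)) ∧
      Odd (mcnt (gridR (n a) (b (a, g1))) fun z => ∀ j < κ (a, g1), 0 < aeval z (U (a, g1) s j))) ∧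
      ∀ g2 < N3 (a, g1), ∀ s' < N4 ((a, g1), g2),
      ¬ (Valid (n a + m a) (bc (n a) (b (a, g1)) (c ((a, g1), g2))) ∧
      Odd (mcnt (gridR (n a + m a) (bc (n a) (b (a, g1)) (c ((a, g1), g2))))
        fun z => ∀ j < κ (a, g1) + κ' ((a, g1), g2) + 1,
          0 < aeval z (V (n a) (κ (a, g1)) (κ' ((a, g1), g2)) (U (a, g1) s) (U' ((a, g1), g2) s')
            (W (a, g1)) j)))) hN1 P5
  refine P6.congr fun a => ⟨fun h => ?_, ?_⟩
  · obtain ⟨g1, hg1, hv, x, hx, hc⟩ := hs a h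
    have hxm : x ∈ gridR (n a) (b (a, g1)) := mem_of_odd (by rw [hc]; exact odd_one)
    obtain ⟨s, hs2, hiso⟩ := hi (a, g1) hv x hxm
    refine ⟨g1, hg1, s, hs2, ⟨hv, ?_⟩, fun g2 _ s' _ hh => ?_⟩
    · rw [mcnt_congr hiso, hc]; exact odd_one
    · obtain ⟨z, hz, hz', -⟩ := exists_odd_mult hh.2
      obtain ⟨h1, -, h3⟩ := (V_iff _ _ _ _ _ _ _).1 hz'
      have e : trunc (n a) z = x := (hiso _ (trunc_mem hz)).1 h1
      have e2 := eq_upd hz
      rw [e] at e2
      rw [e2] at h3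
      exact (ht (a, g1) hv x hxm).1 hx _ h3
  · rintro ⟨g1, -, s, -, ⟨hv, ho⟩, hall⟩
    obtain ⟨x0, hx0, hU0, ho0⟩ := exists_odd_mult ho
    refine ⟨x0, fun hsol => ?_⟩
    obtain ⟨g2, hg2, hvc, y, hy, hyc⟩ := (ht (a, g1) hv x0 hx0).2 hsol
    have hv2 := valid_bc hv hvc
    have hodd : Odd (mcnt (gridR (n a + m a) (bc (n a) (b (a, g1)) (c ((a, g1), g2))))
        fun z => z = upd (n a) x0 y) := by
      rw [mcnt_upd hx0 hyc]; exact ho0
    obtain ⟨s', hs', hiso⟩ := hi' ((a, g1), g2) hv2 _ (mem_of_odd hodd)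
    refine hall g2 hg2 s' hs' ⟨hv2, ?_⟩
    rw [mcnt_congr (q := fun z => z = upd (n a) x0 y)]
    · exact hodd
    · intro z hz
      rw [V_iff]
      refine ⟨fun h => (hiso z hz).1 h.2.1, fun h => ⟨?_, (hiso z hz).2 h, ?_⟩⟩
      · rw [h, trunc_upd hx0]; exact hU0
      · rw [h]; exact hy

end Crest.Agent.R316
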