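import Crest.Agent.R316.Crit
/-!
# A clopen part of the zero set contains a limit of penalised local minimisers (task R316-Outer)

`N y = ∑ y_i^(d+1)`, `x0 ∈ Γ`, `ρ = N x0`, `S = {N ≤ ρ + 1}` compact.  `Γ ∩ S` is compact and disjoint from the closed set `V \ Γ`; choose `η > 0`
with `cthickening η (Γ ∩ S)` disjoint from `V \ Γ` (`IsCompact.exists_cthickening_subset_open`), `U = S ∩ cthickening η (Γ ∩ S)` compact, `x0 ∈ U`.
Let `x k` minimise `penR d k P` on `U`: `penR (x k) ≤ penR x0 = ρ`, so `N (x k) ≤ ρ` and `P (x k) ≤ ρ / ((d+1) k)`.  A subsequence converges to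
`x∞ ∈ U` with `P x∞ = 0`, so `x∞ ∈ Γ ∩ S`, and `N x∞ ≤ ρ`; thus `U ∈ 𝓝 x∞`, `x∞ ∈ interior U`, and eventually `x k ∈ interior U` is a local minimiser.  Shift the index.
-/
set_option autoImplicit false
namespace Crest.Agent.R316
open Finset Filter Topology

theorem outer_limit {n d : ℕ} (hd : Odd d) {P : (Fin n → ℝ) → ℝ} (hP : Continuous P)
    (h0 : ∀ x, 0 ≤ P x) {Γ : Set (Fin n → ℝ)} (hΓ : ∀ x ∈ Γ, P x = 0) (hne : Γ.Nonempty)
    (hc : IsClosed Γ) (hc' : IsClosed ({x | P x = 0} \ Γ)) :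
    ∃ x0 ∈ Γ, ∃ (T : ℕ → ℝ) (x : ℕ → Fin n → ℝ), Tendsto T atTop atTop ∧ Tendsto x atTop (𝓝 x0) ∧
      ∀ k, IsLocalMin (penR d (T k) P) (x k) := by
  obtain ⟨x0, hx0⟩ := hne
  let N : (Fin n → ℝ) → ℝ := fun y => ∑ i, y i ^ (d + 1)
  have hN : Continuous N := by simp only [N]; fun_prop
  have hN0 : ∀ y, 0 ≤ N y := fun y => Finset.sum_nonneg fun i _ => (hd.add_one).pow_nonneg _
  let S : Set (Fin n → ℝ) := {y | N y ≤ N x0 + 1}
  have hS : IsCompact S := isCompact_sublevel hd _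
  have hK : IsCompact (S ∩ Γ) := hS.inter_right hc
  obtain ⟨η, hη, hsub⟩ := hK.exists_cthickening_subset_open hc'.isOpen_compl
    (fun y hy h => h.2 hy.2)
  let U := S ∩ Metric.cthickening η (S ∩ Γ)
  have hU : IsCompact U := hS.inter_right Metric.isClosed_cthickening
  have hx0S : x0 ∈ S := by simp [S]
  have hx0U : x0 ∈ U := ⟨hx0S, Metric.self_subset_cthickening _ ⟨hx0S, hx0⟩⟩
  have hcont : ∀ T : ℝ, Continuous (penR d T P) := fun T => by
    unfold penR; fun_prop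
  have hex : ∀ k : ℕ, ∃ y ∈ U, IsMinOn (penR d k P) U y := fun k =>
    hU.exists_isMinOn ⟨x0, hx0U⟩ (hcont k).continuousOn
  choose x hxU hxmin using hex
  have hle : ∀ k : ℕ, ((d + 1 : ℕ) : ℝ) * k * P (x k) + N (x k) ≤ N x0 := fun k => by
    have h1 : penR d k P (x k) ≤ penR d k P x0 := hxmin k hx0U
    simpa only [penR, hΓ x0 hx0, mul_zero, zero_add] using h1
  obtain ⟨y, hyU, φ, hφ, hlim⟩ := hU.tendsto_subseq hxU
  have hφ' : Tendsto (fun k => (φ k : ℝ)) atTop atTop :=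
    tendsto_natCast_atTop_atTop.comp hφ.tendsto_atTop
  have hNy : N y ≤ N x0 := by
    refine le_of_tendsto' ((hN.tendsto y).comp hlim) fun k => ?_
    have h1 := hle (φ k)
    have h2 : 0 ≤ ((d + 1 : ℕ) : ℝ) * (φ k) * P (x (φ k)) := by have := h0 (x (φ k)); positivity
    simp only [Function.comp]; linarith
  have hPy : P y = 0 := by
    refine le_antisymm ?_ (h0 y)
    have h1 : Tendsto (fun k => N x0 / (φ k : ℝ)) atTop (𝓝 0) := hφ'.const_div_atTop _
    refine le_of_tendsto_of_tendsto ((hP.tendsto y).comp hlim) h1 ?_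
    filter_upwards [hφ'.eventually_gt_atTop 0] with k hk
    simp only [Function.comp]
    rw [le_div_iff₀ hk]
    have h2 := hle (φ k)
    have h3 := hN0 (x (φ k))
    have h4 : 0 ≤ (d : ℝ) * (φ k) * P (x (φ k)) := by have := h0 (x (φ k)); positivity
    push_cast at h2
    nlinarith
  have hyΓ : y ∈ Γ := by
    by_contra h
    exact hsub hyU.2 ⟨hPy, h⟩
  have hUn : U ∈ 𝓝 y := by
    refine inter_mem ?_ ?_
    · exact mem_of_superset ((isOpen_lt hN continuous_const).mem_nhds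
        (show N y < N x0 + 1 by linarith)) fun z (hz : N z < N x0 + 1) =>
          (hz.le : N z ≤ N x0 + 1)
    · exact mem_of_superset (Metric.isOpen_thickening.mem_nhds
        (Metric.self_subset_thickening hη (S ∩ Γ) ⟨hyU.1, hyΓ⟩)) (Metric.thickening_subset_cthickening _ _)
  have hev : ∀ᶠ k in atTop, x (φ k) ∈ interior U :=
    hlim.eventually (isOpen_interior.mem_nhds (mem_interior_iff_mem_nhds.2 hUn))
  obtain ⟨k0, hk0⟩ := eventually_atTop.1 hev
  refine ⟨y, hyΓ, fun k => (φ (k + k0) : ℝ), fun k => x (φ (k + k0)),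
    hφ'.comp (tendsto_add_atTop_nat k0), hlim.comp (tendsto_add_atTop_nat k0), fun k => ?_⟩
  exact (hxmin (φ (k + k0))).isLocalMin (mem_interior_iff_mem_nhds.1 (hk0 _ (by omega)))

end Crest.Agent.R316
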