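import Crest.Agent.R316.Defs
/-!
# Decoding sentences in polynomial time (task R316-Parse)

`natBits = natCode` format: use `parseNat` (check `natBits k = natCode k`, else write the analogue).  `Enc Sentence` is the encoding of `(r, s, toks body)`, so `PT dec` means that
`w ↦ ((dec w).r, (dec w).s, toks (dec w).body)` is `PT` (`PT.of_enc`).  Suggested route: (1) bits → list of numbers (iterate `parseNat` `|w|` times, stop at the empty string);
(2) numbers → tokens, a loop with state `(rest, tokens)`: tag `6/7`: read the length `l`, then `min l |rest|` gates (tag `0,3,4,5`: three numbers, `1,2`: two); tag `8,9,10`: token `(tag, [])`;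
(3) a `PT` test that a token list `t` is `toks φ` for some `φ`: all gates are `toNats` of a gate (tag, length, sign `≤ 1`, no negative zero), tags `8,9,10` carry `[]`, and the stack-height scan from the right succeeds
with final height `1`.  Define `dec w` by `if h : ∃ φ, toks φ = t then ⟨r, s, h.choose⟩ else default` (`toks` is injective: prefix code, `toks φ ++ r = toks ψ ++ r' → φ = ψ ∧ r = r'`).
`WF` and `encode` are expressed through the tokens: `Form.toNats φ = (toks φ).flatMap fun k => if k.1 ≤ 7 then k.1 :: k.2.length :: k.2.flatten else [k.1]`, and `φ.WF r s` iff every token with tag `≤ 7` has a nonempty circuit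
whose gate at position `t` satisfies the bound for its tag.
-/
set_option autoImplicit false
namespace Crest.Agent.R316
open Crest.Agent.PTime Crest.RealEA

namespace ParseA

/-- tokens -/
abbrev Tok : Type := ℕ × List (List ℕ)

theorem natBits_eq (k : ℕ) : natBits k = Crest.Enc.natCode k := by
  simp [natBits, Crest.Enc.natCode, List.flatMap_def]

/-- the numbers of a token -/
def tnats (k : Tok) : List ℕ := if k.1 ≤ 7 then k.1 :: k.2.length :: k.2.flatten else [k.1]

theorem toNats_eq (φ : Form) : φ.toNats = (toks φ).flatMap tnats := by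
  induction φ with
  | eqZero c => simp [Form.toNats, toks, tnats, circuitToNats, List.flatMap_def]
  | pos c => simp [Form.toNats, toks, tnats, circuitToNats, List.flatMap_def]
  | and φ ψ h1 h2 => simp [Form.toNats, toks, tnats, h1, h2]
  | or φ ψ h1 h2 => simp [Form.toNats, toks, tnats, h1, h2]
  | not φ h1 => simp [Form.toNats, toks, tnats, h1]

/-- the bits of a list of numbers -/
def nb (l : List ℕ) : List Bool := l.flatMap Crest.Enc.natCode

theorem nb_cons (a : ℕ) (l : List ℕ) : nb (a :: l) = Crest.Enc.natCode a ++ nb l := by simp [nb]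

theorem nb_nil : nb [] = [] := rfl

theorem encode_eq (S : Sentence) : S.encode = nb (S.r :: S.s :: (toks S.body).flatMap tnats) := by
  unfold Sentence.encode Sentence.toNats nb
  rw [toNats_eq, show natBits = Crest.Enc.natCode from funext natBits_eq]

theorem nb_flatten (l : List (List ℕ)) : nb l.flatten = (l.map nb).flatten := by
  induction l with
  | nil => rfl
  | cons a l ih =>
    unfold nb at *
    simp only [List.flatten_cons, List.flatMap_append, List.map_cons, ih]

/-- lists of numbers that are gates -/
def okG (g : List ℕ) : Prop :=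
  g = [0, 0, g.getD 2 0] ∨ (g = [0, 1, g.getD 2 0] ∧ g.getD 2 0 ≠ 0) ∨ g = [1, g.getD 1 0] ∨
    g = [2, g.getD 1 0] ∨ g = [3, g.getD 1 0, g.getD 2 0] ∨ g = [4, g.getD 1 0, g.getD 2 0] ∨
    g = [5, g.getD 1 0, g.getD 2 0]

theorem okG_toNats (a : AGate) : okG a.toNats := by
  cases a with
  | const z =>
    by_cases h : z < 0
    · right; left
      simp [AGate.toNats, h, h.ne]
    · left
      simp [AGate.toNats, h]
  | _ => simp [okG, AGate.toNats]

theorem okG.exists {g : List ℕ} (h : okG g) : ∃ a : AGate, a.toNats = g := by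
  unfold okG at h
  generalize g.getD 1 0 = a at h
  generalize g.getD 2 0 = b at h
  rcases h with rfl | ⟨rfl, h⟩ | rfl | rfl | rfl | rfl | rfl
  · exact ⟨.const b, by simp [AGate.toNats]⟩
  · exact ⟨.const (-b), by simp [AGate.toNats, Nat.pos_of_ne_zero h]⟩
  · exact ⟨.varX a, rfl⟩
  · exact ⟨.varY a, rfl⟩
  · exact ⟨.add a b, rfl⟩
  · exact ⟨.sub a b, rfl⟩
  · exact ⟨.mul a b, rfl⟩

theorem toNats_inj : Function.Injective AGate.toNats := by
  intro a b h
  cases a <;> cases b <;> simp [AGate.toNats] at h ⊢ <;> try exact h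
  obtain ⟨h1, h2⟩ := h
  split_ifs at h1 <;> omega

/-- valid tokens -/
def okT (k : Tok) : Prop :=
  ((k.1 = 6 ∨ k.1 = 7) ∧ ∀ g ∈ k.2, okG g) ∨ ((k.1 = 8 ∨ k.1 = 9 ∨ k.1 = 10) ∧ k.2 = [])

theorem okT_toks (φ : Form) : ∀ k ∈ toks φ, okT k := by
  induction φ with
  | eqZero c => simp [toks, okT, okG_toNats]
  | pos c => simp [toks, okT, okG_toNats]
  | and φ ψ h1 h2 =>
    simp only [toks, List.mem_cons, List.mem_append]
    rintro k (rfl | h | h)
    exacts [by simp [okT], h1 k h, h2 k h]
  | or φ ψ h1 h2 =>
    simp only [toks, List.mem_cons, List.mem_append]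
    rintro k (rfl | h | h)
    exacts [by simp [okT], h1 k h, h2 k h]
  | not φ h1 =>
    simp only [toks, List.mem_cons]
    rintro k (rfl | h)
    exacts [by simp [okT], h1 k h]

theorem exists_gates {l : List (List ℕ)} (h : ∀ g ∈ l, okG g) :
    ∃ c : List AGate, c.map AGate.toNats = l := by
  induction l with
  | nil => exact ⟨[], rfl⟩
  | cons g l ih =>
    obtain ⟨c, hc⟩ := ih fun g' hg' => h g' (List.mem_cons_of_mem _ hg')
    obtain ⟨a, ha⟩ := (h g List.mem_cons_self).exists
    exact ⟨a :: c, by rw [List.map_cons, ha, hc]⟩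

/-- one step of the stack-height scan (`0` is failure, `h + 1` is height `h`) -/
def hs (s : ℕ) (k : Tok) : ℕ :=
  if s = 0 then 0 else if k.1 ≤ 7 then s + 1 else if k.1 = 10 then (if 2 ≤ s then s else 0)
    else if 3 ≤ s then s - 1 else 0

theorem hs_toks (φ : Form) : ∀ h, (toks φ).foldr (fun k s => hs s k) (h + 1) = h + 2 := by
  induction φ with
  | eqZero c => intro h; simp [toks, hs]
  | pos c => intro h; simp [toks, hs]
  | and φ ψ h1 h2 => intro h; simp only [toks, List.foldr_cons, List.foldr_append, h1, h2]; simp [hs]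
  | or φ ψ h1 h2 => intro h; simp only [toks, List.foldr_cons, List.foldr_append, h1, h2]; simp [hs]
  | not φ h1 => intro h; simp only [toks, List.foldr_cons, h1]; simp [hs]

theorem exists_forms (t : List Tok) (ht : ∀ k ∈ t, okT k) : ∀ h,
    t.foldr (fun k s => hs s k) 1 = h + 1 → ∃ L : List Form, L.length = h ∧ L.flatMap toks = t := by
  induction t with
  | nil => intro h hh; exact ⟨[], by simp at hh ⊢; omega, rfl⟩
  | cons k t ih =>
    intro h hh
    rw [List.foldr_cons] at hh
    generalize hs' : t.foldr (fun k s => hs s k) 1 = s at hh ih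
    obtain ⟨s, rfl⟩ : ∃ s', s = s' + 1 := ⟨s - 1, by
      rcases Nat.eq_zero_or_pos s with rfl | h0
      · simp [hs] at hh
      · omega⟩
    obtain ⟨L, hL, rfl⟩ := ih (fun k' hk' => ht k' (List.mem_cons_of_mem _ hk')) s rfl
    obtain ⟨a, l⟩ := k
    rcases ht (a, l) List.mem_cons_self with ⟨ha, hl⟩ | ⟨ha, hl⟩
    · obtain ⟨c, rfl⟩ := exists_gates hl
      simp only at ha
      rcases ha with rfl | rfl
      · exact ⟨.eqZero c :: L, by simp [hs] at hh ⊢; omega, by simp [toks]⟩
      · exact ⟨.pos c :: L, by simp [hs] at hh ⊢; omega, by simp [toks]⟩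
    · simp only at ha hl
      subst hl
      rcases ha with rfl | rfl | rfl
      · match L, hL with
        | [], hL => subst hL; simp [hs] at hh
        | [_], hL => subst hL; simp [hs] at hh
        | φ :: ψ :: L, hL =>
          subst hL
          exact ⟨.and φ ψ :: L, by simp [hs] at hh ⊢; omega, by simp [toks]⟩
      · match L, hL with
        | [], hL => subst hL; simp [hs] at hh
        | [_], hL => subst hL; simp [hs] at hh
        | φ :: ψ :: L, hL =>
          subst hL
          exact ⟨.or φ ψ :: L, by simp [hs] at hh ⊢; omega, by simp [toks]⟩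
      · match L, hL with
        | [], hL => subst hL; simp [hs] at hh
        | φ :: L, hL =>
          subst hL
          exact ⟨.not φ :: L, by simp [hs] at hh ⊢; omega, by simp [toks]⟩

/-- token lists of formulas -/
def okL (t : List Tok) : Prop := (∀ k ∈ t, okT k) ∧ t.foldr (fun k s => hs s k) 1 = 2

theorem okL_toks (φ : Form) : okL (toks φ) := ⟨okT_toks φ, hs_toks φ 0⟩

theorem okL.exists {t : List Tok} (h : okL t) : ∃ φ, toks φ = t := by
  obtain ⟨L, hL, rfl⟩ := exists_forms t h.1 1 h.2
  obtain ⟨φ, rfl⟩ := List.length_eq_one_iff.1 hL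
  exact ⟨φ, by simp⟩

theorem toks_prefix (φ : Form) : ∀ (ψ : Form) (r r' : List Tok), toks φ ++ r = toks ψ ++ r' →
    φ = ψ ∧ r = r' := by
  induction φ with
  | eqZero c =>
    intro ψ r r' h
    cases ψ <;> simp [toks] at h ⊢
    exact ⟨List.map_injective_iff.2 toNats_inj h.1, h.2⟩
  | pos c =>
    intro ψ r r' h
    cases ψ <;> simp [toks] at h ⊢
    exact ⟨List.map_injective_iff.2 toNats_inj h.1, h.2⟩
  | and φ1 φ2 h1 h2 =>
    intro ψ r r' h
    cases ψ <;> simp [toks] at h ⊢
    obtain ⟨e1, e2⟩ := h1 _ _ _ h
    obtain ⟨e3, e4⟩ := h2 _ _ _ e2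
    exact ⟨⟨e1, e3⟩, e4⟩
  | or φ1 φ2 h1 h2 =>
    intro ψ r r' h
    cases ψ <;> simp [toks] at h ⊢
    obtain ⟨e1, e2⟩ := h1 _ _ _ h
    obtain ⟨e3, e4⟩ := h2 _ _ _ e2
    exact ⟨⟨e1, e3⟩, e4⟩
  | not φ1 h1 =>
    intro ψ r r' h
    cases ψ <;> simp [toks] at h ⊢
    exact h1 _ _ _ h

theorem toks_inj {φ ψ : Form} (h : toks φ = toks ψ) : φ = ψ :=
  (toks_prefix φ ψ [] [] (by rw [h])).1

theorem PT_okG : PT okG := by
  unfold okG; fun_prop

theorem PT_okT : PT okT := by
  unfold okT
  exact PT.or (PT.and (by fun_prop)
    (PT.forall_mem (p := fun _ g => okG g) (PT_okG.comp PT.id.snd) PT.id.snd)) (by fun_prop)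

theorem hs_le (l : List Tok) : ∀ s, l.foldl hs s ≤ s + l.length := by
  induction l with
  | nil => intro s; simp
  | cons k l ih =>
    intro s
    have h1 := ih (hs s k)
    have h2 : hs s k ≤ s + 1 := by unfold hs; split_ifs <;> omega
    rw [List.foldl_cons, List.length_cons]
    omega

theorem PT_okL : PT okL := by
  unfold okL
  refine PT.and (PT.forall_mem (p := fun _ k => okT k) (PT_okT.comp PT.id.snd) PT.id) ?_
  have := PT.foldl (f := fun (_ : List Tok) s k => hs s k) (init := fun _ => 1)
    (l := fun t => t.reverse) (by unfold hs; fun_prop) (PT.const _) PT.id.reverse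
    (B := fun t => 4 * (1 + t.length) + 1) (by fun_prop) (fun t i => by
      have h1 := hs_le (t.reverse.take i) 1
      have h2 : (t.reverse.take i).length ≤ t.length := by simp
      have h3 := sz_le_self ((t.reverse.take i).foldl hs 1)
      show sz ((t.reverse.take i).foldl hs 1) ≤ _
      omega)
  exact (this.eq (PT.const 2)).congr fun t => by rw [List.foldl_reverse]

/-- parser for a gate -/
def pg (w : List Bool) : List ℕ × List Bool :=
  if (parseNat w).1 = 1 ∨ (parseNat w).1 = 2 then
    ([(parseNat w).1, (parseNat (parseNat w).2).1], (parseNat (parseNat w).2).2)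
  else ([(parseNat w).1, (parseNat (parseNat w).2).1, (parseNat (parseNat (parseNat w).2).2).1],
    (parseNat (parseNat (parseNat w).2).2).2)

theorem pg_len (w : List Bool) : (pg w).2.length ≤ w.length := by
  have h1 := parseNat_len w
  have h2 := parseNat_len (parseNat w).2
  have h3 := parseNat_len (parseNat (parseNat w).2).2
  unfold pg
  split_ifs <;> simp only <;> omega

theorem PT_pg : PT pg := by
  unfold pg; fun_prop

theorem pg_code {g : List ℕ} (h : okG g) (r : List Bool) : pg (nb g ++ r) = (g, r) := by
  unfold okG at h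
  generalize g.getD 1 0 = a at h
  generalize g.getD 2 0 = b at h
  rcases h with rfl | ⟨rfl, h⟩ | rfl | rfl | rfl | rfl | rfl <;>
    simp [pg, nb_cons, nb_nil, parseNat_natCode]

/-- parser for a token, or nothing at the end of the string -/
def ptk (w : List Bool) : List Tok × List Bool :=
  if w = [] then ([], []) else if (parseNat w).1 ≤ 7 then
    ([((parseNat w).1, (parseRep pg (min w.length (parseNat (parseNat w).2).1)
        (parseNat (parseNat w).2).2).1)],
      (parseRep pg (min w.length (parseNat (parseNat w).2).1) (parseNat (parseNat w).2).2).2)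
  else ([((parseNat w).1, [])], (parseNat w).2)

theorem ptk_len (w : List Bool) : (ptk w).2.length ≤ w.length := by
  have h1 := parseNat_len w
  have h2 := parseNat_len (parseNat w).2
  have h3 := parseRep_len pg pg_len (min w.length (parseNat (parseNat w).2).1)
    (parseNat (parseNat w).2).2
  unfold ptk
  split_ifs <;> simp only [List.length_nil] <;> omega

theorem PT_ptk : PT ptk := by
  have h : PT (fun w : List Bool => parseRep pg (min w.length (parseNat (parseNat w).2).1)
      (parseNat (parseNat w).2).2) :=
    PT.parseRep (p := fun _ => pg) (PT_pg.comp PT.id.snd) (fun _ => pg_len) (by fun_prop)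
      (by fun_prop) (by fun_prop)
  unfold ptk
  exact PT.ite (by fun_prop) (PT.const _) (PT.ite (by fun_prop)
    (PT.pair (PT.cons (PT.pair (by fun_prop) h.fst) (PT.const _)) h.snd) (by fun_prop))

theorem natCode_ne_nil (a : ℕ) (r : List Bool) : Crest.Enc.natCode a ++ r ≠ [] := by
  simp [Crest.Enc.natCode]

theorem length_le_nb {l : List (List ℕ)} (h : ∀ g ∈ l, okG g) :
    l.length ≤ (l.map nb).flatten.length := by
  induction l with
  | nil => simp
  | cons g l ih =>
    have h1 := ih fun g' hg' => h g' (List.mem_cons_of_mem _ hg')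
    have h2 : 0 < (nb g).length := by
      obtain ⟨a, rfl⟩ := (h g List.mem_cons_self).exists
      cases a <;> simp [AGate.toNats, nb_cons, Crest.Enc.natCode]
    simp only [List.map_cons, List.flatten_cons, List.length_append, List.length_cons]
    omega

theorem ptk_code {k : Tok} (h : okT k) (r : List Bool) : ptk (nb (tnats k) ++ r) = ([k], r) := by
  obtain ⟨a, l⟩ := k
  rcases h with ⟨ha, hl⟩ | ⟨ha, hl⟩
  · have ha' : a ≤ 7 := by simp only at ha; omega
    have h1 := length_le_nb hl
    unfold ptk tnats
    simp only [if_pos ha', nb_cons, List.append_assoc, if_neg (natCode_ne_nil _ _),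
      parseNat_natCode]
    rw [min_eq_right (by rw [nb_flatten]; simp only [List.length_append]; simp only at h1; omega),
      nb_flatten, parseRep_code pg nb l (fun g hg r => pg_code (hl g hg) r)]
  · have ha' : ¬ a ≤ 7 := by simp only at ha; omega
    simp only at hl
    subst hl
    unfold ptk tnats
    simp only [if_neg ha', nb_cons, nb_nil, List.append_nil, if_neg (natCode_ne_nil _ _),
      parseNat_natCode]

/-- all tokens -/
def ptks (w : List Bool) : List Tok := (parseRep ptk w.length w).1.flatten

theorem PT_ptks : PT ptks :=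
  (PT.parseRep (p := fun _ => ptk) (PT_ptk.comp PT.id.snd) (fun _ => ptk_len) PT.id.length
    (PB.length PT.id) PT.id).fst.flatten

theorem ptks_code {t : List Tok} (h : ∀ k ∈ t, okT k) : ptks (nb (t.flatMap tnats)) = t := by
  have e : nb (t.flatMap tnats) =
      ((t.map fun k => [k]).map fun l => nb (l.flatMap tnats)).flatten ++ [] := by
    rw [List.flatMap_def, nb_flatten]
    simp [Function.comp_def]
  have h1 := parseRep_code ptk (fun l => nb (l.flatMap tnats)) (t.map fun k => [k])
    (fun x hx r => by
      obtain ⟨k, hk, rfl⟩ := List.mem_map.1 hx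
      simpa using ptk_code (h k hk) r) []
  rw [← e, List.length_map] at h1
  have h2 : t.length ≤ (nb (t.flatMap tnats)).length := by
    clear h1 e h
    induction t with
    | nil => simp
    | cons k t ih =>
      have : 0 < (nb (tnats k)).length := by
        unfold tnats
        split_ifs <;> simp [nb_cons, Crest.Enc.natCode]
      unfold nb at *
      simp only [List.flatMap_cons, List.flatMap_append, List.length_append, List.length_cons]
      omega
  obtain ⟨j, hj⟩ := Nat.exists_eq_add_of_le' h2
  have h3 : ∀ (j : ℕ) (acc : List (List Tok)),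
      ((fun s : List (List Tok) × List Bool => (s.1 ++ [(ptk s.2).1], (ptk s.2).2))^[j]
        (acc, [])).1.flatten = acc.flatten := by
    intro j
    induction j with
    | zero => intro acc; rfl
    | succ j ih =>
      intro acc
      rw [Function.iterate_succ_apply]
      have : ptk [] = ([], []) := rfl
      simp only [this]
      rw [ih]
      simp
  unfold ptks
  rw [hj]
  unfold parseRep at h1 ⊢
  rw [Function.iterate_add_apply, h1, h3]
  simp [List.flatten_eq_flatMap, List.flatMap_map]

/-- well-formedness of a gate, on its numbers -/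
def gwf (r s t : ℕ) (g : List ℕ) : Prop :=
  (g.getD 0 0 ≠ 1 ∨ g.getD 1 0 < r) ∧ (g.getD 0 0 ≠ 2 ∨ g.getD 1 0 < s) ∧
    (g.getD 0 0 < 3 ∨ (g.getD 1 0 < t ∧ g.getD 2 0 < t))

theorem gwf_iff (r s t : ℕ) (a : AGate) : gwf r s t a.toNats ↔ a.WF r s t := by
  cases a <;> simp [gwf, AGate.toNats, AGate.WF]

/-- well-formedness of a token -/
def twf (r s : ℕ) (k : Tok) : Prop :=
  7 < k.1 ∨ (k.2 ≠ [] ∧ ∀ t < k.2.length, gwf r s t (k.2.getD t []))

theorem cwf_iff (r s : ℕ) (c : List AGate) :
    (c.map AGate.toNats ≠ [] ∧ ∀ t < (c.map AGate.toNats).length,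
      gwf r s t ((c.map AGate.toNats).getD t [])) ↔ CircuitWF r s c := by
  unfold CircuitWF
  refine and_congr (by simp) ⟨fun h t => ?_, fun h t ht => ?_⟩
  · have := h t (by simp)
    rw [List.getD_eq_getElem _ _ (by simp), List.getElem_map, gwf_iff] at this
    exact this
  · rw [List.getD_eq_getElem _ _ ht, List.getElem_map, gwf_iff]
    exact h ⟨t, by simpa using ht⟩

theorem wf_iff (r s : ℕ) (φ : Form) : φ.WF r s ↔ ∀ k ∈ toks φ, twf r s k := by
  induction φ with
  | eqZero c => simp only [Form.WF, toks, List.mem_singleton, forall_eq, twf, cwf_iff]; simp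
  | pos c => simp only [Form.WF, toks, List.mem_singleton, forall_eq, twf, cwf_iff]; simp
  | and φ ψ h1 h2 =>
    simp only [Form.WF, toks, List.forall_mem_cons, List.forall_mem_append, h1, h2]; simp [twf]
  | or φ ψ h1 h2 =>
    simp only [Form.WF, toks, List.forall_mem_cons, List.forall_mem_append, h1, h2]; simp [twf]
  | not φ h1 => simp only [Form.WF, toks, List.forall_mem_cons, h1]; simp [twf]

end ParseA
open ParseA

theorem exists_dec : ∃ dec : List Bool → Sentence, PT dec ∧ ∀ S : Sentence, dec S.encode = S := by
  classical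
  have hok : PT (fun w : List Bool => okL (ptks (parseNat (parseNat w).2).2)) :=
    PT_okL.comp (PT_ptks.comp (by fun_prop))
  have htk : PT (fun w : List Bool => ptks (parseNat (parseNat w).2).2) :=
    PT_ptks.comp (by fun_prop)
  refine ⟨fun w => if h : okL (ptks (parseNat (parseNat w).2).2) then
    ⟨(parseNat w).1, (parseNat (parseNat w).2).1, h.exists.choose⟩ else ⟨0, 0, .eqZero []⟩, ?_, ?_⟩
  · refine PT.of_enc (g := fun w : List Bool => if okL (ptks (parseNat (parseNat w).2).2) then
      ((parseNat w).1, (parseNat (parseNat w).2).1, ptks (parseNat (parseNat w).2).2)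
      else (0, 0, toks (.eqZero []))) (PT.ite hok (by fun_prop) (PT.const _)) fun w => ?_
    split_ifs with h
    · show enc ((parseNat w).1, (parseNat (parseNat w).2).1, toks h.exists.choose) = _
      rw [h.exists.choose_spec]
    · rfl
  · intro S
    have e1 : parseNat S.encode = (S.r, nb (S.s :: (toks S.body).flatMap tnats)) := by
      rw [encode_eq, nb_cons, parseNat_natCode]
    have e2 : parseNat (parseNat S.encode).2 = (S.s, nb ((toks S.body).flatMap tnats)) := by
      rw [e1, nb_cons, parseNat_natCode]
    have e3 : ptks (parseNat (parseNat S.encode).2).2 = toks S.body := by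
      rw [e2, ptks_code (okT_toks _)]
    have h : okL (ptks (parseNat (parseNat S.encode).2).2) := by rw [e3]; exact okL_toks _
    beta_reduce
    rw [dif_pos h, toks_inj (h.exists.choose_spec.trans e3), e2, e1]

theorem PT.encode : PT (fun S : Sentence => S.encode) := by
  have h := PT.sentence
  have h1 := h.fst
  have h2 := h.snd.fst
  have h3 := h.snd.snd
  refine PT.congr ?_ encode_eq
  unfold nb tnats
  fun_prop

theorem PT.wf : PT (fun S : Sentence => S.WF) := by
  have h := PT.sentence
  have h1 := h.fst
  have h2 := h.snd.fst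
  have h3 := h.snd.snd
  refine PT.congr_prop ?_ fun S => wf_iff S.r S.s S.body
  refine PT.forall_mem ?_ h3
  unfold twf
  refine PT.or (by fun_prop) (PT.and (by fun_prop) (PT.forall_lt (by fun_prop) (by fun_prop) ?_))
  unfold gwf
  fun_prop

end Crest.Agent.R316
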