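import Crest.Agent.R316.CHFun
/-!
# Modular powers and exponentially long products modulo a prime (task R316-ProdMod)

* `PT.powMod`: square-and-multiply, a `foldl` over `(e a).bits.reverse` with state `< p` (`PT.foldl_bdd`; see
  `ofBits_concat`).
* `CHF.prodMod`: `g a` = a generator of `(ZMod p)ˣ` as a number: witness (`CHF.choose`) of
  `∀ x < p, x ≠ 0 → ∃ e < p, powMod g e p = x` (`IsCyclic.exists_generator`).  `lg a i` = witness `e < p` of
  `powMod g e p = f a i % p`.  The result is `0` if `∃ i < N, f a i % p = 0`, else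
  `powMod g (∑ i < N, lg a i) p`.
-/
set_option autoImplicit false
namespace Crest.Agent.R316
open Crest.Agent.PTime Finset
variable {α : Type} [Enc α]

@[fun_prop] theorem PT.powMod {b e p : α → ℕ} (hb : PT b) (he : PT e) (hp : PT p) :
    PT (fun a => powMod (b a) (e a) (p a)) := by
  have h := PT.foldl_bdd (f := fun (a : α) (s : ℕ) (c : Bool) => s * s * cond c (b a) 1 % p a)
    (init := fun a => 1 % p a) (l := fun a => if p a = 0 then [] else (e a).bits.reverse)
    (by fun_prop) (by fun_prop) (by fun_prop) (B := fun a => 4 * sz (p a + 1) + 1) (by fun_prop)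
    (fun a s => s ≤ p a + 1) (fun a => (Nat.mod_le _ _).trans (by omega))
    (fun a s c hc _ => by
      have h0 : p a ≠ 0 := fun h => by simp [h] at hc
      exact (Nat.mod_lt _ (Nat.pos_of_ne_zero h0)).le.trans (by omega))
    (fun a s hs => sz_le_of_le hs)
  have h2 : PT (fun a => if p a = 0 then 0 else
      (if p a = 0 then [] else (e a).bits.reverse).foldl
        (fun (s : ℕ) (c : Bool) => s * s * cond c (b a) 1 % p a) (1 % p a)) := by fun_prop
  refine h2.congr fun a => ?_
  unfold R316.powMod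
  split_ifs with h0
  · rfl
  · have key : ∀ l : List Bool, l.reverse.foldl
        (fun (s : ℕ) (c : Bool) => s * s * cond c (b a) 1 % p a) (1 % p a) =
          b a ^ ofBits l % p a := by
      intro l
      induction l with
      | nil => simp
      | cons c l ih =>
        rw [List.reverse_cons, List.foldl_append, ih, ofBits_cons]
        have h1 := Nat.mod_modEq (b a ^ ofBits l) (p a)
        have h2 := (h1.mul h1).mul_right (b a)
        cases c
        · simp [pow_add, pow_mul', sq, mul_comm]
        · simpa [pow_add, pow_mul', sq, mul_comm, Nat.ModEq] using h2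
    rw [key, ofBits_bits]

theorem cast_powMod (b e : ℕ) {p : ℕ} (hp : p ≠ 0) : ((powMod b e p : ℕ) : ZMod p) = (b : ZMod p) ^ e := by
  simp [powMod, hp]

theorem CHF.powMod {b e p : α → ℕ} (hb : CHF b) (he : CHF e) (hp : PT p) :
    CHF (fun a => powMod (b a) (e a) (p a)) :=
  CHF.op₂ (op := fun a x y => R316.powMod x y (p a)) (by fun_prop) hb he

theorem CHF.prodMod {f : α → ℕ → ℕ} {N p : α → ℕ} (hN : PT N) (hp : PT p)
    (hf : CHF (fun x : α × ℕ => f x.1 x.2)) :
    ∃ e : α → ℕ, CHF e ∧ ∀ a, (p a).Prime →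
      ((e a : ℕ) : ZMod (p a)) = ∏ i ∈ range (N a), ((f a i : ℕ) : ZMod (p a)) := by
  obtain ⟨g, hg, hgs⟩ := CHF.choose (B := fun a g => ∀ x < p a, x ≠ 0 →
      ∃ e < p a, R316.powMod g e (p a) = x) hp
    (CH.forall_lt (by fun_prop) (CH.imp (CH.of_PT (by fun_prop))
      (CH.exists_lt (by fun_prop) (CH.of_PT (by fun_prop)))))
  obtain ⟨lg, hlg, hlgs⟩ := CHF.choose (α := α × ℕ)
    (B := fun x e => R316.powMod (g x.1) e (p x.1) = f x.1 x.2 % p x.1) (N := fun x => p x.1)
    (by fun_prop) (CHF.eq
      (CHF.powMod (hg.comp (by fun_prop)) (CHF.of_PT (by fun_prop)) (by fun_prop))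
      ((hf.comp (g := fun y : (α × ℕ) × ℕ => y.1) (by fun_prop)).mod (CHF.of_PT (by fun_prop))))
  classical
  refine ⟨fun a => if ∃ i < N a, f a i % p a = 0 then 0 else
    R316.powMod (g a) (∑ i ∈ range (N a), lg (a, i)) (p a), ?_, fun a ha => ?_⟩
  · exact CHF.ite (CH.exists_lt hN (CHF.eq (hf.mod (CHF.of_PT (by fun_prop))) (CHF.const 0)))
      (CHF.const 0) (CHF.powMod hg (CHF.sum_range (f := fun a i => lg (a, i)) hN hlg) hp)
  · haveI := Fact.mk ha
    have hp0 : p a ≠ 0 := ha.ne_zero
    beta_reduce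
    split_ifs with h
    · obtain ⟨i, hi, h0⟩ := h
      rw [Nat.cast_zero, eq_comm]
      refine prod_eq_zero (mem_range.2 hi) ?_
      rw [← ZMod.natCast_mod, h0, Nat.cast_zero]
    · push Not at h
      have hex : ∃ g < p a, ∀ x < p a, x ≠ 0 → ∃ e < p a, R316.powMod g e (p a) = x := by
        obtain ⟨u, hu⟩ := IsCyclic.exists_generator (α := (ZMod (p a))ˣ)
        refine ⟨(u : ZMod (p a)).val, ZMod.val_lt _, fun x hx hx0 => ?_⟩
        have hx' : (x : ZMod (p a)) ≠ 0 := by
          rw [Ne, ZMod.natCast_eq_zero_iff]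
          exact Nat.not_dvd_of_pos_of_lt (Nat.pos_of_ne_zero hx0) hx
        have hmem : Units.mk0 _ hx' ∈ (range (orderOf u)).image (u ^ ·) :=
          mem_zpowers_iff_mem_range_orderOf.1 (hu _)
        obtain ⟨e, he, hue⟩ := mem_image.1 hmem
        have hlt : orderOf u < p a := by
          have h1 : orderOf u ≤ Fintype.card (ZMod (p a))ˣ := orderOf_le_card_univ
          rw [ZMod.card_units] at h1
          have := ha.pos
          omega
        refine ⟨e, (mem_range.1 he).trans hlt, ?_⟩
        have h2 : ((R316.powMod (u : ZMod (p a)).val e (p a) : ℕ) : ZMod (p a)) = x := by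
          rw [cast_powMod _ _ hp0, ZMod.natCast_zmod_val]
          simpa using congrArg Units.val hue
        have h3 : R316.powMod (u : ZMod (p a)).val e (p a) < p a := by
          simp only [R316.powMod, if_neg hp0]; exact Nat.mod_lt _ ha.pos
        have h4 := (ZMod.natCast_eq_natCast_iff' _ _ _).1 h2
        rwa [Nat.mod_eq_of_lt h3, Nat.mod_eq_of_lt hx] at h4
      rw [cast_powMod _ _ hp0, ← prod_pow_eq_pow_sum]
      refine prod_congr rfl fun i hi => ?_
      have h5 := (hlgs (a, i) ((hgs a hex).2 _ (Nat.mod_lt _ ha.pos) (h i (mem_range.1 hi)))).2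
      rw [← cast_powMod _ _ hp0, h5, ZMod.natCast_mod]

end Crest.Agent.R316
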