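import Crest.Agent.R316.InnerChi
import Crest.Agent.R316.Outer
import Crest.Agent.R316.Thom
/-!
# Sample points in clopen parts of a zero set (task R316-SamplePt)

`d` from `exists_deg`.  Apply `elim` on the index type `α × ℕ` with `lo = 0`, `m = n`, `g i' = - (X n * pderiv (min i' n) P)`, `h (a, i) = X i`: `D`, `E`.
`Km` bounds the degrees of `E (a,i) k` (`k ≤ D (a,i)`, `i < n`), `c i k l = constantCoeff (cf n 1 (fun _ => l) (E (a,i) k))`,
`B i l = ∑ k ≤ D, C (c i k l) * X ^ (D - k)` (`CHU`).  A guess `g < N = M ^ (2 n)` with `M > Km` and `M > D (a,i)` for all `i < n` (`PT.exists_lt_pow`, `PB.sup_lt`) codes `l_i = dig M g (2i)`, `μ_i = dig M g (2i+1)`;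
`b (a,g) i = derivative^[μ_i] (B i l_i)`.  With `x0, T, x` from `outer_limit`, the point `v_k = upd 0 (Pi.single n (T k)) (x k)` solves the system (`crit`, `dep`), and
`aeval v_k (E j) = aeval (Pi.single n (T k)) (E j) = ∑_l c i j l * T k ^ l` (`expand_one`, `aeval_cf_congr`, `aeval_zero_eq`).  With `a l j = c i (D - j) l`, `a 0 D ≠ 0` (`cf_C_zero`); `exists_top` gives `(K, e)`,
`lead_limit` gives `aeval (x0 i) (B i K) = 0`, and `B i K ≠ 0` (coefficient `e`).  `simple_root`, `choose`, `exists_dig`.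
-/
set_option autoImplicit false
namespace Crest.Agent.R316
open Crest.Agent.PTime MvPolynomial Finset
variable {α : Type} [Enc α]

namespace SamplePt
open Filter Topology

/-- coefficient of `T ^ l` -/
noncomputable def cc (n : ℕ) (f : MP) (l : ℕ) : ℤ := constantCoeff (cf n 1 (fun _ => l) f)

/-- the univariate polynomial in front of `T ^ l` -/
noncomputable def BB (n D : ℕ) (E : ℕ → MP) (l : ℕ) : Polynomial ℤ :=
  ∑ j ∈ range (D + 1), Polynomial.C (cc n (E (D - j)) l) * Polynomial.X ^ j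

theorem aeval_single (n : ℕ) (T : ℝ) {f : MP} {δ : ℕ} (h : f.totalDegree ≤ δ) :
    aeval (Pi.single n T : ℕ → ℝ) f = ∑ l ∈ range (δ + 1), (cc n f l : ℝ) * T ^ l := by
  rw [expand_one n _ h]
  refine Finset.sum_congr rfl fun l _ => ?_
  rw [Pi.single_eq_same, cc, ← aeval_zero_eq]
  congr 1
  exact aeval_cf_congr _ _ _ _ fun i hi => Pi.single_eq_of_ne (by omega) _

theorem core {n D δ : ℕ} {E : ℕ → MP} (hE0 : ∃ c : ℤ, c ≠ 0 ∧ E 0 = C c)
    (hδ : ∀ k < D + 1, (E k).totalDegree ≤ δ) {T z : ℕ → ℝ} {z0 : ℝ} (hT : Tendsto T atTop atTop)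
    (hz : Tendsto z atTop (𝓝 z0))
    (h : ∀ k, ∑ j ∈ range (D + 1), aeval (Pi.single n (T k) : ℕ → ℝ) (E j) * z k ^ (D - j) = 0) :
    ∃ l ≤ δ, ∃ μ ≤ D, Polynomial.derivative^[μ] (BB n D E l) ≠ 0 ∧
      mcnt ((Polynomial.derivative^[μ] (BB n D E l)).aroots ℝ) (fun t => t = z0) = 1 := by
  obtain ⟨c, hc, hE0⟩ := hE0
  obtain ⟨K, e, hK, he, hne, htop⟩ := exists_top (Km := δ) (D := D)
    (a := fun l j => (cc n (E (D - j)) l : ℝ))
    ⟨0, Nat.zero_le _, D, le_rfl, by
      rw [Nat.sub_self, cc, hE0, cf_C_zero, constantCoeff_C]; exact_mod_cast hc⟩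
  have hlim := lead_limit hK (fun k hk j hj hlt => htop k hk j hj (Or.inl hlt)) hT hz fun k => by
    rw [← h k, Finset.sum_comm, ← Finset.sum_range_reflect]
    refine Finset.sum_congr rfl fun j hj => ?_
    have hj := Finset.mem_range.1 hj
    rw [aeval_single n _ (hδ j hj), Finset.sum_mul, show D + 1 - 1 - j = D - j by omega,
      show D - (D - j) = j by omega]
  have hB : BB n D E K ≠ 0 := fun h0 => by
    have := congrArg (fun p => Polynomial.coeff p e) h0
    simp only [BB, Polynomial.finset_sum_coeff, Polynomial.coeff_C_mul_X_pow, Finset.sum_ite_eq,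
      Finset.mem_range, Nat.lt_succ_iff, he, if_true, Polynomial.coeff_zero] at this
    exact hne (by simp [this])
  have hdeg : (BB n D E K).natDegree ≤ D :=
    Polynomial.natDegree_sum_le_of_forall_le _ _ fun j hj =>
      (Polynomial.natDegree_C_mul_X_pow_le _ _).trans (Nat.lt_succ_iff.1 (Finset.mem_range.1 hj))
  obtain ⟨μ, hμ, h1, h2⟩ := simple_root hB (r := z0) (by
    rw [← hlim, BB, map_sum]
    refine Finset.sum_congr rfl fun j _ => ?_
    simp)
  exact ⟨K, hK, μ, hμ.trans hdeg, h1, h2⟩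

end SamplePt

open SamplePt in
theorem samplePt {n : α → ℕ} {P : α → MP} (hn : PT n) (hb : PB n) (H : Pos n P) :
    ∃ (N : α → ℕ) (b : α × ℕ → ℕ → Polynomial ℤ), PT N ∧ GridF (fun x : α × ℕ => n x.1) b ∧
      ∀ a (Γ : Set (Fin (n a) → ℝ)), (∀ w ∈ Γ, aeval (upd 0 0 w) (P a) = 0) → Γ.Nonempty →
        IsClosed Γ → IsClosed ({w : Fin (n a) → ℝ | aeval (upd 0 0 w) (P a) = 0} \ Γ) →
        ∃ g < N a, Valid (n a) (b (a, g)) ∧ ∃ w ∈ Γ,
          ∀ i : Fin (n a), mcnt ((b (a, g) i).aroots ℝ) (fun t => t = w i) = 1 := by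
  obtain ⟨d, hd, hd'⟩ := exists_deg hn hb H.chp
  have hP := H.chp
  obtain ⟨D, E, hD, hE, hel⟩ := elim (α := α × ℕ) (lo := fun _ => 0) (m := fun x => n x.1)
    (d := fun x => d x.1) (g := fun x i => - (X (n x.1) * pderiv (min i (n x.1)) (P x.1)))
    (h := fun x => X x.2) (PT.const 0) (PB.const 0) (by fun_prop) (hb.comp (by fun_prop))
    (by fun_prop)
    (CHP.neg (CHP.mul (CHP.X (by fun_prop)) (CHP.pderiv (by fun_prop)
      (PB.min_right (hb.comp (by fun_prop))) (hP.comp (by fun_prop)))))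
    (CHP.X (by fun_prop))
    (fun x i hi => by rw [totalDegree_neg, min_eq_left hi.le]; exact (hd' x.1).2 i hi _)
  obtain ⟨δ, hδ, hδ'⟩ := CHP.deg₂ hE (N := fun x => D x + 1) (by fun_prop)
  obtain ⟨q, -, hq, hq'⟩ := PT.exists_lt_pow (N := fun x => δ x + D x) (by fun_prop)
  obtain ⟨s, hs, hsb, hs'⟩ := PB.sup_lt (q := fun a i => q (a, i)) hq hn
  have hM : PT fun a => 2 ^ s a := by fun_prop
  refine ⟨fun a => (2 ^ s a) ^ (n a + n a), fun x i =>
    Polynomial.derivative^[dig (2 ^ s x.1) x.2 (n x.1 + i)]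
      (BB (n x.1) (D (x.1, i)) (E (x.1, i)) (dig (2 ^ s x.1) x.2 i)),
    hM.pow (hn.add hn) (hb.add hb), ⟨by fun_prop, hb.comp (by fun_prop), ?_⟩, ?_⟩
  · have hM' : PT fun y : (α × ℕ) × ℕ => 2 ^ s y.1.1 := hM.comp (by fun_prop)
    have hD' : PT fun y : (α × ℕ) × ℕ => D (y.1.1, y.2) := hD.comp (by fun_prop)
    refine CHU.iterate_derivative ?_ (PT.dig hM' (by fun_prop) (by fun_prop))
    unfold BB cc
    refine CHU.sum_range (hD'.add (PT.const 1))
      (CHU.mul (CHU.C (CHZ.constantCoeff ?_)) (CHU.pow (CHU.const _) (by fun_prop)))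
    refine CHP.cf (by fun_prop) (hb.comp (by fun_prop)) (PT.const 1) (PB.const 1)
      (PT.dig (hM'.comp (by fun_prop)) (by fun_prop) (by fun_prop)) ?_
    exact hE.app₂ (g := fun y : ((α × ℕ) × ℕ) × ℕ => (y.1.1.1, y.1.2)) (by fun_prop)
      ((hD'.comp (by fun_prop)).sub (by fun_prop))
  · intro a Γ hΓ hne hc hc'
    have hc0 : ∀ i, Continuous fun w : Fin (n a) → ℝ => upd 0 (0 : ℕ → ℝ) w i :=
      continuous_upd 0 (v := fun _ => 0) (y := fun w => w) (fun _ => continuous_const) continuous_id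
    obtain ⟨x0, hx0, T, x, hT, hx, hmin⟩ := outer_limit (hd' a).1
      (P := fun w => aeval (upd 0 0 w) (P a)) (continuous_aeval_of hc0 _)
      (fun _ => H.nonneg a _) hΓ hne hc hc'
    have key : ∀ i : ℕ, ∃ l μ : ℕ, ∀ hi : i < n a, l < 2 ^ s a ∧ μ < 2 ^ s a ∧
        Polynomial.derivative^[μ] (BB (n a) (D (a, i)) (E (a, i)) l) ≠ 0 ∧
        mcnt ((Polynomial.derivative^[μ] (BB (n a) (D (a, i)) (E (a, i)) l)).aroots ℝ)
          (fun t => t = x0 ⟨i, hi⟩) = 1 := by
      intro i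
      by_cases hi : i < n a
      swap
      · exact ⟨0, 0, fun h => absurd h hi⟩
      obtain ⟨e0, e1, e2⟩ := hel (a, i)
      obtain ⟨l, hl, μ, hμ, h1, h2⟩ := core (n := n a) e0 (hδ' (a, i)) hT
        (((continuous_apply (⟨i, hi⟩ : Fin (n a))).tendsto x0).comp hx) fun k => by
          have hfun : (fun y : Fin (n a) → ℝ => aeval (upd 0 (Pi.single (n a) (T k)) y) (P a)) =
              fun y => aeval (upd 0 0 y) (P a) := funext fun y =>
            H.dep a _ _ fun t ht => by simp [upd, ht]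
          have hn' : upd 0 (Pi.single (n a) (T k) : ℕ → ℝ) (x k) (n a) = T k := by
            rw [upd_of_not_mem _ _ _ (by omega), Pi.single_eq_same]
          have h3 := e2 (upd 0 (Pi.single (n a) (T k)) (x k)) fun t ht => by
            have h4 := crit 0 (d a) (T k) (P a) (Pi.single (n a) (T k)) (hfun ▸ hmin k) ⟨t, ht⟩
            have h5 := upd_of_mem 0 (Pi.single (n a) (T k) : ℕ → ℝ) (x k) ⟨t, ht⟩
            simp only at h4 h5 ht ⊢
            rw [h5, h4, min_eq_left ht.le, map_neg, map_mul, aeval_X, hn', zero_add, neg_mul]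
          rw [← h3]
          refine Finset.sum_congr rfl fun j _ => ?_
          have h5 := upd_of_mem 0 (Pi.single (n a) (T k) : ℕ → ℝ) (x k) ⟨i, hi⟩
          simp only [zero_add] at h5
          rw [aeval_X, h5, e1 j (upd 0 (Pi.single (n a) (T k)) (x k)) (Pi.single (n a) (T k))
            fun t ht => upd_of_not_mem _ _ _ ht]
          rfl
      have h3 := (hq' (a, i)).trans_le (Nat.pow_le_pow_right (by norm_num) (hs' a i hi))
      exact ⟨l, μ, fun _ => ⟨by omega, by omega, h1, h2⟩⟩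
    choose L U hLU using key
    obtain ⟨g, hg, hg'⟩ := exists_dig (2 ^ s a) (n a + n a)
      (fun t => if t < n a then L t else U (t - n a)) fun t ht => by
        split_ifs with h
        · exact (hLU t h).1
        · exact (hLU _ (by omega)).2.1
    have h1 : ∀ i < n a, dig (2 ^ s a) g i = L i := fun i hi => by
      rw [hg' i (by omega), if_pos hi]
    have h2 : ∀ i < n a, dig (2 ^ s a) g (n a + i) = U i := fun i hi => by
      rw [hg' _ (by omega), if_neg (by omega), Nat.add_sub_cancel_left]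
    refine ⟨g, hg, fun i hi => ?_, x0, hx0, fun i => ?_⟩
    · simp only [h1 i hi, h2 i hi]; exact (hLU i hi).2.2.1
    · simp only [h1 i i.2, h2 i i.2]; exact (hLU i i.2).2.2.2

end Crest.Agent.R316
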