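import Crest.Agent.R316.Strata
import Crest.Agent.R316.SamplePt
import Crest.Agent.R316.Grid
/-!
# An unsolvable point that is a simple point of a grid (task R316-Sample)

Compose `strata` (guess `g1 < N1 a`) and `samplePt` on `α × ℕ` (guess `g2 < N2 (a, g1) ≤ M a`, `M = 2^q` from `PT.exists_lt_pow` and `PB.sup_lt`); `g = g1 * M + g2`, `N = N1 * M`.
Keep the first `n` polynomials; `x = trunc n (upd 0 0 w)`, `Solv.congr`, `mcnt_grid`.
-/
set_option autoImplicit false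
namespace Crest.Agent.R316
open Crest.Agent.PTime MvPolynomial Finset
variable {α : Type} [Enc α]

theorem sample {n m : α → ℕ} {F : α → MP} (H : Good n m F) :
    ∃ (N : α → ℕ) (b : α × ℕ → ℕ → Polynomial ℤ), PT N ∧ GridF (fun x : α × ℕ => n x.1) b ∧
      ∀ a, (∃ x, ¬ Solv (n a) (m a) (F a) x) → ∃ g < N a, Valid (n a) (b (a, g)) ∧
        ∃ x, ¬ Solv (n a) (m a) (F a) x ∧ mcnt (gridR (n a) (b (a, g))) (fun z => z = x) = 1 := by
  have hn := H.ptn
  have hb := H.pbn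
  obtain ⟨N1, P, hN1, hP, h1⟩ := strata H
  obtain ⟨N2, b, hN2, G2, h2⟩ := samplePt (α := α × ℕ) (n := fun x => n x.1 + 1) (P := P)
    (by fun_prop) ((hb.comp (by fun_prop)).add (PB.const 1)) hP
  obtain ⟨q, -, hq, hq'⟩ := PT.exists_lt_pow hN2
  obtain ⟨s, hs, hsb, hs'⟩ := PB.sup_lt (q := fun a i => q (a, i)) hq hN1
  have hM : PT fun a => 2 ^ s a := by fun_prop
  refine ⟨fun a => N1 a * 2 ^ s a, fun x => b ((x.1, x.2 / 2 ^ s x.1), x.2 % 2 ^ s x.1),
    hN1.mul hM, ⟨by fun_prop, hb.comp (by fun_prop), ?_⟩, fun a ha => ?_⟩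
  · have hM' : PT fun y : (α × ℕ) × ℕ => 2 ^ s y.1.1 := hM.comp (by fun_prop)
    exact CHU.app₂ (f := b)
      (g := fun y : (α × ℕ) × ℕ => ((y.1.1, y.1.2 / 2 ^ s y.1.1), y.1.2 % 2 ^ s y.1.1)) G2.chu
      ((PT.id.fst.fst.pair (PT.id.fst.snd.div hM')).pair (PT.id.fst.snd.mod hM')) PT.id.snd
  · obtain ⟨g1, hg1, Γ, hΓ, hne, hc, hc'⟩ := h1 a ha
    obtain ⟨g2, hg2, hV, w, hw, hcnt⟩ := h2 (a, g1) Γ (fun w hw => (hΓ w hw).1) hne hc hc'
    have hlt : g2 < 2 ^ s a :=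
      hg2.trans ((hq' (a, g1)).trans_le (Nat.pow_le_pow_right (by norm_num) (hs' a g1 hg1)))
    have hpos : 0 < 2 ^ s a := by positivity
    have e1 : (g1 * 2 ^ s a + g2) / 2 ^ s a = g1 := by
      rw [add_comm, Nat.add_mul_div_right _ _ hpos, Nat.div_eq_of_lt hlt, zero_add]
    have e2 : (g1 * 2 ^ s a + g2) % 2 ^ s a = g2 := by
      rw [add_comm, Nat.add_mul_mod_self_right, Nat.mod_eq_of_lt hlt]
    refine ⟨g1 * 2 ^ s a + g2, ?_, ?_, trunc (n a) (upd 0 0 w), ?_, ?_⟩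
    · calc g1 * 2 ^ s a + g2 < g1 * 2 ^ s a + 2 ^ s a := by omega
        _ = (g1 + 1) * 2 ^ s a := by ring
        _ ≤ _ := Nat.mul_le_mul_right _ hg1
    · simp only [e1, e2]
      exact fun i hi => hV i (Nat.lt_succ_of_lt hi)
    · rw [Solv.congr (H.pos.dep a) (x' := upd 0 0 w) fun i hi => by simp [trunc, hi]]
      exact (hΓ w hw).2
    · simp only [e1, e2]
      rw [gridR, mcnt_grid _ fun i hi => by simp [trunc, hi]]
      refine Finset.prod_eq_one fun i hi => ?_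
      have hi := Finset.mem_range.1 hi
      have h3 := hcnt ⟨i, Nat.lt_succ_of_lt hi⟩
      have h4 := upd_of_mem 0 (0 : ℕ → ℝ) w ⟨i, Nat.lt_succ_of_lt hi⟩
      simp only [zero_add] at h4
      simp only [trunc, if_pos hi, h4]
      exact h3

end Crest.Agent.R316
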