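import Crest.Agent.R316.CHP
import Crest.Agent.R290.Primes
/-!
# The sign of a `CHZ` integer (task R316-Sign; the real-number part is `SignNum.lean`-like, keep it separate)

Let `|z a| ≤ 2^2^q` (`CHZ.bound`) and let `e (a, p, [])` give `z mod p` for primes `p ≥ L = 2^q'` (`PB.major`).
Put `v = L + 2^q + 5`, `L' = 2 (v+1)^2 + 1`, `𝒫` = primes in `[L, L')`, `M = ∏ 𝒫`.  By `R290.prs_many` there are at least
`2^q + 6` of them, so `M ≥ 2^(2^q + 6) ≥ 64 |z|`; also `M ≤ L'^L' ≤ 2^(L' * L')`.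
For `p ∈ 𝒫` and `k`, let `c p k < p` be the residue of `z * 2^k * (M/p)⁻¹` mod `p`: it is `CHF`
(`CHF.prodMod` for `M/p = ∏_{p' < L', prime, L ≤ p', p' ≠ p} p'`, inverse = `powMod · (p-2) p`).
CRT: `M ∣ z 2^k - ∑_p c p k * (M/p)` (each prime of `𝒫` divides; `Finset.prod_primes_dvd`), so
`t_k := z 2^k / M ≡ ∑ c p k / p (mod 1)`.  With `W = 32 * L'` let `A k = (∑_p (c p k * W) / p) % W` (`CHF`); then
`t_k = n + (A k + θ) / W` with `n ∈ ℤ`, `0 ≤ θ ≤ L'`, i.e. `θ / W ≤ 1/32`.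
Call `k` big if `W ≤ 8 A k ∧ 8 A k < 7 W`.  If `|t_k| < 1/16` then `k` is not big; if `3/16 ≤ |t_k| ≤ 3/8` then it is big.
Hence (`|t_0| ≤ 1/64`, `t_{k+1} = 2 t_k`) up to the first big `k` all `|t_k| < 3/8`, at the first big `k` the sign of `z` is positive iff
`2 A k < W`, and for `z ≠ 0` a big `k ≤ L' * L'` exists.  So
`0 < z ↔ ∃ k ≤ L' * L', big k ∧ 2 A k < W ∧ ∀ k' < k, ¬ big k'`.
-/
set_option autoImplicit false
namespace Crest.Agent.R316
open Crest.Agent.PTime MvPolynomial Finset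
variable {α : Type} [Enc α]

namespace SignA

theorem step {s a θ : ℝ} {n : ℤ} (ha0 : 0 ≤ a) (ha1 : a < 1) (h0 : 0 ≤ θ) (h1 : θ ≤ 1 / 32)
    (h : s = n + a + θ) (hs : |s| ≤ 3 / 8) :
    (¬ (1 ≤ 8 * a ∧ 8 * a < 7) → |s| ≤ 3 / 16) ∧
      ((1 ≤ 8 * a ∧ 8 * a < 7) → (0 < s ↔ 2 * a < 1)) := by
  rw [abs_le] at hs
  have hn1 : n < 1 := by
    have : (n : ℝ) < 1 := by linarith [hs.2]
    exact_mod_cast this
  have hn2 : -2 < n := by
    have : (-2 : ℝ) < n := by linarith [hs.1]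
    exact_mod_cast this
  have hn : n = 0 ∨ n = -1 := by omega
  rcases hn with rfl | rfl
  · simp only [Int.cast_zero, zero_add] at h
    refine ⟨fun hb => ?_, fun hb => ⟨fun _ => by linarith [hs.2], fun _ => by linarith [hb.1]⟩⟩
    rw [abs_le]
    rcases not_and_or.1 hb with hb | hb
    · constructor <;> linarith [not_le.1 hb]
    · exfalso; linarith [not_lt.1 hb, hs.2]
  · simp only [Int.cast_neg, Int.cast_one] at h
    refine ⟨fun hb => ?_, fun hb => ⟨fun h' => by linarith [hb.2], fun _ => by linarith [hs.1]⟩⟩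
    rw [abs_le]
    rcases not_and_or.1 hb with hb | hb
    · exfalso; linarith [not_le.1 hb, hs.1]
    · constructor <;> linarith [not_lt.1 hb]

theorem sign_num {t : ℝ} {K W : ℕ} {A : ℕ → ℕ} (hW : 0 < W) (ht : |t| ≤ 3 / 8)
    (hK : t ≠ 0 → 1 ≤ |t| * 2 ^ K) (hA : ∀ k, A k < W)
    (h : ∀ k, ∃ (n : ℤ) (θ : ℝ), 0 ≤ θ ∧ θ ≤ 1 / 32 ∧ t * 2 ^ k = n + (A k : ℝ) / W + θ) :
    0 < t ↔ ∃ k ≤ K, (W ≤ 8 * A k ∧ 8 * A k < 7 * W) ∧ 2 * A k < W ∧
      ∀ k' < k, ¬ (W ≤ 8 * A k' ∧ 8 * A k' < 7 * W) := by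
  classical
  have hW' : (0 : ℝ) < W := by exact_mod_cast hW
  have e1 : ∀ k, (W ≤ 8 * A k ∧ 8 * A k < 7 * W) ↔
      (1 ≤ 8 * ((A k : ℝ) / W) ∧ 8 * ((A k : ℝ) / W) < 7) := fun k => by
    rw [← mul_div_assoc, le_div_iff₀ hW', div_lt_iff₀ hW', one_mul]
    constructor
    · rintro ⟨h1, h2⟩; exact ⟨by exact_mod_cast h1, by exact_mod_cast h2⟩
    · rintro ⟨h1, h2⟩; exact ⟨by exact_mod_cast h1, by exact_mod_cast h2⟩
  have e2 : ∀ k, 2 * A k < W ↔ 2 * ((A k : ℝ) / W) < 1 := fun k => by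
    rw [← mul_div_assoc, div_lt_iff₀ hW', one_mul]
    constructor
    · intro h1; exact_mod_cast h1
    · intro h1; exact_mod_cast h1
  have key : ∀ k, |t * 2 ^ k| ≤ 3 / 8 →
      (¬ (W ≤ 8 * A k ∧ 8 * A k < 7 * W) → |t * 2 ^ k| ≤ 3 / 16) ∧
      ((W ≤ 8 * A k ∧ 8 * A k < 7 * W) → (0 < t ↔ 2 * A k < W)) := fun k hk => by
    obtain ⟨n, θ, h0, h1, h2⟩ := h k
    have := step (div_nonneg (Nat.cast_nonneg _) hW'.le)
      ((div_lt_one hW').2 (by exact_mod_cast hA k)) h0 h1 h2 hk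
    rw [e1, e2]
    refine ⟨this.1, fun hb => ?_⟩
    rw [← this.2 hb, mul_pos_iff_of_pos_right (by positivity)]
  have inv : ∀ k, (∀ k' < k, ¬ (W ≤ 8 * A k' ∧ 8 * A k' < 7 * W)) → |t * 2 ^ k| ≤ 3 / 8 := by
    intro k
    induction k with
    | zero => intro _; simpa using ht
    | succ k ih =>
      intro hk
      have := (key k (ih fun k' hk' => hk k' (by omega))).1 (hk k (by omega))
      rw [pow_succ, ← mul_assoc, abs_mul, abs_two]
      linarith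
  constructor
  · intro h0
    have hex : ∃ k, k < K ∧ (W ≤ 8 * A k ∧ 8 * A k < 7 * W) := by
      by_contra hc
      have h1 := inv K fun k' hk' hb => hc ⟨k', hk', hb⟩
      have h2 := hK h0.ne'
      rw [abs_mul, abs_of_pos (by positivity : (0 : ℝ) < 2 ^ K)] at h1
      linarith
    have hmin : ∀ k' < Nat.find hex, ¬ (W ≤ 8 * A k' ∧ 8 * A k' < 7 * W) := fun k' hk' hb =>
      Nat.find_min hex hk' ⟨hk'.trans (Nat.find_spec hex).1, hb⟩
    exact ⟨_, (Nat.find_spec hex).1.le, (Nat.find_spec hex).2,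
      ((key _ (inv _ hmin)).2 (Nat.find_spec hex).2).1 h0, hmin⟩
  · rintro ⟨k, -, hb, h2, hmin⟩
    exact ((key k (inv k hmin)).2 hb).2 h2

theorem crt (P : Finset ℕ) (hP : ∀ p ∈ P, p.Prime) (y : ℤ) (c : ℕ → ℕ)
    (hc : ∀ p ∈ P, ((c p : ℕ) : ZMod p) * ∏ i ∈ P.erase p, ((i : ℕ) : ZMod p) = (y : ZMod p)) :
    ∃ n : ℤ, (y : ℝ) / ((∏ p ∈ P, p : ℕ) : ℝ) = n + ∑ p ∈ P, (c p : ℝ) / p := by
  have hd : (∏ p ∈ P, (p : ℤ)) ∣ y - ∑ p ∈ P, (c p : ℤ) * ∏ i ∈ P.erase p, (i : ℤ) := by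
    refine Finset.prod_dvd_of_coprime (fun p hp q hq hpq => ?_) fun q hq => ?_
    · exact Nat.isCoprime_iff_coprime.2 ((Nat.coprime_primes (hP p hp) (hP q hq)).2 hpq)
    · rw [← ZMod.intCast_zmod_eq_zero_iff_dvd]
      push_cast
      rw [Finset.sum_eq_single q, hc q hq, sub_self]
      · intro p _ hpq
        rw [Finset.prod_eq_zero (i := q) (mem_erase.2 ⟨hpq.symm, hq⟩) (ZMod.natCast_self q), mul_zero]
      · intro h; exact absurd hq h
  obtain ⟨n, hn⟩ := hd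
  refine ⟨n, ?_⟩
  have hM : (0 : ℝ) < ∏ p ∈ P, (p : ℝ) :=
    Finset.prod_pos fun p hp => by exact_mod_cast (hP p hp).pos
  have h1 : (y : ℝ) = (∏ p ∈ P, (p : ℝ)) * n + ∑ p ∈ P, (c p : ℝ) * ∏ i ∈ P.erase p, (i : ℝ) := by
    have := congrArg (Int.cast : ℤ → ℝ) hn
    push_cast at this
    linarith
  push_cast
  rw [div_eq_iff hM.ne', h1, add_mul, mul_comm, Finset.sum_mul]
  congr 1
  refine Finset.sum_congr rfl fun p hp => ?_
  have hp0 : (p : ℝ) ≠ 0 := by exact_mod_cast (hP p hp).ne_zero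
  rw [← Finset.mul_prod_erase P (fun i => (i : ℝ)) hp]
  field_simp

theorem round (P : Finset ℕ) (hP : ∀ p ∈ P, 0 < p) (c : ℕ → ℕ) {W : ℕ} (hW : 0 < W)
    (hcard : 32 * P.card ≤ W) :
    ∃ (n : ℤ) (θ : ℝ), 0 ≤ θ ∧ θ ≤ 1 / 32 ∧ ∑ p ∈ P, (c p : ℝ) / p =
      n + (((∑ p ∈ P, c p * W / p) % W : ℕ) : ℝ) / W + θ := by
  have hW' : (0 : ℝ) < W := by exact_mod_cast hW
  set S := ∑ p ∈ P, c p * W / p with hS
  have h1 : ∀ p ∈ P, ((c p * W / p : ℕ) : ℝ) ≤ (c p : ℝ) / p * W := fun p _ => by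
    refine Nat.cast_div_le.trans (le_of_eq ?_)
    push_cast; ring
  have h2 : ∀ p ∈ P, (c p : ℝ) / p * W ≤ ((c p * W / p : ℕ) : ℝ) + 1 := fun p hp => by
    have hp' : (0 : ℝ) < p := by exact_mod_cast hP p hp
    have h3 : c p * W ≤ (c p * W / p + 1) * p := by
      have := Nat.lt_div_mul_add (a := c p * W) (hP p hp)
      rw [add_mul, one_mul]; exact this.le
    rw [div_mul_eq_mul_div, div_le_iff₀ hp']
    exact_mod_cast h3
  have h3 : (S : ℝ) ≤ (∑ p ∈ P, (c p : ℝ) / p) * W := by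
    rw [hS, Finset.sum_mul]; push_cast; exact Finset.sum_le_sum h1
  have h4 : (∑ p ∈ P, (c p : ℝ) / p) * W ≤ S + P.card := by
    rw [hS, Finset.sum_mul]; push_cast
    refine (Finset.sum_le_sum h2).trans (le_of_eq ?_)
    rw [Finset.sum_add_distrib]; simp
  have h5 : (S : ℝ) = W * ((S / W : ℕ) : ℝ) + ((S % W : ℕ) : ℝ) := by
    exact_mod_cast (Nat.div_add_mod S W).symm
  have h6 : 32 * (P.card : ℝ) ≤ W := by exact_mod_cast hcard
  refine ⟨((S / W : ℕ) : ℤ), (∑ p ∈ P, (c p : ℝ) / p) - S / W, ?_, ?_, ?_⟩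
  · rw [sub_nonneg, div_le_iff₀ hW']; exact h3
  · rw [sub_le_iff_le_add, ← mul_le_mul_iff_left₀ hW', add_mul, div_mul_cancel₀ _ hW'.ne']
    linarith
  · rw [Int.cast_natCast]
    have : (S : ℝ) / W = ((S / W : ℕ) : ℝ) + ((S % W : ℕ) : ℝ) / W := by
      rw [div_eq_iff hW'.ne', add_mul, div_mul_cancel₀ _ hW'.ne']; linarith
    linarith

theorem card_ge (L u : ℕ) :
    u + 1 ≤ ((range (2 * (L + u + 1) ^ 2 + 1)).filter fun p => L ≤ p ∧ p.Prime).card := by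
  have h1 := Crest.Agent.R290.prs_many (L + u)
  have h2 : (range (2 * (L + u + 1) ^ 2 + 1)).filter Nat.Prime ⊆
      ((range (2 * (L + u + 1) ^ 2 + 1)).filter fun p => L ≤ p ∧ p.Prime) ∪ range L := by
    intro p hp
    rw [mem_filter] at hp
    rw [mem_union, mem_filter, mem_range (n := L)]
    by_cases h : L ≤ p
    · exact Or.inl ⟨hp.1, h, hp.2⟩
    · exact Or.inr (not_le.1 h)
  have h3 := (card_le_card h2).trans (card_union_le _ _)
  rw [card_range] at h3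
  omega

theorem main {z : ℤ} {L Q L' : ℕ} (hL' : L' = 2 * (L + (Q + 5) + 1) ^ 2 + 1) (hz : z.natAbs ≤ 2 ^ Q)
    (e μ : ℕ → ℕ) (he : ∀ p, p.Prime → L ≤ p → ((e p : ℕ) : ZMod p) = (z : ZMod p))
    (hμ : ∀ p, p.Prime → ((μ p : ℕ) : ZMod p) =
      ∏ i ∈ range L', (((if (L ≤ i ∧ i.Prime) ∧ ¬ i = p then i else 1 : ℕ) : ℕ) : ZMod p))
    (A : ℕ → ℕ) (hA : ∀ k, A k = (∑ p ∈ range L', if L ≤ p ∧ p.Prime then
      e p * powMod 2 k p * powMod (μ p) (p - 2) p * (32 * L') / p else 0) % (32 * L')) :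
    0 < z ↔ ∃ k ≤ L' * L', (32 * L' ≤ 8 * A k ∧ 8 * A k < 7 * (32 * L')) ∧ 2 * A k < 32 * L' ∧
      ∀ k' < k, ¬ (32 * L' ≤ 8 * A k' ∧ 8 * A k' < 7 * (32 * L')) := by
  set P := (range L').filter fun p => L ≤ p ∧ p.Prime with hPdef
  have hP : ∀ p ∈ P, p.Prime := fun p hp => (mem_filter.1 hp).2.2
  have hL0 : 0 < L' := by rw [hL']; positivity
  have hW : 0 < 32 * L' := by omega
  have hc1 : Q + 5 + 1 ≤ P.card := by rw [hPdef, hL']; exact card_ge L (Q + 5)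
  have hc2 : P.card ≤ L' := (card_filter_le _ _).trans (card_range _).le
  have hM1 : 2 ^ (Q + 6) ≤ ∏ p ∈ P, p :=
    (Nat.pow_le_pow_right (by norm_num) hc1).trans
      (Finset.pow_card_le_prod P (fun p => p) 2 fun p hp => (hP p hp).two_le)
  have hM2 : ∏ p ∈ P, p ≤ 2 ^ (L' * L') := by
    refine (Finset.prod_le_pow_card P (fun p => p) (2 ^ L') fun p hp => ?_).trans ?_
    · exact ((mem_range.1 (mem_filter.1 hp).1).trans Nat.lt_two_pow_self).le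
    · rw [← pow_mul]
      exact Nat.pow_le_pow_right (by norm_num) (Nat.mul_le_mul_left _ hc2)
  have hM0 : (0 : ℝ) < ((∏ p ∈ P, p : ℕ) : ℝ) := by
    exact_mod_cast lt_of_lt_of_le (by positivity) hM1
  have h0 : 0 < z ↔ (0 : ℝ) < (z : ℝ) / ((∏ p ∈ P, p : ℕ) : ℝ) := by
    rw [div_pos_iff_of_pos_right hM0, Int.cast_pos]
  rw [h0]
  refine sign_num hW ?_ (fun hne => ?_) (fun k => ?_) fun k => ?_
  · rw [abs_div, abs_of_pos hM0, div_le_iff₀ hM0]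
    have h1 : |(z : ℝ)| ≤ 2 ^ Q := by
      rw [← Int.cast_abs, Int.abs_eq_natAbs, Int.cast_natCast]; exact_mod_cast hz
    have h2 : (2 : ℝ) ^ (Q + 6) ≤ ((∏ p ∈ P, p : ℕ) : ℝ) := by exact_mod_cast hM1
    rw [pow_add] at h2
    have h3 : (0 : ℝ) < 2 ^ Q := by positivity
    norm_num at h2
    push_cast
    linarith
  · have hz0 : z ≠ 0 := by rintro rfl; simp at hne
    have h1 : (1 : ℝ) ≤ |(z : ℝ)| := by
      rw [← Int.cast_abs]; exact_mod_cast Int.one_le_abs hz0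
    have h2 : ((∏ p ∈ P, p : ℕ) : ℝ) ≤ 2 ^ (L' * L') := by exact_mod_cast hM2
    rw [abs_div, abs_of_pos hM0, div_mul_eq_mul_div, le_div_iff₀ hM0, one_mul]
    exact h2.trans (le_mul_of_one_le_left (by positivity) h1)
  · rw [hA]; exact Nat.mod_lt _ hW
  · obtain ⟨n, hn⟩ := crt P hP (z * 2 ^ k) (fun p => e p * powMod 2 k p * powMod (μ p) (p - 2) p)
      fun p hp => by
        have hpp := hP p hp
        haveI := Fact.mk hpp
        have h1 : ((μ p : ℕ) : ZMod p) = ∏ i ∈ P.erase p, ((i : ℕ) : ZMod p) := by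
          rw [hμ p hpp, hPdef, ← Finset.filter_ne', Finset.filter_filter, Finset.prod_filter]
          refine Finset.prod_congr rfl fun i _ => ?_
          split_ifs <;> simp_all
        have h2 : ((μ p : ℕ) : ZMod p) ≠ 0 := by
          rw [h1]
          refine Finset.prod_ne_zero_iff.2 fun i hi => ?_
          rw [Ne, ZMod.natCast_eq_zero_iff, Nat.prime_dvd_prime_iff_eq hpp (hP i (mem_erase.1 hi).2)]
          exact fun h => (mem_erase.1 hi).1 h.symm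
        have h3 : ((μ p : ℕ) : ZMod p) ^ (p - 2) * (μ p : ZMod p) = 1 := by
          rw [← pow_succ, show p - 2 + 1 = p - 1 by have := hpp.two_le; omega]
          exact ZMod.pow_card_sub_one_eq_one h2
        rw [← h1, Nat.cast_mul, Nat.cast_mul, cast_powMod _ _ hpp.ne_zero, cast_powMod _ _ hpp.ne_zero,
          he p hpp (mem_filter.1 hp).2.1, mul_assoc, h3]
        push_cast; ring
    obtain ⟨n', θ, h1, h2, h3⟩ := round P (fun p hp => (hP p hp).pos)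
      (fun p => e p * powMod 2 k p * powMod (μ p) (p - 2) p) hW (by omega)
    refine ⟨n + n', θ, h1, h2, ?_⟩
    rw [hA, ← Finset.sum_filter, div_mul_eq_mul_div]
    rw [h3] at hn
    rw [Int.cast_add]
    have : ((z * 2 ^ k : ℤ) : ℝ) = (z : ℝ) * 2 ^ k := by push_cast; ring
    rw [← this, hn]
    ring

end SignA

theorem CHZ.pos {z : α → ℤ} (hz : CHZ z) : CH (fun a => 0 < z a) := by
  classical
  obtain ⟨q, hq, hqb, hbd⟩ := hz.bound
  obtain ⟨q0, e, hq0, he, hev⟩ := hz.2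
  obtain ⟨q', hq', hq'b, hle⟩ := PB.major hq0
  obtain ⟨L, hLdef⟩ : ∃ L : α → ℕ, L = fun a => 2 ^ q' a := ⟨_, rfl⟩
  have hL : PT L := hLdef ▸ PT.pow (PT.const 2) hq' hq'b
  have hQ : PT fun a => 2 ^ q a := PT.pow (PT.const 2) hq hqb
  obtain ⟨L', hL'def⟩ : ∃ L' : α → ℕ, L' = fun a => 2 * (L a + (2 ^ q a + 5) + 1) ^ 2 + 1 := ⟨_, rfl⟩
  have hL' : PT L' := hL'def ▸ PT.add (PT.mul (PT.const 2) (PT.pow
    (PT.add (hL.add (hQ.add (PT.const 5))) (PT.const 1)) (PT.const 2) (PB.const 2))) (PT.const 1)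
  have hW : PT fun a => 32 * L' a := (PT.const 32).mul hL'
  have hPr : CH fun x : α × ℕ => L x.1 ≤ x.2 ∧ x.2.Prime :=
    (CH.of_PT (PT.le (hL.comp (PT.fst PT.id)) (PT.snd PT.id))).and (CH.prime (PT.snd PT.id))
  obtain ⟨μ, hμ, hμv⟩ := CHF.prodMod (α := α × ℕ)
    (f := fun x i => if (L x.1 ≤ i ∧ i.Prime) ∧ ¬ i = x.2 then i else 1) (N := fun x => L' x.1)
    (p := fun x => x.2) (hL'.comp (PT.fst PT.id)) (PT.snd PT.id)
    (CHF.ite ((hPr.comp (g := fun x : (α × ℕ) × ℕ => (x.1.1, x.2))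
        (PT.pair (PT.fst (PT.fst PT.id)) (PT.snd PT.id))).and
      (CH.of_PT (PT.not (PT.eq (PT.snd PT.id) (PT.snd (PT.fst PT.id))))))
      (CHF.of_PT (PT.snd PT.id)) (CHF.const 1))
  have hap : PT fun x : (α × ℕ) × ℕ => (x.1.1, x.2) :=
    PT.pair (PT.fst (PT.fst PT.id)) (PT.snd PT.id)
  have hp : PT fun x : (α × ℕ) × ℕ => x.2 := PT.snd PT.id
  have hc : CHF fun x : (α × ℕ) × ℕ => if L x.1.1 ≤ x.2 ∧ x.2.Prime then
      e (x.1.1, x.2, []) * powMod 2 x.1.2 x.2 * powMod (μ (x.1.1, x.2)) (x.2 - 2) x.2 *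
        (32 * L' x.1.1) / x.2 else 0 :=
    CHF.ite (hPr.comp hap)
      (CHF.div (CHF.mul (CHF.mul (CHF.mul
        (he.comp (PT.pair (PT.fst (PT.fst PT.id)) (PT.pair hp (PT.const []))))
        (CHF.of_PT (PT.powMod (PT.const 2) (PT.snd (PT.fst PT.id)) hp)))
        (CHF.powMod (hμ.comp hap) (CHF.of_PT (hp.sub (PT.const 2))) hp))
        (CHF.of_PT (hW.comp (PT.fst (PT.fst PT.id))))) (CHF.of_PT hp)) (CHF.const 0)
  obtain ⟨A, hAdef⟩ : ∃ A : α → ℕ → ℕ, A = fun a k => (∑ p ∈ range (L' a),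
      if L a ≤ p ∧ p.Prime then e (a, p, []) * powMod 2 k p * powMod (μ (a, p)) (p - 2) p *
        (32 * L' a) / p else 0) % (32 * L' a) := ⟨_, rfl⟩
  have hW1 : CHF fun x : α × ℕ => 32 * L' x.1 := CHF.of_PT (hW.comp (PT.fst PT.id))
  have hA : CHF fun x : α × ℕ => A x.1 x.2 := by
    rw [hAdef]
    exact CHF.mod (CHF.sum_range (α := α × ℕ) (N := fun x => L' x.1)
      (f := fun x p => if L x.1 ≤ p ∧ p.Prime then
        e (x.1, p, []) * powMod 2 x.2 p * powMod (μ (x.1, p)) (p - 2) p * (32 * L' x.1) / p else 0)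
      (hL'.comp (PT.fst PT.id)) hc) hW1
  have hbig : CH fun x : α × ℕ => 32 * L' x.1 ≤ 8 * A x.1 x.2 ∧ 8 * A x.1 x.2 < 7 * (32 * L' x.1) :=
    (hW1.le ((CHF.const 8).mul hA)).and (((CHF.const 8).mul hA).lt ((CHF.const 7).mul hW1))
  have hall : CH fun x : α × ℕ => ∀ k' < x.2,
      ¬ (32 * L' x.1 ≤ 8 * A x.1 k' ∧ 8 * A x.1 k' < 7 * (32 * L' x.1)) :=
    CH.forall_lt (α := α × ℕ)
      (B := fun x k' => ¬ (32 * L' x.1 ≤ 8 * A x.1 k' ∧ 8 * A x.1 k' < 7 * (32 * L' x.1)))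
      (PT.snd PT.id) (hbig.comp hap).not
  refine (CH.exists_le (B := fun a k => (32 * L' a ≤ 8 * A a k ∧ 8 * A a k < 7 * (32 * L' a)) ∧
      2 * A a k < 32 * L' a ∧ ∀ k' < k, ¬ (32 * L' a ≤ 8 * A a k' ∧ 8 * A a k' < 7 * (32 * L' a)))
    (hL'.mul hL') (hbig.and ((((CHF.const 2).mul hA).lt hW1).and hall))).congr fun a => ?_
  refine SignA.main (L := L a) (Q := 2 ^ q a) (by rw [hL'def]) (hbd a) (fun p => e (a, p, []))
    (fun p => μ (a, p)) (fun p hp hLp => ?_) (fun p hp => hμv (a, p) hp) (A a) fun k => by rw [hAdef]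
  rw [hev a p [] hp (le_trans (Nat.pow_le_pow_right (by norm_num) (hle a)) (by rwa [hLdef] at hLp))]
  simp

theorem CHZ.neg' {z : α → ℤ} (hz : CHZ z) : CH (fun a => z a < 0) :=
  hz.neg.pos.congr fun _ => by omega

theorem CHZ.eq_zero {z : α → ℤ} (hz : CHZ z) : CH (fun a => z a = 0) :=
  (hz.pos.not.and hz.neg'.not).congr fun _ => by omega

end Crest.Agent.R316
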