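import Crest.Agent.R316.InnerChi
import Crest.Agent.R316.LocConst
/-!
# Strata on which solvability is locally constant, lifted to closed sets (task R316-Strata)

`innerChi` gives `d, Km, D, A`.  A guess `g < N = (Km+1)(D+1)` codes `K = g / (D+1)`, `e = g % (D+1)`.
`P g = ∑ k ≤ Km, ∑ j ≤ D, (if K < k ∨ (k = K ∧ e < j) then A k j ^ 2 else 0) + (X n * A K e - 1) ^ 2`.
`P(w) = 0` iff the coefficients above `(K, e)` vanish at `w` and `w n * A K e (w) = 1`; so `P(w) = 0 → Top`.  Given an unsolvable `x`, take `(K, e)` from `exists_top` and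
`w i = x i` (`i < n`), `w n = 1 / A K e (x)` (`Solv.congr`).  Closedness: `{P = 0}` is closed (`continuous_aeval_of`, `continuous_upd`); by `loc_const` on `Y = Fin (n+1) → ℝ`
every point of `{P = 0}` has a neighbourhood in which all points of `{P = 0}` have the same solvability (`isClosed_iff_frequently` or via closures).
-/
set_option autoImplicit false
namespace Crest.Agent.R316
open Crest.Agent.PTime MvPolynomial Finset
variable {α : Type} [Enc α]

namespace Strata
open Filter Topology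

/-- the polynomial of a stratum -/
noncomputable def stP (Km D n K e : ℕ) (A : ℕ → ℕ → MP) : MP :=
  ∑ k ∈ range (Km + 1), ∑ j ∈ range (D + 1), (if K < k ∨ (k = K ∧ e < j) then A k j ^ 2 else 0) +
    (X n * A K e - 1) ^ 2

theorem aeval_stP (Km D n K e : ℕ) (A : ℕ → ℕ → MP) (v : ℕ → ℝ) :
    aeval v (stP Km D n K e A) = ∑ k ∈ range (Km + 1), ∑ j ∈ range (D + 1),
      (if K < k ∨ (k = K ∧ e < j) then aeval v (A k j) ^ 2 else 0) +
        (v n * aeval v (A K e) - 1) ^ 2 := by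
  simp only [stP, map_add, map_sum, map_pow, map_sub, map_mul, aeval_X, map_one]
  congr 1
  refine Finset.sum_congr rfl fun k _ => Finset.sum_congr rfl fun j _ => ?_
  split_ifs <;> simp

theorem ite_nonneg (c : Prop) [Decidable c] (t : ℝ) : 0 ≤ if c then t ^ 2 else 0 := by
  split_ifs <;> positivity

theorem stP_nonneg (Km D n K e : ℕ) (A : ℕ → ℕ → MP) (v : ℕ → ℝ) :
    0 ≤ aeval v (stP Km D n K e A) := by
  rw [aeval_stP]
  exact add_nonneg (Finset.sum_nonneg fun _ _ => Finset.sum_nonneg fun _ _ => ite_nonneg _ _)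
    (sq_nonneg _)

theorem stP_zero (Km D n K e : ℕ) (A : ℕ → ℕ → MP) (v : ℕ → ℝ) :
    aeval v (stP Km D n K e A) = 0 ↔
      (∀ k ≤ Km, ∀ j ≤ D, (K < k ∨ (k = K ∧ e < j)) → aeval v (A k j) = 0) ∧
        v n * aeval v (A K e) = 1 := by
  rw [aeval_stP, add_eq_zero_iff_of_nonneg
    (Finset.sum_nonneg fun _ _ => Finset.sum_nonneg fun _ _ => ite_nonneg _ _) (sq_nonneg _),
    Finset.sum_eq_zero_iff_of_nonneg fun _ _ => Finset.sum_nonneg fun _ _ => ite_nonneg _ _,
    sq_eq_zero_iff, sub_eq_zero]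
  refine and_congr_left' (forall_congr' fun k => ?_)
  rw [Finset.sum_eq_zero_iff_of_nonneg fun _ _ => ite_nonneg _ _]
  simp only [Finset.mem_range, Nat.lt_succ_iff, ite_eq_right_iff, sq_eq_zero_iff]

theorem closed_of_loc {Y : Type*} [TopologicalSpace Y] {Z : Set Y} (hZ : IsClosed Z) {S : Y → Prop}
    (h : ∀ y0 ∈ Z, ∀ᶠ y in 𝓝 y0, y ∈ Z → (S y ↔ S y0)) : IsClosed {y | y ∈ Z ∧ S y} := by
  refine isClosed_of_closure_subset fun y0 hy0 => ?_
  have h1 : y0 ∈ Z := hZ.closure_subset (closure_mono (fun y hy => hy.1) hy0)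
  obtain ⟨y, hy, hy'⟩ := ((mem_closure_iff_frequently.1 hy0).and_eventually (h y0 h1)).exists
  exact ⟨h1, (hy' hy.1).1 hy.2⟩

end Strata

open Strata Filter Topology in
theorem strata {n m : α → ℕ} {F : α → MP} (H : Good n m F) :
    ∃ (N : α → ℕ) (P : α × ℕ → MP), PT N ∧ Pos (fun x : α × ℕ => n x.1 + 1) P ∧
      ∀ a, (∃ x, ¬ Solv (n a) (m a) (F a) x) → ∃ g < N a, ∃ Γ : Set (Fin (n a + 1) → ℝ),
        (∀ w ∈ Γ, aeval (upd 0 0 w) (P (a, g)) = 0 ∧ ¬ Solv (n a) (m a) (F a) (upd 0 0 w)) ∧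
        Γ.Nonempty ∧ IsClosed Γ ∧
        IsClosed ({w : Fin (n a + 1) → ℝ | aeval (upd 0 0 w) (P (a, g)) = 0} \ Γ) := by
  obtain ⟨d, Km, D, A, -, hKm, hD, hA, h⟩ := innerChi H
  have hn := H.ptn
  refine ⟨fun a => (Km a + 1) * (D a + 1), fun x => stP (Km x.1) (D x.1) (n x.1)
    (x.2 / (D x.1 + 1)) (x.2 % (D x.1 + 1)) (A x.1), by fun_prop, ⟨?_, ?_, ?_⟩, ?_⟩
  · unfold stP
    have h1 : CHP (fun x : α × ℕ => A x.1 (x.2 / (D x.1 + 1)) (x.2 % (D x.1 + 1))) :=
      hA.app₃ (by fun_prop) (by fun_prop) (by fun_prop)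
    have h2 : CHP (fun y : ((α × ℕ) × ℕ) × ℕ => A y.1.1.1 y.1.2 y.2) :=
      hA.app₃ (by fun_prop) (by fun_prop) (by fun_prop)
    refine CHP.add (CHP.sum_range (by fun_prop) (CHP.sum_range (by fun_prop) ?_))
      (CHP.pow (CHP.sub' (CHP.mul (CHP.X (by fun_prop)) h1) (CHP.const 1)) (PT.const 2))
    exact CHP.ite (by fun_prop) (h2.pow (PT.const 2)) (CHP.const 0)
  · exact fun a v => stP_nonneg _ _ _ _ _ _ v
  · intro x v w hvw
    have h1 := fun k j => (h x.1).2.2.1 k j v w fun i hi => hvw i (by omega)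
    simp only [aeval_stP, h1, hvw (n x.1) (by omega)]
  · rintro a ⟨x, hx⟩
    obtain ⟨hodd, -, hdep, hrel⟩ := h a
    obtain ⟨K, e, hT⟩ := exists_top (Km := Km a) (D := D a) (a := fun k j => aeval x (A a k j))
      ⟨0, Nat.zero_le _, D a, le_rfl, (hrel x).1⟩
    have hK : (e + (D a + 1) * K) / (D a + 1) = K := by
      rw [Nat.add_mul_div_left _ _ (Nat.succ_pos _), Nat.div_eq_of_lt (Nat.lt_succ_of_le hT.2.1),
        zero_add]
    have he : (e + (D a + 1) * K) % (D a + 1) = e := by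
      rw [Nat.add_mul_mod_self_left, Nat.mod_eq_of_lt (Nat.lt_succ_of_le hT.2.1)]
    refine ⟨e + (D a + 1) * K, by have := hT.1; have := hT.2.1; nlinarith, ?_⟩
    simp only [hK, he]
    set Z : Set (Fin (n a + 1) → ℝ) :=
      {w | aeval (upd 0 0 w) (stP (Km a) (D a) (n a) K e (A a)) = 0} with hZ
    have hc0 : ∀ i, Continuous fun w : Fin (n a + 1) → ℝ => upd 0 (0 : ℕ → ℝ) w i :=
      continuous_upd 0 (v := fun _ => 0) (y := fun w => w) (fun _ => continuous_const) continuous_id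
    have hZc : IsClosed Z := isClosed_eq (continuous_aeval_of hc0 _) continuous_const
    have htop : ∀ w ∈ Z, Top (Km a) (D a) K e fun k j => aeval (upd 0 0 w) (A a k j) := by
      intro w hw
      obtain ⟨h1, h2⟩ := (stP_zero _ _ _ _ _ _ _).1 hw
      exact ⟨hT.1, hT.2.1, right_ne_zero_of_mul_eq_one h2, h1⟩
    have hloc : ∀ w0 ∈ Z, ∀ᶠ w in 𝓝 w0, w ∈ Z →
        (Solv (n a) (m a) (F a) (upd 0 0 w) ↔ Solv (n a) (m a) (F a) (upd 0 0 w0)) := by
      intro w0 hw0
      have := loc_const (Y := Fin (n a + 1) → ℝ) hodd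
        (f := fun w y => aeval (upd (n a) (upd 0 0 w) y) (F a))
        (continuous_aeval_of (continuous_upd (n a)
          (fun i => (hc0 i).comp continuous_fst) continuous_snd) _)
        (fun _ _ => H.pos.nonneg a _) (a := fun w k j => aeval (upd 0 0 w) (A a k j))
        (fun k j => continuous_aeval_of hc0 _) (fun w => (hrel _).2) (htop w0 hw0)
      exact this.mono fun w hw hwZ => hw (htop w hwZ)
    refine ⟨{w | w ∈ Z ∧ ¬ Solv (n a) (m a) (F a) (upd 0 0 w)}, fun w hw => hw, ?_,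
      closed_of_loc hZc fun w0 hw0 => (hloc w0 hw0).mono fun w hw hwZ => not_congr (hw hwZ), ?_⟩
    · set w : Fin (n a + 1) → ℝ := fun i => if (i : ℕ) < n a then x i else (aeval x (A a K e))⁻¹
        with hw
      have h1 : ∀ i < n a, upd 0 0 w i = x i := fun i hi => by
        simp [upd, hw, hi, hi.le, Nat.lt_succ_iff]
      have h2 : upd 0 0 w (n a) = (aeval x (A a K e))⁻¹ := by simp [upd, hw]
      have h3 := fun k j => hdep k j _ _ h1
      refine ⟨w, (stP_zero _ _ _ _ _ _ _).2 ⟨fun k hk j hj hc => ?_, ?_⟩, ?_⟩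
      · rw [h3]; exact hT.2.2.2 k hk j hj hc
      · rw [h2, h3]; exact inv_mul_cancel₀ hT.2.2.1
      · rwa [Solv.congr (H.pos.dep a) h1]
    · convert closed_of_loc hZc hloc using 1
      ext w
      simp only [Set.mem_diff, Set.mem_setOf_eq]
      tauto

end Crest.Agent.R316
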