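import Crest.Agent.R316.InnerChi
import Crest.Agent.R316.InnerTest
import Crest.Agent.R316.Liouville
/-!
# A uniform penalty deciding solvability at all real grid points (task R316-TestW)

`innerChi` gives `d, Km, D, A`; `liouville₂` for `u i = A (i / (D+1)) (i % (D+1))`, `i < (Km+1)(D+1)`, gives `E`.  With `(K, e)` from `exists_top`, `R = 2^E * 2^E` works in
`inner_test`.  `C = R + 2`, `T0 = 1 + (Km+1)(D+1) R C^D` as integers (`CHZ`, `fun_prop`).
-/
set_option autoImplicit false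
namespace Crest.Agent.R316
open Crest.Agent.PTime MvPolynomial Finset
variable {α : Type} [Enc α]

theorem testW {n m : α → ℕ} {F : α → MP} (H : Good n m F) {b : α → ℕ → Polynomial ℤ}
    (G : GridF n b) :
    ∃ (d : α → ℕ) (T0 C0 : α → ℤ), PT d ∧ CHZ T0 ∧ CHZ C0 ∧ ∀ a, Odd (d a) ∧ 0 ≤ T0 a ∧
      (∀ i < n a + m a, ∀ τ, (X τ * pderiv i (F a)).totalDegree < d a) ∧
      (Valid (n a) (b a) → ∀ x ∈ gridR (n a) (b a), Solv (n a) (m a) (F a) x ↔
        ∃ y, penR (d a) (T0 a) (fun y : Fin (m a) → ℝ => aeval (upd (n a) x y) (F a)) y < C0 a) := by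
  obtain ⟨d, Km, D, A, hd, hKm, hD, hA, h⟩ := innerChi H
  obtain ⟨E, hE, hL⟩ := liouville₂ G (u := fun a i => A a (i / (D a + 1)) (i % (D a + 1)))
    (hA.app₃ PT.id.fst (by fun_prop) (by fun_prop)) (N := fun a => (Km a + 1) * (D a + 1))
    (by fun_prop)
  have hR : CHZ fun a => (2 : ℤ) ^ E a * 2 ^ E a :=
    ((CHZ.const 2).pow hE).mul ((CHZ.const 2).pow hE)
  have hC : CHZ fun a => (2 : ℤ) ^ E a * 2 ^ E a + 2 := hR.add (CHZ.const 2)
  refine ⟨d, fun a => 1 + ((Km a : ℤ) + 1) * ((D a : ℤ) + 1) * (2 ^ E a * 2 ^ E a) *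
    (2 ^ E a * 2 ^ E a + 2) ^ D a, fun a => 2 ^ E a * 2 ^ E a + 2, hd,
    (CHZ.const 1).add (((((CHZ.natCast hKm).add (CHZ.const 1)).mul
      ((CHZ.natCast hD).add (CHZ.const 1))).mul hR).mul (hC.pow hD)), hC,
    fun a => ⟨(h a).1, by positivity, (h a).2.1, fun hV x hx => ?_⟩⟩
  obtain ⟨h1, h2⟩ := (h a).2.2.2 x
  obtain ⟨K, e, hT⟩ := exists_top (Km := Km a) (D := D a) (a := fun k j => aeval x (A a k j))
    ⟨0, Nat.zero_le _, D a, le_rfl, h1⟩
  have key : ∀ k ≤ Km a, ∀ j ≤ D a, |aeval x (A a k j)| ≤ 2 ^ E a ∧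
      (aeval x (A a k j) ≠ 0 → 1 ≤ 2 ^ E a * |aeval x (A a k j)|) := by
    intro k hk j hj
    have h3 := hL a hV x hx (j + k * (D a + 1)) (by
      have := Nat.mul_le_mul_right (D a + 1) hk
      rw [add_mul, one_mul]; omega)
    rwa [Nat.add_mul_div_right _ _ (Nat.succ_pos _), Nat.div_eq_of_lt (Nat.lt_succ_of_le hj),
      zero_add, Nat.add_mul_mod_self_right, Nat.mod_eq_of_lt (Nat.lt_succ_of_le hj)] at h3
  have hcont : Continuous fun y : Fin (m a) → ℝ => aeval (upd (n a) x y) (F a) :=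
    continuous_aeval_of (v := fun y : Fin (m a) → ℝ => upd (n a) x y)
      (continuous_upd (n a) (v := fun _ => x) (y := fun y => y) (fun _ => continuous_const)
        continuous_id) (F a)
  unfold Solv
  refine inner_test (h a).1 hcont (fun y => H.pos.nonneg a _) h2 hT (R := 2 ^ E a * 2 ^ E a) (fun k hk j hj => ?_) ?_ ?_
  · have h3 := (key K hT.1 e hT.2.1).2 hT.2.2.1
    refine (key k hk j hj).1.trans ?_
    rw [mul_assoc]
    exact le_mul_of_one_le_right (by positivity) h3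
  · push_cast; exact le_rfl
  · push_cast; exact le_rfl

end Crest.Agent.R316
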