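import Crest.Agent.R316.Defs
/-!
# The Bezoutian (task R316-TrBez)

Work in `A₂ = MvPolynomial (Fin m ⊕ Fin m) ℂ` with `y = X ∘ inl`, `y' = X ∘ inr`, `ι, ι' = rename inl, rename inr`, `μ = rename (Sum.elim id id)`.
* For every `u` there are `θ j u ∈ A₂` with `ι u - ι' u = ∑ j, θ j u * (y j - y' j)`, `μ (θ j u) = pderiv j u` and
  `totalDegree (θ j u) < totalDegree u` or `θ j u = 0` (define on monomials / induction on `u` using
  `ι (uv) - ι' (uv) = ι u (ι v - ι' v) + (ι u - ι' u) ι' v`; a clean way: prove the existence statement with `totalDegree (θ j u) + 1 ≤ n ∨ θ = 0`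
  for `totalDegree u ≤ n` by induction over monomials as products of variables).
* `Θ i j = δ_ij ∑_{t<d} y_i^t y'_i^(d-1-t) - θ j (g i)`, `Θ = det (Θ i j)`.  `μ Θ = jac d g`.  By the adjugate, `Θ * (y j - y' j)` lies in the ideal
  `I₂` generated by `ι f_i, ι' f_i`; hence so does `Θ * (ι u - ι' u)`.
* Write `Θ = ∑ β ∈ support, ι (a β) * ι' (b β)` with `a β`, `b β` monomials (split the exponent), `deg (b β) ≤ deg Θ ≤ m (d-1)`.
  For a functional `ℓ` killing `I`, the map `Φ = id ⊗ ℓ : A₂ → A` (`ι a * ι' b ↦ ℓ b • a`; define it on monomials by `Finsupp.lsum`/`basisMonomials.constr`,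
  or through `sumAlgEquiv`) sends `I₂` into `I`; this gives the third claim.
* Fourth claim: the part of `Θ` with `y'`-exponent `(d-1, …, d-1)` is `1`: in the Leibniz expansion every term other than
  `∏ i, ∑_t y_i^t y'_i^(d-1-t)` has total degree `< m (d-1)`, and in that product only `t = 0` contributes.
-/
set_option autoImplicit false
namespace Crest.Agent.R316
open MvPolynomial Finset

namespace BezA
variable {σ : Type} [Fintype σ] [DecidableEq σ]

/-- zero or of degree `< n` -/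
def Lt {R : Type*} [CommRing R] (n : ℕ) (f : MvPolynomial σ R) : Prop := f = 0 ∨ f.totalDegree < n

section lt
variable {R : Type*} [CommRing R]
omit [Fintype σ] [DecidableEq σ]

theorem Lt.zero (n : ℕ) : Lt n (0 : MvPolynomial σ R) := Or.inl rfl

theorem Lt.mono {n k : ℕ} {f : MvPolynomial σ R} (h : Lt n f) (hk : n ≤ k) : Lt k f :=
  h.imp id fun h => h.trans_le hk

theorem Lt.add {n : ℕ} {f g : MvPolynomial σ R} (hf : Lt n f) (hg : Lt n g) : Lt n (f + g) := by
  rcases hf with rfl | hf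
  · simpa using hg
  rcases hg with rfl | hg
  · rw [add_zero]; exact Or.inr hf
  exact Or.inr ((totalDegree_add _ _).trans_lt (max_lt hf hg))

theorem Lt.neg {n : ℕ} {f : MvPolynomial σ R} (hf : Lt n f) : Lt n (-f) := by
  rcases hf with rfl | hf
  · simpa using Lt.zero n
  · exact Or.inr (by rwa [totalDegree_neg])

theorem Lt.mul {n k : ℕ} {f g : MvPolynomial σ R} (hf : Lt n f) (hg : g.totalDegree ≤ k) :
    Lt (n + k) (f * g) := by
  rcases hf with rfl | hf
  · simpa using Lt.zero _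
  · exact Or.inr ((totalDegree_mul _ _).trans_lt (by omega))

theorem Lt.mul' {n k : ℕ} {f g : MvPolynomial σ R} (hg : g.totalDegree ≤ k) (hf : Lt n f) :
    Lt (k + n) (g * f) := by
  rw [mul_comm, add_comm]; exact hf.mul hg

theorem Lt.le {n : ℕ} {f : MvPolynomial σ R} (hf : Lt n f) : f.totalDegree ≤ n := by
  rcases hf with rfl | hf
  · simp
  · exact hf.le

theorem Lt.sum {ι : Type*} {n : ℕ} (s : Finset ι) {f : ι → MvPolynomial σ R}
    (h : ∀ i ∈ s, Lt n (f i)) : Lt n (∑ i ∈ s, f i) :=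
  Finset.sum_induction f (Lt n) (fun _ _ => Lt.add) (Lt.zero n) h

theorem Lt.coeff {n : ℕ} {f : MvPolynomial σ R} (hf : Lt n f) {β : σ →₀ ℕ}
    (hβ : n ≤ β.sum fun _ e => e) : coeff β f = 0 := by
  rcases hf with rfl | hf
  · simp
  · by_contra h
    have := le_totalDegree (mem_support_iff.2 h)
    omega

theorem prod_sub {ι : Type*} [DecidableEq ι] (s : Finset ι) (k : ℕ) (D N : ι → MvPolynomial σ R)
    (hD : ∀ i, (D i).totalDegree ≤ k) (hN : ∀ i, Lt k (N i)) :
    (∏ i ∈ s, D i).totalDegree ≤ s.card * k ∧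
      Lt (s.card * k) (∏ i ∈ s, (D i + N i) - ∏ i ∈ s, D i) := by
  induction s using Finset.induction_on with
  | empty => simp [Lt]
  | insert a s ha ih =>
    rw [prod_insert ha, prod_insert ha, card_insert_of_notMem ha, add_mul, one_mul]
    refine ⟨(totalDegree_mul _ _).trans (by have := hD a; have := ih.1; omega), ?_⟩
    have e : (D a + N a) * ∏ i ∈ s, (D i + N i) - D a * ∏ i ∈ s, D i =
        (∏ i ∈ s, (D i + N i) - ∏ i ∈ s, D i) * (D a + N a) + (∏ i ∈ s, D i) * N a := by ring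
    rw [e]
    exact (ih.2.mul ((totalDegree_add _ _).trans (max_le (hD a) (hN a).le))).add
      (Lt.mul' ih.1 (hN a))

end lt

theorem det_sub {R : Type*} [CommRing R] (k : ℕ) (D N : Matrix σ σ (MvPolynomial σ R))
    (hD : ∀ i j, (D i j).totalDegree ≤ k) (hN : ∀ i j, Lt k (N i j)) :
    Lt (Fintype.card σ * k) ((D + N).det - D.det) := by
  rw [Matrix.det_apply', Matrix.det_apply', ← sum_sub_distrib]
  refine Lt.sum _ fun π _ => ?_
  rw [← mul_sub]
  have h := (prod_sub univ k (fun i => D (π i) i) (fun i => N (π i) i) (fun i => hD _ _)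
    (fun i => hN _ _)).2
  have h2 : (((Equiv.Perm.sign π : ℤˣ) : ℤ) : MvPolynomial σ R).totalDegree ≤ 0 := by
    rw [← map_intCast (C : R →+* MvPolynomial σ R), totalDegree_C]
  simpa [Matrix.add_apply] using Lt.mul' h2 h

/-- the second copy -/
noncomputable abbrev ι' : MvPolynomial σ ℂ →+* MvPolynomial σ (MvPolynomial σ ℂ) :=
  MvPolynomial.map (C : ℂ →+* MvPolynomial σ ℂ)

/-- multiplication -/
noncomputable abbrev μ : MvPolynomial σ (MvPolynomial σ ℂ) →+* MvPolynomial σ ℂ :=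
  MvPolynomial.eval (X : σ → MvPolynomial σ ℂ)

omit [Fintype σ] [DecidableEq σ] in
theorem μ_ι' (u : MvPolynomial σ ℂ) : μ (ι' u) = u := by
  induction u using MvPolynomial.induction_on with
  | C a => simp
  | add p q hp hq => simp only [map_add, hp, hq]
  | mul_X p i hp => simp only [map_mul, hp, map_X, eval_X]

omit [Fintype σ] [DecidableEq σ] in
theorem deg_ι' (u : MvPolynomial σ ℂ) : (ι' u).totalDegree ≤ u.totalDegree :=
  Finset.sup_mono (support_map_subset _ _)

/-- difference quotients -/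
def T (u : MvPolynomial σ ℂ) (n : ℕ) : Prop :=
  u.totalDegree ≤ n ∧ ∃ θ : σ → MvPolynomial σ (MvPolynomial σ ℂ),
    C u - ι' u = ∑ j, θ j * (C (X j) - X j) ∧ ∀ j, μ (θ j) = pderiv j u ∧ Lt n (θ j)

theorem T.C (c : ℂ) : T (C c : MvPolynomial σ ℂ) 0 :=
  ⟨by simp, fun _ => 0, by simp, fun j => ⟨by simp, Lt.zero _⟩⟩

theorem T.X (i : σ) : T (X i : MvPolynomial σ ℂ) 1 := by
  refine ⟨by simp, fun j => if j = i then 1 else 0, by simp, fun j => ⟨?_, ?_⟩⟩
  · by_cases h : j = i
    · subst h; simp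
    · simp [h, pderiv_X_of_ne (Ne.symm h)]
  · by_cases h : j = i
    · simp [h, Lt]
    · simp [h, Lt]

theorem T.mono {u : MvPolynomial σ ℂ} {n k : ℕ} (h : T u n) (hk : n ≤ k) : T u k := by
  obtain ⟨h1, θ, h2, h3⟩ := h
  exact ⟨h1.trans hk, θ, h2, fun j => ⟨(h3 j).1, (h3 j).2.mono hk⟩⟩

theorem T.add {u v : MvPolynomial σ ℂ} {n : ℕ} (hu : T u n) (hv : T v n) : T (u + v) n := by
  obtain ⟨h1, θ, h2, h3⟩ := hu
  obtain ⟨k1, η, k2, k3⟩ := hv
  refine ⟨(totalDegree_add _ _).trans (max_le h1 k1), fun j => θ j + η j, ?_, fun j =>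
    ⟨by simp only [map_add, (h3 j).1, (k3 j).1], (h3 j).2.add (k3 j).2⟩⟩
  simp only [add_mul, sum_add_distrib, ← h2, ← k2, map_add]
  ring

theorem T.mul {u v : MvPolynomial σ ℂ} {n k : ℕ} (hu : T u n) (hv : T v k) : T (u * v) (n + k) := by
  obtain ⟨h1, θ, h2, h3⟩ := hu
  obtain ⟨k1, η, k2, k3⟩ := hv
  refine ⟨(totalDegree_mul _ _).trans (add_le_add h1 k1),
    fun j => MvPolynomial.C u * η j + θ j * ι' v, ?_, fun j => ⟨?_, ?_⟩⟩
  · have e : ∑ j, (MvPolynomial.C u * η j + θ j * ι' v) * (MvPolynomial.C (MvPolynomial.X j) - MvPolynomial.X j) =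
        MvPolynomial.C u * ∑ j, η j * (MvPolynomial.C (MvPolynomial.X j) - MvPolynomial.X j) +
          (∑ j, θ j * (MvPolynomial.C (MvPolynomial.X j) - MvPolynomial.X j)) * ι' v := by
      rw [mul_sum, sum_mul, ← sum_add_distrib]
      exact sum_congr rfl fun j _ => by ring
    rw [e, ← h2, ← k2, map_mul, map_mul]
    ring
  · simp only [map_add, map_mul, (h3 j).1, (k3 j).1, μ_ι', eval_C, Derivation.leibniz, smul_eq_mul]
    ring
  · refine Lt.add ?_ ((h3 j).2.mul ((deg_ι' v).trans k1))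
    exact Lt.mul' (by simp) (k3 j).2

theorem T.pow (i : σ) (e : ℕ) : T (MvPolynomial.X i ^ e : MvPolynomial σ ℂ) e := by
  induction e with
  | zero => simpa using T.C (σ := σ) 1
  | succ e ih => rw [pow_succ]; exact ih.mul (T.X i)

theorem T.prod (s : Finset σ) (e : σ → ℕ) :
    T (∏ i ∈ s, MvPolynomial.X i ^ e i : MvPolynomial σ ℂ) (∑ i ∈ s, e i) := by
  induction s using Finset.induction_on with
  | empty => simpa using T.C (σ := σ) 1
  | insert a s ha ih => rw [prod_insert ha, sum_insert ha]; exact (T.pow a _).mul ih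

theorem T.all (u : MvPolynomial σ ℂ) : T u u.totalDegree := by
  conv_lhs => rw [u.as_sum]
  refine Finset.sum_induction _ (fun v => T v u.totalDegree) (fun _ _ => T.add) ?_ fun β hβ => ?_
  · simpa using (T.C (σ := σ) 0).mono (Nat.zero_le _)
  · rw [monomial_eq]
    refine ((T.C _).mul (T.prod β.support β)).mono ?_
    rw [zero_add]
    exact le_totalDegree hβ

/-- `id ⊗ ℓ` -/
noncomputable def Φ (ℓ : MvPolynomial σ ℂ →ₗ[ℂ] ℂ) :
    MvPolynomial σ (MvPolynomial σ ℂ) →ₗ[MvPolynomial σ ℂ] MvPolynomial σ ℂ :=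
  (basisMonomials σ (MvPolynomial σ ℂ)).constr (MvPolynomial σ ℂ) fun β => C (ℓ (monomial β 1))

omit [Fintype σ] [DecidableEq σ] in
theorem Φ_monomial (ℓ : MvPolynomial σ ℂ →ₗ[ℂ] ℂ) (β : σ →₀ ℕ) :
    Φ ℓ (monomial β 1) = C (ℓ (monomial β 1)) := by
  have := (basisMonomials σ (MvPolynomial σ ℂ)).constr_basis (MvPolynomial σ ℂ)
    (fun β => (C (ℓ (monomial β 1)) : MvPolynomial σ ℂ)) β
  simpa [Φ] using this

omit [Fintype σ] [DecidableEq σ] in
theorem Φ_C_mul (ℓ : MvPolynomial σ ℂ →ₗ[ℂ] ℂ) (a : MvPolynomial σ ℂ)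
    (p : MvPolynomial σ (MvPolynomial σ ℂ)) : Φ ℓ (C a * p) = a * Φ ℓ p := by
  rw [C_mul', map_smul, smul_eq_mul]

omit [Fintype σ] [DecidableEq σ] in
theorem Φ_ι' (ℓ : MvPolynomial σ ℂ →ₗ[ℂ] ℂ) (u : MvPolynomial σ ℂ) : Φ ℓ (ι' u) = C (ℓ u) := by
  induction u using MvPolynomial.induction_on' with
  | monomial β c =>
    have e1 : (monomial β c : MvPolynomial σ ℂ) = c • monomial β 1 := by simp [smul_monomial]
    have e2 : (monomial β (C c) : MvPolynomial σ (MvPolynomial σ ℂ)) = C (C c) * monomial β 1 := by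
      rw [C_mul_monomial, mul_one]
    rw [map_monomial, e2, Φ_C_mul, Φ_monomial, e1, map_smul, smul_eq_mul, map_mul]
  | add p q hp hq => simp only [map_add, hp, hq]

omit [Fintype σ] [DecidableEq σ] in
theorem as_sum' (p : MvPolynomial σ (MvPolynomial σ ℂ)) :
    p = ∑ β ∈ p.support, C (coeff β p) * ι' (monomial β 1) := by
  conv_lhs => rw [p.as_sum]
  refine sum_congr rfl fun β _ => ?_
  rw [map_monomial, map_one, C_mul_monomial, mul_one]

omit [Fintype σ] [DecidableEq σ] in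
theorem Φ_ι'_mul (ℓ : MvPolynomial σ ℂ →ₗ[ℂ] ℂ) (u : MvPolynomial σ ℂ)
    (p : MvPolynomial σ (MvPolynomial σ ℂ)) :
    Φ ℓ (ι' u * p) = ∑ β ∈ p.support, ℓ (u * monomial β 1) • coeff β p := by
  conv_lhs => rw [as_sum' p, mul_sum, map_sum]
  refine sum_congr rfl fun β _ => ?_
  rw [mul_left_comm, ← map_mul, Φ_C_mul, Φ_ι', smul_eq_C_mul, mul_comm]

end BezA
open BezA

theorem bezoutian {m d : ℕ} (g : Fin m → MvPolynomial (Fin m) ℂ) (hg : ∀ i, (g i).totalDegree < d) :
    ∃ (ι : Type) (s : Finset ι) (a b : ι → MvPolynomial (Fin m) ℂ),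
      ∑ i ∈ s, a i * b i = jac d g ∧ (∀ i ∈ s, (b i).totalDegree ≤ m * (d - 1)) ∧
      (∀ ℓ : MvPolynomial (Fin m) ℂ →ₗ[ℂ] ℂ, (∀ u ∈ sysI d g, ℓ u = 0) → ∀ u,
        ∑ i ∈ s, ℓ (u * b i) • a i - u * ∑ i ∈ s, ℓ (b i) • a i ∈ sysI d g) ∧
      ∑ i ∈ s, coeff (Finsupp.equivFunOnFinite.symm fun _ => d - 1) (b i) • a i = 1 := by
  classical
  choose θ hθ1 hθ2 using fun i => (T.all (g i)).2
  set top : Fin m →₀ ℕ := Finsupp.equivFunOnFinite.symm fun _ => d - 1 with htop
  let A := MvPolynomial (Fin m) ℂ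
  let Θ : Matrix (Fin m) (Fin m) (MvPolynomial (Fin m) A) := Matrix.of fun i j =>
    (if i = j then ∑ t ∈ range d, C (X i) ^ t * X i ^ (d - 1 - t) else 0) - θ i j
  let D : Matrix (Fin m) (Fin m) (MvPolynomial (Fin m) A) := Matrix.diagonal fun i => X i ^ (d - 1)
  have hrow : ∀ i, ∑ j, Θ i j * (C (X j) - X j) = C (X i ^ d - g i) - ι' (X i ^ d - g i) := by
    intro i
    simp only [Θ, Matrix.of_apply, sub_mul, sum_sub_distrib, ite_mul, zero_mul, sum_ite_eq, mem_univ,
      if_true, ← hθ1 i, geom_sum₂_mul, map_sub, map_pow, map_X]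
    ring
  have hD : ∀ i j, (D i j).totalDegree ≤ d - 1 := by
    intro i j
    simp only [D, Matrix.diagonal_apply]
    split_ifs
    · exact (totalDegree_pow _ _).trans (by simp)
    · simp
  have hN : ∀ i j, Lt (d - 1) ((Θ - D) i j) := by
    intro i j
    have h1 : Lt (d - 1) (θ i j) := (hθ2 i j).2.mono (by have := hg i; omega)
    simp only [Θ, D, Matrix.sub_apply, Matrix.of_apply, Matrix.diagonal_apply]
    split_ifs with h
    · obtain ⟨e, rfl⟩ : ∃ e, d = e + 1 := ⟨d - 1, by have := hg i; omega⟩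
      rw [sum_range_succ']
      have e1 : (∑ k ∈ range e, (C (X i) : MvPolynomial (Fin m) A) ^ (k + 1) * X i ^ (e + 1 - 1 - (k + 1)) +
          C (X i) ^ 0 * X i ^ (e + 1 - 1 - 0) - θ i j) - X i ^ (e + 1 - 1) =
          ∑ k ∈ range e, (C (X i) : MvPolynomial (Fin m) A) ^ (k + 1) * X i ^ (e + 1 - 1 - (k + 1)) +
            - θ i j := by
        simp only [pow_zero, one_mul, Nat.sub_zero]; ring
      rw [e1]
      refine (Lt.sum _ fun k hk => Or.inr ?_).add h1.neg
      have := mem_range.1 hk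
      refine (totalDegree_mul _ _).trans_lt ?_
      rw [← map_pow, totalDegree_C, zero_add]
      refine (totalDegree_pow _ _).trans_lt ?_
      simp only [totalDegree_X]
      omega
    · simpa using h1.neg
  have hdet := det_sub (d - 1) D (Θ - D) hD hN
  rw [add_sub_cancel, Fintype.card_fin] at hdet
  have hDdet : D.det = monomial top 1 := by
    rw [Matrix.det_diagonal, monomial_eq, C_1, one_mul, Finsupp.prod_fintype _ _ (by simp)]
    simp [htop]
  have htops : (top.sum fun _ e => e) = m * (d - 1) := by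
    rw [Finsupp.sum_fintype _ _ (by simp)]
    simp [htop]
  have hdeg : Θ.det.totalDegree ≤ m * (d - 1) := by
    have : Θ.det = (Θ.det - D.det) + D.det := by ring
    rw [this]
    refine (totalDegree_add _ _).trans (max_le hdet.le ?_)
    rw [hDdet]
    exact (totalDegree_monomial_le _ _).trans htops.le
  refine ⟨Fin m →₀ ℕ, Θ.det.support, fun β => coeff β Θ.det, fun β => monomial β 1, ?_, ?_, ?_, ?_⟩
  · have h1 : μ Θ.det = ∑ β ∈ Θ.det.support, coeff β Θ.det * monomial β 1 := by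
      conv_lhs => rw [as_sum' Θ.det, map_sum]
      exact sum_congr rfl fun β _ => by rw [map_mul, μ_ι', eval_C]
    rw [← h1, RingHom.map_det, jac]
    congr 1
    ext1 i j
    simp only [RingHom.mapMatrix_apply, Matrix.map_apply, Θ, Matrix.of_apply, map_sub, (hθ2 i j).1]
    congr 1
    split_ifs with h
    · subst h
      simp only [map_sum, map_mul, map_pow, eval_C, eval_X, geom_sum₂_self]
      simp [Derivation.leibniz_pow]
    · simp [Derivation.leibniz_pow, pderiv_X_of_ne h]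
  · intro β hβ
    exact (totalDegree_monomial_le _ _).trans ((le_totalDegree hβ).trans hdeg)
  · intro ℓ hℓ u
    have hf : ∀ i, X i ^ d - g i ∈ sysI d g := fun i => Ideal.subset_span ⟨i, rfl⟩
    have hF : ∀ (p : MvPolynomial (Fin m) A) i,
        Φ ℓ (p * (C (X i ^ d - g i) - ι' (X i ^ d - g i))) ∈ sysI d g := by
      intro p i
      rw [mul_sub, map_sub, mul_comm p, mul_comm p, Φ_C_mul, Φ_ι'_mul]
      refine sub_mem (Ideal.mul_mem_right _ _ (hf i)) ?_
      rw [sum_eq_zero]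
      · exact zero_mem _
      · intro β _
        rw [hℓ _ (Ideal.mul_mem_right _ _ (hf i)), zero_smul]
    have hadj : ∀ j, Θ.det * (C (X j) - X j) =
        ∑ i, Θ.adjugate j i * (C (X i ^ d - g i) - ι' (X i ^ d - g i)) := by
      intro j
      have h1 := congrFun (congrArg (fun M => Matrix.mulVec M (fun j => (C (X j) - X j :
        MvPolynomial (Fin m) A))) (Matrix.adjugate_mul Θ)) j
      simp only [← Matrix.mulVec_mulVec, Matrix.smul_mulVec, Matrix.one_mulVec, Pi.smul_apply,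
        smul_eq_mul] at h1
      rw [← h1]
      simp only [Matrix.mulVec, dotProduct, hrow]
    obtain ⟨η, hη, -⟩ := (T.all u).2
    have h1 : Φ ℓ (Θ.det * (C u - ι' u)) ∈ sysI d g := by
      rw [hη, mul_sum, map_sum]
      refine sum_mem fun j _ => ?_
      rw [mul_left_comm, hadj, mul_sum, map_sum]
      refine sum_mem fun i _ => ?_
      rw [← mul_assoc]
      exact hF _ _
    have h2 : Φ ℓ Θ.det = ∑ β ∈ Θ.det.support, ℓ (monomial β 1) • coeff β Θ.det := by
      simpa using Φ_ι'_mul ℓ 1 Θ.det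
    rw [mul_sub, map_sub, mul_comm Θ.det, mul_comm Θ.det, Φ_C_mul, Φ_ι'_mul, h2] at h1
    simpa using neg_mem h1
  · have h1 : coeff top Θ.det = 1 := by
      have := hdet.coeff htops.ge
      rw [coeff_sub, hDdet, coeff_monomial, if_pos rfl] at this
      exact sub_eq_zero.1 this
    have h2 : top ∈ Θ.det.support := mem_support_iff.2 (by rw [h1]; exact one_ne_zero)
    rw [sum_eq_single_of_mem top h2]
    · simp [h1]
    · intro β _ hβ
      simp [coeff_monomial, hβ]

end Crest.Agent.R316
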