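import Crest.Agent.R316.Defs
/-!
# The residue functional (task R316-TrEll)

Term `k` of `ellB` is the coefficient of a monomial of degree `d |k| + m (d-1)` in `u ∏ g_i^{k_i}`, of total degree
`≤ deg u + (d-1) |k|`; it vanishes when `deg u < |k| + m (d - 1)`, in particular when some `k i > deg u`
(`coeff_eq_zero_of_totalDegree_lt`).  So `ellB d g B u` does not depend on `B ≥ deg u`; define `ℓ u = ellB d g (deg u) u`, linear.
If `deg u ≤ m (d-1)` only `k = 0` contributes.
Telescoping: the term `k` of `X i ^ d * u` is `0` if `k i = 0` (`d - 1 < d`; `coeff_monomial_mul'`), and for `k = k' + e_i` it is the term `k'`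
of `g i * u`.  (If `m = 0` everything is trivial; if `m > 0` then `1 ≤ d`.)
-/
set_option autoImplicit false
namespace Crest.Agent.R316
open MvPolynomial Finset

namespace TrEllA

variable {m d : ℕ} {g : Fin m → MvPolynomial (Fin m) ℂ}

noncomputable def T (d : ℕ) (g : Fin m → MvPolynomial (Fin m) ℂ) (k : Fin m → ℕ)
    (u : MvPolynomial (Fin m) ℂ) : ℂ :=
  coeff (Finsupp.equivFunOnFinite.symm fun i => d * (k i + 1) - 1) (u * ∏ i, g i ^ k i)

theorem ellB_eq (B : ℕ) (u : MvPolynomial (Fin m) ℂ) :
    ellB d g B u = ∑ k ∈ Fintype.piFinset (fun _ : Fin m => range (B + 1)), T d g k u := rfl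

theorem T_zero (hg : ∀ i, (g i).totalDegree < d) {k : Fin m → ℕ} {u : MvPolynomial (Fin m) ℂ}
    (h : u.totalDegree < ∑ i, k i + m * (d - 1)) : T d g k u = 0 := by
  refine coeff_eq_zero_of_totalDegree_lt ?_
  rw [← Finsupp.degree_apply, Finsupp.degree_eq_sum]
  have h1 := totalDegree_mul u (∏ i, g i ^ k i)
  have h2 : (∏ i, g i ^ k i).totalDegree ≤ ∑ i, k i * (d - 1) :=
    (totalDegree_finsetProd _ _).trans (Finset.sum_le_sum fun i _ =>
      (totalDegree_pow _ _).trans (Nat.mul_le_mul_left _ (by have := hg i; omega)))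
  have h3 : ∑ i, (Finsupp.equivFunOnFinite.symm fun i => d * (k i + 1) - 1) i =
      ∑ i, k i * (d - 1) + (∑ i, k i + m * (d - 1)) := by
    have e : m * (d - 1) = ∑ _i : Fin m, (d - 1) := by simp
    rw [e, ← Finset.sum_add_distrib, ← Finset.sum_add_distrib]
    refine Finset.sum_congr rfl fun i _ => ?_
    obtain ⟨e, rfl⟩ : ∃ e, d = e + 1 := ⟨d - 1, by have := hg i; omega⟩
    simp only [Finsupp.equivFunOnFinite_symm_apply_apply, Nat.add_sub_cancel]
    apply Nat.sub_eq_of_eq_add
    ring
  omega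

theorem T_zero' (hg : ∀ i, (g i).totalDegree < d) {k : Fin m → ℕ} {u : MvPolynomial (Fin m) ℂ}
    {B : ℕ} (hB : u.totalDegree ≤ B)
    (h : k ∉ Fintype.piFinset (fun _ : Fin m => range (B + 1))) : T d g k u = 0 := by
  rw [Fintype.mem_piFinset] at h
  push Not at h
  obtain ⟨i, hi⟩ := h
  rw [mem_range] at hi
  have := Finset.single_le_sum (f := k) (fun i _ => Nat.zero_le _) (mem_univ i)
  exact T_zero hg (by omega)

theorem ellB_stable (hg : ∀ i, (g i).totalDegree < d) {u : MvPolynomial (Fin m) ℂ} {B : ℕ}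
    (hB : u.totalDegree ≤ B) : ellB d g u.totalDegree u = ellB d g B u := by
  rw [ellB_eq, ellB_eq]
  exact Finset.sum_subset (Fintype.piFinset_subset _ _ fun _ =>
    Finset.range_subset_range.2 (by omega)) fun k _ hk => T_zero' hg le_rfl hk

theorem ellB_add (B : ℕ) (u v : MvPolynomial (Fin m) ℂ) :
    ellB d g B (u + v) = ellB d g B u + ellB d g B v := by
  simp only [ellB, add_mul, coeff_add, Finset.sum_add_distrib]

theorem ellB_smul (B : ℕ) (c : ℂ) (u : MvPolynomial (Fin m) ℂ) :
    ellB d g B (c • u) = c * ellB d g B u := by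
  simp only [ellB, smul_mul_assoc, coeff_smul, smul_eq_mul, Finset.mul_sum]

theorem T_shift (hg : ∀ i, (g i).totalDegree < d) (i : Fin m) (k : Fin m → ℕ)
    (c : MvPolynomial (Fin m) ℂ) :
    T d g (k + Pi.single i 1) (c * X i ^ d) = T d g k (c * g i) := by
  have hd : 0 < d := by have := hg i; omega
  unfold T
  have e1 : (Finsupp.equivFunOnFinite.symm fun j =>
      d * ((k + Pi.single i 1 : Fin m → ℕ) j + 1) - 1) =
      Finsupp.single i d + Finsupp.equivFunOnFinite.symm fun j => d * (k j + 1) - 1 := by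
    ext j
    by_cases h : j = i
    · subst h
      simp only [Finsupp.equivFunOnFinite_symm_apply_apply, Pi.add_apply, Pi.single_eq_same,
        Finsupp.add_apply, Finsupp.single_eq_same]
      have : d * (k j + 1 + 1) = d + d * (k j + 1) := by ring
      have : 0 < d * (k j + 1) := by positivity
      omega
    · simp [h, Finsupp.single_eq_of_ne h]
  have e2 : ∏ j, g j ^ (k + Pi.single i 1 : Fin m → ℕ) j = g i * ∏ j, g j ^ k j := by
    simp only [Pi.add_apply, pow_add, Finset.prod_mul_distrib]
    rw [mul_comm, Finset.prod_eq_single i (fun j _ hj => by simp [hj]) (by simp)]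
    simp
  rw [e1, e2, X_pow_eq_monomial, mul_comm c, mul_assoc, coeff_monomial_mul, one_mul, mul_assoc]

theorem T_bot (hg : ∀ i, (g i).totalDegree < d) (i : Fin m) {k : Fin m → ℕ} (hk : k i = 0)
    (c : MvPolynomial (Fin m) ℂ) : T d g k (c * X i ^ d) = 0 := by
  have hd : 0 < d := by have := hg i; omega
  unfold T
  rw [X_pow_eq_monomial, mul_comm c, mul_assoc, coeff_monomial_mul', if_neg]
  rw [Finsupp.single_le_iff]
  simp only [Finsupp.equivFunOnFinite_symm_apply_apply, hk]
  omega

theorem tele (hg : ∀ i, (g i).totalDegree < d) (i : Fin m) (c : MvPolynomial (Fin m) ℂ) {B : ℕ}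
    (hB : (c * g i).totalDegree ≤ B) :
    ellB d g B (c * g i) = ellB d g (B + 1) (c * X i ^ d) := by
  rw [ellB_eq, ellB_eq]
  refine Finset.sum_of_injOn (fun k : Fin m → ℕ => k + Pi.single i 1) ?_ ?_ ?_ ?_
  · intro k _ k' _ h
    exact add_right_cancel h
  · intro k hk
    refine Fintype.mem_piFinset.2 fun j => ?_
    have := mem_range.1 (Fintype.mem_piFinset.1 hk j)
    rw [mem_range]
    by_cases h : j = i
    · subst h; simp; omega
    · simp [h]; omega
  · intro k _ hne
    by_cases hk : k i = 0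
    · exact T_bot hg i hk c
    · have e : k = (k - Pi.single i 1) + Pi.single i 1 := by
        funext j
        by_cases h : j = i
        · subst h; simp; omega
        · simp [h]
      rw [e, T_shift hg]
      exact T_zero' hg hB fun hmem => hne ⟨_, hmem, e.symm⟩
  · intro k _
    exact (T_shift hg i k c).symm

end TrEllA

open TrEllA

theorem exists_ell {m d : ℕ} (g : Fin m → MvPolynomial (Fin m) ℂ) (hg : ∀ i, (g i).totalDegree < d) :
    ∃ ℓ : MvPolynomial (Fin m) ℂ →ₗ[ℂ] ℂ,
      (∀ u B, u.totalDegree ≤ B → ℓ u = ellB d g B u) ∧ (∀ u ∈ sysI d g, ℓ u = 0) ∧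
      ∀ u, u.totalDegree ≤ m * (d - 1) →
        ℓ u = coeff (Finsupp.equivFunOnFinite.symm fun _ => d - 1) u := by
  let ℓ : MvPolynomial (Fin m) ℂ →ₗ[ℂ] ℂ :=
    { toFun := fun u => ellB d g u.totalDegree u
      map_add' := fun u v => by
        rw [ellB_stable hg (totalDegree_add u v), ellB_add,
          ← ellB_stable hg (le_max_left _ _), ← ellB_stable hg (le_max_right _ _)]
      map_smul' := fun c u => by
        rw [ellB_stable hg (totalDegree_smul_le c u), ellB_smul]
        rfl }
  have h1 : ∀ u B, u.totalDegree ≤ B → ℓ u = ellB d g B u := fun u B h => ellB_stable hg h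
  refine ⟨ℓ, h1, fun u hu => ?_, fun u hu => ?_⟩
  · obtain ⟨c, rfl⟩ := Ideal.mem_span_range_iff_exists_fun.1 hu
    rw [map_sum]
    refine Finset.sum_eq_zero fun i _ => ?_
    rw [mul_sub, map_sub, sub_eq_zero,
      h1 (c i * g i) ((c i * g i).totalDegree + (c i * X i ^ d).totalDegree) (by omega),
      tele hg i (c i) (by omega)]
    exact h1 _ _ (by omega)
  · rw [h1 u _ le_rfl, ellB_eq, Finset.sum_eq_single 0]
    · simp [T]
    · intro k _ hk
      obtain ⟨i, hi⟩ := Function.ne_iff.1 hk
      have := Finset.single_le_sum (f := k) (fun i _ => Nat.zero_le _) (mem_univ i)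
      have h2 : k i ≠ 0 := hi
      exact T_zero hg (by omega)
    · intro h
      exact absurd (Fintype.mem_piFinset.2 fun _ => by simp) h

end Crest.Agent.R316
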