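import Crest.Agent.R316.Defs
/-!
# The quotient is spanned by the reduced monomials (task R316-TrFin)

Let `S` be the span of the images of the monomials with all exponents `< d` (a family indexed by `Fin m → Fin d`).  By strong
induction on the total degree every polynomial maps into `S`: a monomial `β` with `β i ≥ d` is
`X i ^ d * monomial β' ≡ g i * monomial β'`, of smaller total degree.  `finrank_range_le_card` / `finrank_span_le_card`.
-/
set_option autoImplicit false
namespace Crest.Agent.R316
open MvPolynomial Finset

theorem sys_finite {m d : ℕ} (g : Fin m → MvPolynomial (Fin m) ℂ) (hg : ∀ i, (g i).totalDegree < d) :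
    Module.Finite ℂ (MvPolynomial (Fin m) ℂ ⧸ sysI d g) ∧
      Module.finrank ℂ (MvPolynomial (Fin m) ℂ ⧸ sysI d g) ≤ d ^ m := by
  classical
  let π := Ideal.Quotient.mkₐ ℂ (sysI d g)
  let b : (Fin m → Fin d) → MvPolynomial (Fin m) ℂ ⧸ sysI d g := fun k =>
    π (monomial (Finsupp.equivFunOnFinite.symm fun i => (k i : ℕ)) 1)
  have key : ∀ n : ℕ, ∀ u : MvPolynomial (Fin m) ℂ, u.totalDegree < n →
      π u ∈ Submodule.span ℂ (Set.range b) := by
    intro n
    induction n with
    | zero => intro u h; omega
    | succ n ih =>
      intro u hu
      rw [u.as_sum, map_sum]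
      refine Submodule.sum_mem _ fun β hβ => ?_
      have hdeg : β.degree ≤ n := by
        have := le_totalDegree hβ
        have e : (β.sum fun _ e => e) = β.degree := rfl
        omega
      by_cases h : ∀ i, β i < d
      · have e : monomial β (coeff β u) = coeff β u • monomial
            (Finsupp.equivFunOnFinite.symm fun i => (((⟨β i, h i⟩ : Fin d)) : ℕ)) (1 : ℂ) := by
          rw [smul_monomial, smul_eq_mul, mul_one]
          congr 2
          ext i
          simp
        rw [e, map_smul]
        exact Submodule.smul_mem _ _ (Submodule.subset_span ⟨fun i => ⟨β i, h i⟩, rfl⟩)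
      · push Not at h
        obtain ⟨i, hi⟩ := h
        obtain ⟨β', rfl⟩ : ∃ β', β = β' + Finsupp.single i d :=
          ⟨β - Finsupp.single i d, (tsub_add_cancel_of_le (Finsupp.single_le_iff.2 hi)).symm⟩
        generalize coeff (β' + Finsupp.single i d) u = c
        have e : π (monomial (β' + Finsupp.single i d) c) = π (monomial β' c * g i) := by
          rw [monomial_add_single]
          refine (Ideal.Quotient.eq (I := sysI d g)).2 ?_
          rw [← mul_sub]
          exact Ideal.mul_mem_left _ _ (Ideal.subset_span ⟨i, rfl⟩)
        rw [e]
        refine ih _ ?_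
        have h1 := totalDegree_mul (monomial β' c) (g i)
        have h2 : (monomial β' c).totalDegree ≤ β'.degree := totalDegree_monomial_le β' c
        have h3 := hg i
        rw [map_add, Finsupp.degree_single] at hdeg
        omega
  have htop : Submodule.span ℂ (Set.range b) = ⊤ := by
    rw [eq_top_iff]
    intro x _
    obtain ⟨u, rfl⟩ := Ideal.Quotient.mkₐ_surjective ℂ (sysI d g) x
    exact key _ u (Nat.lt_succ_self _)
  refine ⟨⟨⟨(Set.finite_range b).toFinset, by simpa using htop⟩⟩, ?_⟩
  have h := finrank_range_le_card (R := ℂ) b
  rw [Set.finrank, htop, finrank_top] at h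
  simpa using h

end Crest.Agent.R316
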