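import Crest.Agent.R316.Defs
/-!
# Linear algebra: traces of powers, trace through a dual pair (task R316-TrLin)

* `trace_pow_roots`: `M = roots (charpoly φ)`.  `trace (φ^j) = ∑ λ^j`: e.g. by triangularisation (induction on the dimension with an
  eigenvector and the quotient, or generalised eigenspaces: `Module.End.iSup_maxGenEigenspace_eq_top`,
  `LinearMap.trace_eq_sum_trace_restrict`, `φ = λ + nilpotent` on each, `LinearMap.finrank_maxGenEigenspace_eq`), or any
  other multiset `M` that works.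
* `trace_mul_eq`: `mulLeft u = ∑ i, (ℓ ∘ mulLeft (u * b i)).smulRight (a i)`; `LinearMap.trace_smulRight`.
* `mem_of_algHom`: Cayley–Hamilton (`LinearMap.aeval_self_charpoly`) applied to `1`, then `ev`.
-/
set_option autoImplicit false
namespace Crest.Agent.R316
open Finset

theorem trace_mul_eq {A : Type*} [CommRing A] [Algebra ℂ A] [Module.Finite ℂ A] {ι : Type*}
    (s : Finset ι) (a b : ι → A) (ℓ : A →ₗ[ℂ] ℂ) (h : ∀ u, ∑ i ∈ s, ℓ (u * b i) • a i = u) (u : A) :
    LinearMap.trace ℂ A (LinearMap.mulLeft ℂ u) = ℓ (u * ∑ i ∈ s, a i * b i) := by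
  have e : LinearMap.mulLeft ℂ u =
      ∑ i ∈ s, (ℓ ∘ₗ LinearMap.mulLeft ℂ (u * b i)).smulRight (a i) := by
    ext v
    rw [LinearMap.sum_apply, LinearMap.mulLeft_apply, ← h (u * v)]
    refine Finset.sum_congr rfl fun i _ => ?_
    simp [mul_assoc, mul_comm v]
  rw [e, map_sum, Finset.mul_sum, map_sum]
  refine Finset.sum_congr rfl fun i _ => ?_
  rw [LinearMap.trace_smulRight]
  simp [mul_comm (b i)]

theorem exists_eigen_end {V : Type*} [AddCommGroup V] [Module ℂ V] [Module.Finite ℂ V]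
    (f : Module.End ℂ V) : ∃ M : Multiset ℂ, M.card = Module.finrank ℂ V ∧
      (∀ j, LinearMap.trace ℂ V (f ^ j) = (M.map (· ^ j)).sum) ∧
      ∀ μ, f.HasEigenvalue μ → μ ∈ M := by
  classical
  have hds := DirectSum.isInternal_submodule_of_iSupIndep_of_iSup_eq_top
    f.independent_maxGenEigenspace f.iSup_maxGenEigenspace_eq_top
  have hfin : {μ | f.maxGenEigenspace μ ≠ ⊥}.Finite :=
    WellFoundedGT.finite_ne_bot_of_iSupIndep f.independent_maxGenEigenspace
  have hm : ∀ (j : ℕ) μ, Set.MapsTo ⇑(f ^ j) (f.maxGenEigenspace μ) (f.maxGenEigenspace μ) :=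
    fun j μ =>
    f.mapsTo_maxGenEigenspace_of_comm (Commute.self_pow f j) μ
  have key : ∀ μ j, LinearMap.trace ℂ _ ((f ^ j).restrict (hm j μ)) =
      (Module.finrank ℂ (f.maxGenEigenspace μ) : ℂ) * μ ^ j := by
    intro μ j
    have hf' := f.mapsTo_maxGenEigenspace_of_comm (Commute.refl _) μ
    induction j with
    | zero =>
      have : (f ^ 0).restrict (hm 0 μ) = LinearMap.id := by ext; simp
      rw [this, LinearMap.trace_id, pow_zero, mul_one]
    | succ j ih =>
      have e : (f ^ (j + 1)).restrict (hm (j + 1) μ) =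
          (f ^ j).restrict (hm j μ) ∘ₗ f.restrict hf' := by
        ext; simp [pow_succ]
      rw [e, LinearMap.trace_comp_eq_mul_of_commute_of_isNilpotent μ
        (LinearMap.restrict_commute (Commute.pow_self f j) _ _)
        (f.isNilpotent_restrict_maxGenEigenspace_sub_algebraMap μ), ih]
      ring
  have tr : ∀ j, LinearMap.trace ℂ V (f ^ j) = (Multiset.map (· ^ j) (∑ μ ∈ hfin.toFinset,
      Multiset.replicate (Module.finrank ℂ (f.maxGenEigenspace μ)) μ)).sum := by
    intro j
    rw [LinearMap.trace_eq_sum_trace_restrict' hds hfin (hm j)]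
    simp only [key]
    induction hfin.toFinset using Finset.induction_on with
    | empty => simp
    | insert a t ha ih => simp [Finset.sum_insert ha, ih]
  refine ⟨_, ?_, tr, fun μ hμ => ?_⟩
  · have := tr 0
    simp only [pow_zero, LinearMap.trace_one, Multiset.map_const', Multiset.sum_replicate,
      nsmul_eq_mul, mul_one] at this
    exact_mod_cast this.symm
  · have hne : f.maxGenEigenspace μ ≠ ⊥ := fun h0 =>
      hμ (eq_bot_iff.2 (h0 ▸ f.genEigenspace_le_maximal μ 1))
    refine Multiset.mem_sum.2 ⟨μ, hfin.mem_toFinset.2 hne, Multiset.mem_replicate.2 ⟨?_, rfl⟩⟩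
    exact fun h0 => hne (Submodule.finrank_eq_zero.1 h0)

theorem exists_eigen_multiset {A : Type*} [CommRing A] [Algebra ℂ A] [Module.Finite ℂ A] (h : A) :
    ∃ M : Multiset ℂ, M.card = Module.finrank ℂ A ∧
      (∀ j, LinearMap.trace ℂ A (LinearMap.mulLeft ℂ (h ^ j)) = (M.map (· ^ j)).sum) ∧
      ∀ ev : A →ₐ[ℂ] ℂ, ev h ∈ M := by
  obtain ⟨M, h1, h2, h3⟩ := exists_eigen_end (LinearMap.mulLeft ℂ h)
  refine ⟨M, h1, fun j => by rw [← h2, LinearMap.pow_mulLeft], fun ev => h3 _ ?_⟩
  rw [Module.End.hasEigenvalue_iff, Module.End.eigenspace_def]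
  intro h0
  obtain ⟨v, hv⟩ := (LinearMap.injective_iff_surjective.1 (LinearMap.ker_eq_bot.1 h0)) 1
  have := congrArg ev hv
  simp at this

end Crest.Agent.R316
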