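import Crest.Agent.R316.TrEll
import Crest.Agent.R316.TrFin
import Crest.Agent.R316.TrBez
import Crest.Agent.R316.TrLin
/-!
# The trace formula (task R316-Trace)

`A = MvPolynomial ⧸ sysI d g`; `ℓ` descends to `A` (`Submodule.liftQ` on `(sysI d g).restrictScalars ℂ`, or `Ideal.Quotient.liftₐ`-style by hand).
By `bezoutian` (third and fourth claims, with the third property of `ℓ`) `∑ ℓ (u b_i) • a_i = u` in `A`; `trace_mul_eq` gives
`trace (h^j) = ℓ (h^j * jac)`.  A solution `y` gives `ev = Ideal.Quotient.liftₐ _ (aeval y) _`.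
-/
set_option autoImplicit false
namespace Crest.Agent.R316
open MvPolynomial Finset

theorem trace_formula {m d : ℕ} (g : Fin m → MvPolynomial (Fin m) ℂ)
    (hg : ∀ i, (g i).totalDegree < d) (h : MvPolynomial (Fin m) ℂ) :
    ∃ M : Multiset ℂ, M.card ≤ d ^ m ∧
      (∀ j B, (h ^ j * jac d g).totalDegree ≤ B →
        ellB d g B (h ^ j * jac d g) = (M.map (· ^ j)).sum) ∧
      ∀ y : Fin m → ℂ, (∀ i, y i ^ d = eval y (g i)) → eval y h ∈ M := by
  classical
  obtain ⟨ℓ, hℓB, hℓI, hℓc⟩ := exists_ell g hg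
  obtain ⟨hfin, hrank⟩ := sys_finite g hg
  obtain ⟨ι, s, a, b, hjac, hdeg, hbez, hone⟩ := bezoutian g hg
  set I := sysI d g with hI
  let π : MvPolynomial (Fin m) ℂ →ₐ[ℂ] (MvPolynomial (Fin m) ℂ ⧸ I) := Ideal.Quotient.mkₐ ℂ I
  have hπ : Function.Surjective π := Ideal.Quotient.mkₐ_surjective ℂ I
  have hker : LinearMap.ker π.toLinearMap ≤ LinearMap.ker ℓ := by
    intro u hu
    have : u ∈ I := by
      have h1 : π u = 0 := hu
      exact Ideal.Quotient.eq_zero_iff_mem.mp h1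
    exact hℓI u this
  obtain ⟨ℓ', hℓ'⟩ : ∃ ℓ' : (MvPolynomial (Fin m) ℂ ⧸ I) →ₗ[ℂ] ℂ, ∀ u, ℓ' (π u) = ℓ u := by
    obtain ⟨σ, hσ⟩ := π.toLinearMap.exists_rightInverse_of_surjective
      (LinearMap.range_eq_top.mpr hπ)
    refine ⟨ℓ ∘ₗ σ, fun u => ?_⟩
    have h1 : σ (π u) - u ∈ LinearMap.ker π.toLinearMap := by
      rw [LinearMap.mem_ker, map_sub]
      have := LinearMap.congr_fun hσ (π u)
      simp only [LinearMap.comp_apply, LinearMap.id_apply] at this
      rw [this]; simp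
    have h2 := hker h1
    rw [LinearMap.mem_ker, map_sub, sub_eq_zero] at h2
    exact h2
  have hsum : ∑ i ∈ s, ℓ (b i) • a i = 1 := by
    rw [← hone]
    exact Finset.sum_congr rfl fun i hi => by rw [hℓc _ (hdeg i hi)]
  have hdual : ∀ u : MvPolynomial (Fin m) ℂ ⧸ I, ∑ i ∈ s, ℓ' (u * π (b i)) • π (a i) = u := by
    intro u
    obtain ⟨u, rfl⟩ := hπ u
    have h1 := hbez ℓ hℓI u
    rw [hsum, mul_one] at h1
    have h2 : π (∑ i ∈ s, ℓ (u * b i) • a i - u) = 0 := Ideal.Quotient.eq_zero_iff_mem.mpr h1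
    rw [map_sub, sub_eq_zero, map_sum] at h2
    refine Eq.trans ?_ h2
    refine Finset.sum_congr rfl fun i _ => ?_
    rw [map_smul, ← hℓ', map_mul π]
  obtain ⟨M, hcard, htr, hev⟩ := exists_eigen_multiset (π h)
  refine ⟨M, hcard ▸ hrank, fun j B hB => ?_, fun y hy => ?_⟩
  · rw [← hℓB _ _ hB, ← htr j, trace_mul_eq s (fun i => π (a i)) (fun i => π (b i)) ℓ' hdual,
      ← hℓ', map_mul, map_pow, ← hjac, map_sum]
    simp only [map_mul]
  · have hy' : ∀ u ∈ I, (aeval y : MvPolynomial (Fin m) ℂ →ₐ[ℂ] ℂ) u = 0 := by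
      intro u hu
      have : I ≤ RingHom.ker (aeval y : MvPolynomial (Fin m) ℂ →ₐ[ℂ] ℂ) := by
        rw [hI, sysI, Ideal.span_le]
        rintro _ ⟨i, rfl⟩
        simp only [SetLike.mem_coe, RingHom.mem_ker, map_sub, map_pow, aeval_X]
        rw [hy i, aeval_eq_eval]
        simp
      exact this hu
    have := hev (Ideal.Quotient.liftₐ I (aeval y) hy')
    have h2 : Ideal.Quotient.liftₐ I (aeval y) hy' (π h) = eval y h := by
      simp [π, coe_aeval_eq_eval]
    rwa [h2] at this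

end Crest.Agent.R316
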