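import Crest.Agent.R316.Sign
/-!
# Univariate families (task R316-Uni)

`uni 0` is an `AlgHom`, so `CHU` of sums/products/powers follows from `map_sum` etc. and the `CHP` closure.
`coeff`: `cf_uni`.  With `δ ≥ natDegree` a `PT` bound (`CHP.deg`, `natDegree_le_uni`):
`derivative^[j] b = ∑ k < δ + 1, C (coeff b (k + j) * ∏ t < j, (k + j - t)) * X ^ k`
(`Polynomial.coeff_iterate_derivative`, `Nat.descFactorial_eq_prod_range`); for `j > δ` both sides vanish;
`natDegree b = d ↔ d ≤ δ ∧ (d = 0 ∨ coeff d ≠ 0) ∧ ∀ k ≤ δ, d < k → coeff k = 0`.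
-/
set_option autoImplicit false
namespace Crest.Agent.R316
open Crest.Agent.PTime Finset
variable {α β : Type} [Enc α] [Enc β]

theorem CHU.congr {f g : α → Polynomial ℤ} (h : CHU g) (e : ∀ a, f a = g a) : CHU f := by
  have : f = g := funext e
  rwa [this]

@[fun_prop] theorem CHU.const (b : Polynomial ℤ) : CHU (fun _ : α => b) := CHP.const _

@[fun_prop] theorem CHU.comp {f : β → Polynomial ℤ} {g : α → β} (hf : CHU f) (hg : PT g) :
    CHU (fun a => f (g a)) := CHP.comp (f := fun b => uni 0 (f b)) hf hg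

theorem CHU.app₂ {f : β → ℕ → Polynomial ℤ} {g : α → β} {i : α → ℕ}
    (hf : CHU (fun x : β × ℕ => f x.1 x.2)) (hg : PT g) (hi : PT i) :
    CHU (fun a => f (g a) (i a)) := hf.comp (hg.pair hi)

theorem CHU.subst {f : α → ℕ → Polynomial ℤ} {φ : α → ℕ} (hf : CHU (fun x : α × ℕ => f x.1 x.2))
    (hφ : CHF φ) : CHU (fun a => f a (φ a)) := CHP.subst (f := fun a i => uni 0 (f a i)) hf hφ

@[fun_prop] theorem CHU.C {z : α → ℤ} (hz : CHZ z) : CHU (fun a => Polynomial.C (z a)) :=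
  CHP.congr hz fun _ => by simp [uni]

@[fun_prop] theorem CHU.neg {f : α → Polynomial ℤ} (hf : CHU f) : CHU (fun a => - f a) :=
  (CHP.neg hf).congr fun _ => map_neg _ _

@[fun_prop] theorem CHU.add {f g : α → Polynomial ℤ} (hf : CHU f) (hg : CHU g) :
    CHU (fun a => f a + g a) :=
  (CHP.add hf hg).congr fun _ => map_add _ _ _

@[fun_prop] theorem CHU.sub {f g : α → Polynomial ℤ} (hf : CHU f) (hg : CHU g) :
    CHU (fun a => f a - g a) :=
  (CHP.sub' hf hg).congr fun _ => map_sub _ _ _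

@[fun_prop] theorem CHU.mul {f g : α → Polynomial ℤ} (hf : CHU f) (hg : CHU g) :
    CHU (fun a => f a * g a) :=
  (CHP.mul hf hg).congr fun _ => map_mul _ _ _

@[fun_prop] theorem CHU.pow {f : α → Polynomial ℤ} {n : α → ℕ} (hf : CHU f) (hn : PT n) :
    CHU (fun a => f a ^ n a) :=
  (CHP.pow hf hn).congr fun _ => map_pow _ _ _

@[fun_prop] theorem CHU.ite {c : α → Prop} [∀ a, Decidable (c a)] {f g : α → Polynomial ℤ} (hc : PT c)
    (hf : CHU f) (hg : CHU g) : CHU (fun a => if c a then f a else g a) :=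
  (CHP.ite hc hf hg).congr fun _ => apply_ite _ _ _ _

@[fun_prop] theorem CHU.sum_range {f : α → ℕ → Polynomial ℤ} {N : α → ℕ} (hN : PT N)
    (hf : CHU (fun x : α × ℕ => f x.1 x.2)) : CHU (fun a => ∑ i ∈ range (N a), f a i) :=
  (CHP.sum_range (f := fun a i => uni 0 (f a i)) hN hf).congr fun _ => map_sum _ _ _

@[fun_prop] theorem CHZ.coeff {b : α → Polynomial ℤ} {k : α → ℕ} (hb : CHU b) (hk : PT k) :
    CHZ (fun a => (b a).coeff (k a)) :=
  (CHP.cf (lo := fun _ => 0) (m := fun _ => 1) (e := fun a _ => k a) (PT.const 0) (PB.const 0)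
    (PT.const 1) (PB.const 1) (hk.comp PT.id.fst) hb).congr fun _ => (cf_uni _ _).symm

@[fun_prop] theorem CHP.uni {b : α → Polynomial ℤ} {i : α → ℕ} (hi : PT i) (hb : CHU b) :
    CHP (fun a => uni (i a) (b a)) :=
  (CHP.sub (m := fun _ => 1) (g := fun a _ => MvPolynomial.X (i a)) (PT.const 1) (PB.const 1)
    (CHP.X (hi.comp PT.id.fst)) hb).congr fun _ => uni_eq_sub _ _

@[fun_prop] theorem CHU.tou {f : α → MP} {τ : α → ℕ} (hτ : PT τ) (hb : PB τ) (hf : CHP f) :
    CHU (fun a => tou (τ a) (f a)) :=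
  (CHP.sub (m := fun a => τ a + 1) (g := fun a i => if i = τ a then MvPolynomial.X 0 else 0)
    (hτ.add (PT.const 1)) (hb.add (PB.const 1))
    (CHP.ite (c := fun x : α × ℕ => x.2 = τ x.1) (by fun_prop) (CHP.const _) (CHP.const _))
    hf).congr fun _ => uni_tou _ _

theorem CHU.deg {b : α → Polynomial ℤ} (hb : CHU b) :
    ∃ δ : α → ℕ, PT δ ∧ ∀ a, (b a).natDegree ≤ δ a := by
  obtain ⟨δ, h1, h2⟩ := CHP.deg hb
  exact ⟨δ, h1, fun a => (natDegree_le_uni _).trans (h2 a)⟩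

theorem CHU.deg₂ {b : α → ℕ → Polynomial ℤ} (hb : CHU (fun x : α × ℕ => b x.1 x.2)) {N : α → ℕ}
    (hN : PT N) : ∃ δ : α → ℕ, PT δ ∧ ∀ a, ∀ i < N a, (b a i).natDegree ≤ δ a := by
  obtain ⟨δ, h1, h2⟩ := CHP.deg₂ (f := fun a i => uni 0 (b a i)) hb hN
  exact ⟨δ, h1, fun a i hi => (natDegree_le_uni _).trans (h2 a i hi)⟩

theorem UniA.iterate_eq {b : Polynomial ℤ} {δ : ℕ} (h : b.natDegree ≤ δ) (j : ℕ) :
    Polynomial.derivative^[j] b = ∑ k ∈ range (δ + 1),
      Polynomial.C (b.coeff (k + j) * ∏ t ∈ range j, ((k + j - t : ℕ) : ℤ)) * Polynomial.X ^ k := by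
  have hd : (Polynomial.derivative^[j] b).natDegree < δ + 1 := by
    have := Polynomial.natDegree_iterate_derivative b j
    omega
  conv_lhs => rw [Polynomial.as_sum_range_C_mul_X_pow' _ hd]
  refine sum_congr rfl fun k _ => ?_
  rw [Polynomial.coeff_iterate_derivative, Nat.descFactorial_eq_prod_range, nsmul_eq_mul,
    mul_comm (b.coeff _), Nat.cast_prod]

theorem UniA.natDegree_iff {b : Polynomial ℤ} {δ : ℕ} (h : b.natDegree ≤ δ) (d : ℕ) :
    b.natDegree = d ↔ (d = 0 ∨ ¬ b.coeff d = 0) ∧ ∀ k ≤ δ, d < k → b.coeff k = 0 := by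
  constructor
  · rintro rfl
    refine ⟨?_, fun k _ hk => Polynomial.coeff_eq_zero_of_natDegree_lt hk⟩
    by_cases hb : b = 0
    · simp [hb]
    · exact Or.inr (Polynomial.leadingCoeff_ne_zero.2 hb)
  · rintro ⟨h1, h2⟩
    refine le_antisymm (Polynomial.natDegree_le_iff_coeff_eq_zero.2 fun k hk => ?_) ?_
    · by_cases hk' : k ≤ δ
      · exact h2 k hk' hk
      · exact Polynomial.coeff_eq_zero_of_natDegree_lt (by omega)
    · rcases h1 with h1 | h1
      · omega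
      · exact Polynomial.le_natDegree_of_ne_zero h1

theorem CHU.iterate_derivative {b : α → Polynomial ℤ} {j : α → ℕ} (hb : CHU b) (hj : PT j) :
    CHU (fun a => Polynomial.derivative^[j a] (b a)) := by
  obtain ⟨δ, h1, h2⟩ := hb.deg
  refine CHU.congr ?_ fun a => UniA.iterate_eq (h2 a) (j a)
  refine CHU.sum_range (h1.add (PT.const 1)) (CHU.mul (CHU.C (CHZ.mul ?_ ?_)) ?_)
  · exact CHZ.coeff (hb.comp PT.id.fst) (by fun_prop)
  · exact CHZ.prod_range (f := fun (x : α × ℕ) t => ((x.2 + j x.1 - t : ℕ) : ℤ))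
      (hj.comp PT.id.fst) (CHZ.natCast (by fun_prop))
  · exact CHU.pow (CHU.const _) PT.id.snd

theorem CHF.natDegree {b : α → Polynomial ℤ} (hb : CHU b) : CHF (fun a => (b a).natDegree) := by
  obtain ⟨δ, h1, h2⟩ := hb.deg
  refine CHF.of_graph h1 h2 (CH.congr ?_ fun x => UniA.natDegree_iff (h2 x.1) x.2)
  refine CH.and (CH.or (CH.of_PT (by fun_prop))
    (CHZ.coeff (hb.comp PT.id.fst) PT.id.snd).eq_zero.not) ?_
  refine CH.forall_le (B := fun (x : α × ℕ) k => x.2 < k → (b x.1).coeff k = 0)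
    (h1.comp PT.id.fst) (CH.imp (CH.of_PT (by fun_prop)) ?_)
  exact (CHZ.coeff (hb.comp PT.id.fst.fst) PT.id.snd).eq_zero

theorem CHZ.leadingCoeff {b : α → Polynomial ℤ} (hb : CHU b) : CHZ (fun a => (b a).leadingCoeff) :=
  CHZ.subst (f := fun a k => (b a).coeff k) (CHZ.coeff (hb.comp PT.id.fst) PT.id.snd)
    (CHF.natDegree hb)

theorem CHU.ne_zero {b : α → Polynomial ℤ} (hb : CHU b) : CH (fun a => b a ≠ 0) :=
  (CHZ.leadingCoeff hb).eq_zero.not.congr fun _ => by rw [Polynomial.leadingCoeff_eq_zero]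

theorem GridF.valid {n : α → ℕ} {b : α → ℕ → Polynomial ℤ} (h : GridF n b) :
    CH (fun a => Valid (n a) (b a)) :=
  CH.forall_lt (B := fun a i => b a i ≠ 0) h.ptn h.chu.ne_zero

end Crest.Agent.R316
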